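import Vale.Agent.P100.Main

/-!
The localized Rellich–Pohozaev inequality for positive entire solutions, punctured at the origin.
-/

open MeasureTheory Filter Topology Laplacian
open scoped ContDiff

noncomputable section

namespace Vale.Agent.P100C

open Vale.Agent.P100

variable {n : ℕ}

lemma abs_pd_le (i : Fin n) (f : Euc n → ℝ) (x : Euc n) : |pd i f x| ≤ ‖fderiv ℝ f x‖ := by
  have := (fderiv ℝ f x).le_opNorm (ev i)
  rwa [norm_ev, mul_one, Real.norm_eq_abs] at this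

lemma norm_fderiv_sq_le (f : Euc n → ℝ) (x : Euc n) : ‖fderiv ℝ f x‖ ^ 2 ≤ grad2 f x := by
  have h : ‖fderiv ℝ f x‖ ≤ Real.sqrt (grad2 f x) := by
    refine ContinuousLinearMap.opNorm_le_bound _ (Real.sqrt_nonneg _) fun y => ?_
    have hy : fderiv ℝ f x y = ∑ i, y i * pd i f x := by
      conv_lhs => rw [← (EuclideanSpace.basisFun (Fin n) ℝ).sum_repr y]
      simp [pd, ev, EuclideanSpace.basisFun_apply]
    rw [Real.norm_eq_abs, hy]
    refine abs_le_of_sq_le_sq ?_ (mul_nonneg (Real.sqrt_nonneg _) (norm_nonneg _))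
    rw [mul_pow, Real.sq_sqrt (grad2_nonneg f x), EuclideanSpace.real_norm_sq_eq, mul_comm]
    exact Finset.sum_mul_sq_le_sq_mul_sq _ _ _
  nlinarith [Real.sq_sqrt (grad2_nonneg f x), norm_nonneg (fderiv ℝ f x)]

lemma grad2_le (f : Euc n → ℝ) (x : Euc n) : grad2 f x ≤ n * ‖fderiv ℝ f x‖ ^ 2 := by
  refine (Finset.sum_le_card_nsmul _ _ (‖fderiv ℝ f x‖ ^ 2) fun i _ => ?_).trans (by simp)
  exact sq_le_sq.2 (by rw [abs_norm]; exact abs_pd_le i f x)

lemma norm_fderiv_radial {L : ℝ} (hL : ∀ y, |deriv Real.smoothTransition y| ≤ L) (s o : ℝ)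
    (x : Euc n) : ‖fderiv ℝ (radial s o) x‖ ≤ L * (2 * |s| * ‖x‖) := by
  have hg : HasFDerivAt (fun y : Euc n => s * ‖y‖ ^ 2 + o) (s • (2 • innerSL ℝ x)) x :=
    ((hasStrictFDerivAt_norm_sq x).hasFDerivAt.const_mul s).add_const o
  have h := (((Real.smoothTransition.contDiff (n := 1)).differentiable one_ne_zero
    (s * ‖x‖ ^ 2 + o)).hasDerivAt.comp_hasFDerivAt x hg).fderiv
  simp only [Function.comp_def] at h
  change ‖fderiv ℝ (fun y : Euc n => Real.smoothTransition (s * ‖y‖ ^ 2 + o)) x‖ ≤ _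
  rw [h, norm_smul, norm_smul, ← Nat.cast_smul_eq_nsmul ℝ, norm_smul, Real.norm_eq_abs,
    Real.norm_eq_abs, innerSL_apply_norm, Nat.cast_ofNat, Real.norm_ofNat]
  calc _ ≤ L * (|s| * (2 * ‖x‖)) := mul_le_mul_of_nonneg_right (hL _) (by positivity)
    _ = _ := by ring

lemma fderiv_eq_zero_of_notMem {f : Euc n → ℝ} {x : Euc n} (h : x ∉ tsupport f) :
    fderiv ℝ f x = 0 := by
  rw [(notMem_tsupport_iff_eventuallyEq.1 h).fderiv_eq]; simp

/-- At a point away from the origin the glued function solves the same equation. -/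
lemma glue_local {δ : ℝ} (hδ : 0 < δ) {u : Euc n → ℝ} (hu : ContDiffOn ℝ 2 u {x | x ≠ 0})
    {x : Euc n} (hx : 3 / 4 * δ < ‖x‖) :
    glue δ u x = u x ∧ fderiv ℝ (glue δ u) x = fderiv ℝ u x ∧
      ∑ i, pd i (pd i (glue δ u)) x = Δ u x := by
  have hnhds : {y : Euc n | 3 / 4 * δ < ‖y‖} ∈ 𝓝 x :=
    (isOpen_lt continuous_const continuous_norm).mem_nhds hx
  have hE : glue δ u =ᶠ[𝓝 x] u := mem_of_superset hnhds fun y (hy : 3 / 4 * δ < ‖y‖) =>
    glue_eq hδ u hy.le
  refine ⟨hE.eq_of_nhds, hE.fderiv_eq, ?_⟩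
  rw [← laplacian_eq_sum (contDiff_glue hδ hu).contDiffAt,
    (InnerProductSpace.laplacian_congr_nhds hE).eq_of_nhds]

/-- weighted product of gradient and function sizes -/
def Hf (U V : Euc n → ℝ) (p q : ℝ) (x : Euc n) : ℝ :=
  ‖x‖ * (‖fderiv ℝ U x‖ * ‖fderiv ℝ V x‖ + (V x ^ (p + 1) + U x ^ (q + 1)))
    + V x * ‖fderiv ℝ U x‖ + U x * ‖fderiv ℝ V x‖

/-- Pohozaev vector field -/
def Ff (U V : Euc n → ℝ) (p q a1 a2 : ℝ) (i : Fin n) (x : Euc n) : ℝ :=
  pd i U x * (∑ j, x j * pd j V x) + pd i V x * (∑ j, x j * pd j U x)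
    - x i * (∑ j, pd j U x * pd j V x)
    + x i * (1 / (p + 1) * V x ^ (p + 1) + 1 / (q + 1) * U x ^ (q + 1))
    + a1 * (V x * pd i U x) + a2 * (U x * pd i V x)

lemma contDiff_coord (j : Fin n) {k : WithTop ℕ∞} : ContDiff ℝ k (fun x : Euc n => x j) :=
  (EuclideanSpace.proj (𝕜 := ℝ) j).contDiff

lemma pd_coord (i j : Fin n) (x : Euc n) :
    pd i (fun y : Euc n => y j) x = if j = i then 1 else 0 := by
  change fderiv ℝ (EuclideanSpace.proj (𝕜 := ℝ) j : Euc n → ℝ) x (ev i) = _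
  rw [ContinuousLinearMap.fderiv]
  simp [ev]

lemma pd_fun_sum {f : Fin n → Euc n → ℝ} {x : Euc n} (hf : ∀ j, DifferentiableAt ℝ (f j) x)
    (i : Fin n) : pd i (fun y => ∑ j, f j y) x = ∑ j, pd i (f j) x := by
  simp only [pd]
  rw [fderiv_fun_sum fun j _ => hf j]
  simp

section Field

variable {U V : Euc n → ℝ} (hU : ContDiff ℝ 2 U) (hV : ContDiff ℝ 2 V) (hUp : ∀ x, 0 < U x)
  (hVp : ∀ x, 0 < V x) {p q : ℝ} (a1 a2 : ℝ)

include hU hV hUp hVp in
lemma contDiff_Ff (i : Fin n) : ContDiff ℝ 1 (Ff U V p q a1 a2 i) := by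
  have a : ∀ j, ContDiff ℝ 1 (pd j U) := fun j => contDiff_pd hU j
  have b : ∀ j, ContDiff ℝ 1 (pd j V) := fun j => contDiff_pd hV j
  have hU1 : ContDiff ℝ 1 U := hU.of_le one_le_two
  have hV1 : ContDiff ℝ 1 V := hV.of_le one_le_two
  refine ((((((a i).mul ?_).add ((b i).mul ?_)).sub ((contDiff_coord i).mul ?_)).add
    ((contDiff_coord i).mul ?_)).add (contDiff_const.mul (hV1.mul (a i)))).add
    (contDiff_const.mul (hU1.mul (b i)))
  · exact ContDiff.sum fun j _ => (contDiff_coord j).mul (b j)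
  · exact ContDiff.sum fun j _ => (contDiff_coord j).mul (a j)
  · exact ContDiff.sum fun j _ => (a j).mul (b j)
  · exact (contDiff_const.mul (hV1.rpow_const_of_ne fun x => (hVp x).ne')).add
      (contDiff_const.mul (hU1.rpow_const_of_ne fun x => (hUp x).ne'))

include hU hV hUp hVp in
lemma pd_Ff (hp : p + 1 ≠ 0) (hq : q + 1 ≠ 0) (i : Fin n) (x : Euc n) :
    pd i (Ff U V p q a1 a2 i) x =
      pd i (pd i U) x * (∑ j, x j * pd j V x)
        + pd i U x * (pd i V x + ∑ j, x j * pd i (pd j V) x)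
      + (pd i (pd i V) x * (∑ j, x j * pd j U x)
        + pd i V x * (pd i U x + ∑ j, x j * pd i (pd j U) x))
      - ((∑ j, pd j U x * pd j V x)
        + x i * ∑ j, (pd i (pd j U) x * pd j V x + pd j U x * pd i (pd j V) x))
      + ((1 / (p + 1) * V x ^ (p + 1) + 1 / (q + 1) * U x ^ (q + 1))
        + x i * (V x ^ p * pd i V x + U x ^ q * pd i U x))
      + a1 * (pd i V x * pd i U x + V x * pd i (pd i U) x)
      + a2 * (pd i U x * pd i V x + U x * pd i (pd i V) x) := by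
  have a : ∀ j, DifferentiableAt ℝ (pd j U) x := fun j =>
    (contDiff_pd hU j).differentiable one_ne_zero x
  have b : ∀ j, DifferentiableAt ℝ (pd j V) x := fun j =>
    (contDiff_pd hV j).differentiable one_ne_zero x
  have hU1 : DifferentiableAt ℝ U x := (hU.of_le one_le_two).differentiable one_ne_zero x
  have hV1 : DifferentiableAt ℝ V x := (hV.of_le one_le_two).differentiable one_ne_zero x
  have c : ∀ j, DifferentiableAt ℝ (fun y : Euc n => y j) x := fun j =>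
    (contDiff_coord (k := 1) j).differentiable one_ne_zero x
  have hVr : DifferentiableAt ℝ (fun y => V y ^ (p + 1)) x :=
    hV1.rpow_const (Or.inl (hVp x).ne')
  have hUr : DifferentiableAt ℝ (fun y => U y ^ (q + 1)) x :=
    hU1.rpow_const (Or.inl (hUp x).ne')
  have dSV : DifferentiableAt ℝ (fun y : Euc n => ∑ j, y j * pd j V y) x :=
    DifferentiableAt.fun_sum fun j _ => (c j).mul (b j)
  have dSU : DifferentiableAt ℝ (fun y : Euc n => ∑ j, y j * pd j U y) x :=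
    DifferentiableAt.fun_sum fun j _ => (c j).mul (a j)
  have dT : DifferentiableAt ℝ (fun y : Euc n => ∑ j, pd j U y * pd j V y) x :=
    DifferentiableAt.fun_sum fun j _ => (a j).mul (b j)
  have dP := (hVr.const_mul (1 / (p + 1))).fun_add (hUr.const_mul (1 / (q + 1)))
  have t1 := (a i).fun_mul dSV
  have t2 := (b i).fun_mul dSU
  have t3 := (c i).fun_mul dT
  have t4 := (c i).fun_mul dP
  have t5 := (hV1.fun_mul (a i)).const_mul a1
  have t6 := (hU1.fun_mul (b i)).const_mul a2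
  have eSV : pd i (fun y : Euc n => ∑ j, y j * pd j V y) x
      = pd i V x + ∑ j, x j * pd i (pd j V) x := by
    rw [pd_fun_sum (fun j => (c j).fun_mul (b j))]
    simp [fun j => pd_mul' (c j) (b j) i, pd_coord, Finset.sum_add_distrib]
  have eSU : pd i (fun y : Euc n => ∑ j, y j * pd j U y) x
      = pd i U x + ∑ j, x j * pd i (pd j U) x := by
    rw [pd_fun_sum (fun j => (c j).fun_mul (a j))]
    simp [fun j => pd_mul' (c j) (a j) i, pd_coord, Finset.sum_add_distrib]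
  have eT : pd i (fun y : Euc n => ∑ j, pd j U y * pd j V y) x
      = ∑ j, (pd i (pd j U) x * pd j V x + pd j U x * pd i (pd j V) x) := by
    rw [pd_fun_sum (fun j => (a j).fun_mul (b j))]
    exact Finset.sum_congr rfl fun j _ => pd_mul' (a j) (b j) i
  have eP : pd i (fun y => 1 / (p + 1) * V y ^ (p + 1) + 1 / (q + 1) * U y ^ (q + 1)) x
      = V x ^ p * pd i V x + U x ^ q * pd i U x := by
    rw [pd_add' (hVr.const_mul _) (hUr.const_mul _), pd_const_mul _ hVr, pd_const_mul _ hUr,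
      pd_comp hV1 (Real.hasDerivAt_rpow_const (Or.inl (hVp x).ne')) i,
      pd_comp hU1 (Real.hasDerivAt_rpow_const (Or.inl (hUp x).ne')) i]
    simp only [add_sub_cancel_right]
    field_simp
  have esub : ∀ {f g : Euc n → ℝ}, DifferentiableAt ℝ f x → DifferentiableAt ℝ g x →
      pd i (fun y => f y - g y) x = pd i f x - pd i g x := by
    intro f g hf hg
    simp [pd, fderiv_fun_sub hf hg]
  change pd i (fun y => pd i U y * (∑ j, y j * pd j V y) + pd i V y * (∑ j, y j * pd j U y)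
    - y i * (∑ j, pd j U y * pd j V y)
    + y i * (1 / (p + 1) * V y ^ (p + 1) + 1 / (q + 1) * U y ^ (q + 1))
    + a1 * (V y * pd i U y) + a2 * (U y * pd i V y)) x = _
  rw [pd_add' ((((t1.fun_add t2).fun_sub t3).fun_add t4).fun_add t5) t6,
    pd_add' (((t1.fun_add t2).fun_sub t3).fun_add t4) t5,
    pd_add' ((t1.fun_add t2).fun_sub t3) t4, esub (t1.fun_add t2) t3, pd_add' t1 t2,
    pd_const_mul a1 (hV1.fun_mul (a i)), pd_const_mul a2 (hU1.fun_mul (b i)),
    pd_mul' (a i) dSV, pd_mul' (b i) dSU, pd_mul' (c i) dT, pd_mul' (c i) dP,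
    pd_mul' hV1 (a i), pd_mul' hU1 (b i), eSV, eSU, eT, eP, pd_coord, if_pos rfl, one_mul, one_mul]

include hU hV hUp hVp in
lemma sum_pd_Ff (hp : p + 1 ≠ 0) (hq : q + 1 ≠ 0) (x : Euc n)
    (e1 : ∑ i, pd i (pd i U) x = -(V x ^ p)) (e2 : ∑ i, pd i (pd i V) x = -(U x ^ q))
    (ha : a1 + a2 = (n : ℝ) - 2) :
    ∑ i, pd i (Ff U V p q a1 a2 i) x =
      ((n : ℝ) / (p + 1) - a1) * V x ^ (p + 1) + ((n : ℝ) / (q + 1) - a2) * U x ^ (q + 1) := by
  simp only [pd_Ff hU hV hUp hVp a1 a2 hp hq]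
  simp only [Finset.sum_add_distrib, Finset.sum_sub_distrib, mul_add, Finset.mul_sum]
  simp only [← Finset.mul_sum, ← Finset.sum_mul, Finset.sum_const, Finset.card_univ,
    Fintype.card_fin, nsmul_eq_mul]
  have cU : ∑ i, x i * ∑ j, pd i (pd j U) x * pd j V x
      = ∑ i, pd i V x * ∑ j, x j * pd i (pd j U) x := by
    simp only [Finset.mul_sum]
    rw [Finset.sum_comm]
    exact Finset.sum_congr rfl fun i _ => Finset.sum_congr rfl fun j _ => by
      rw [pd_symm hU j i]; ring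
  have cV : ∑ i, x i * ∑ j, pd j U x * pd i (pd j V) x
      = ∑ i, pd i U x * ∑ j, x j * pd i (pd j V) x := by
    simp only [Finset.mul_sum]
    rw [Finset.sum_comm]
    exact Finset.sum_congr rfl fun i _ => Finset.sum_congr rfl fun j _ => by
      rw [pd_symm hV j i]; ring
  have hT : ∑ i, pd i V x * pd i U x = ∑ i, pd i U x * pd i V x :=
    Finset.sum_congr rfl fun i _ => mul_comm _ _
  have hSV : ∑ i, x i * (V x ^ p * pd i V x) = V x ^ p * ∑ j, x j * pd j V x := by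
    rw [Finset.mul_sum]; exact Finset.sum_congr rfl fun i _ => by ring
  have hSU : ∑ i, x i * (U x ^ q * pd i U x) = U x ^ q * ∑ j, x j * pd j U x := by
    rw [Finset.mul_sum]; exact Finset.sum_congr rfl fun i _ => by ring
  rw [e1, e2, cU, cV, hT, hSV, hSU, Real.rpow_add_one (hVp x).ne' p,
    Real.rpow_add_one (hUp x).ne' q]
  linear_combination (∑ i, pd i U x * pd i V x) * ha

include hUp hVp in
lemma abs_Ff_le (hp : 0 ≤ p) (hq : 0 ≤ q) (i : Fin n) (x : Euc n) :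
    |Ff U V p q a1 a2 i x| ≤ (3 * n + 1 + |a1| + |a2|) * Hf U V p q x := by
  have hc : ∀ j, |x j| ≤ ‖x‖ := fun j => by
    simpa [Real.norm_eq_abs] using PiLp.norm_apply_le x j
  set A := ‖fderiv ℝ U x‖
  set B := ‖fderiv ℝ V x‖
  have hA : 0 ≤ A := norm_nonneg _
  have hB : 0 ≤ B := norm_nonneg _
  have hx := norm_nonneg x
  have hs : ∀ (f : Fin n → ℝ) (c : ℝ), (∀ j, |f j| ≤ c) → |∑ j, f j| ≤ n * c := fun f c h =>
    (Finset.abs_sum_le_sum_abs _ _).trans
      ((Finset.sum_le_card_nsmul _ _ c fun j _ => h j).trans (by simp))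
  have b1 : |pd i U x * ∑ j, x j * pd j V x| ≤ A * (n * (‖x‖ * B)) := by
    rw [abs_mul]
    exact mul_le_mul (abs_pd_le i U x) (hs _ _ fun j => by
      rw [abs_mul]; exact mul_le_mul (hc j) (abs_pd_le j V x) (abs_nonneg _) hx) (abs_nonneg _) hA
  have b2 : |pd i V x * ∑ j, x j * pd j U x| ≤ B * (n * (‖x‖ * A)) := by
    rw [abs_mul]
    exact mul_le_mul (abs_pd_le i V x) (hs _ _ fun j => by
      rw [abs_mul]; exact mul_le_mul (hc j) (abs_pd_le j U x) (abs_nonneg _) hx) (abs_nonneg _) hB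
  have b3 : |x i * ∑ j, pd j U x * pd j V x| ≤ ‖x‖ * (n * (A * B)) := by
    rw [abs_mul]
    exact mul_le_mul (hc i) (hs _ _ fun j => by
      rw [abs_mul]
      exact mul_le_mul (abs_pd_le j U x) (abs_pd_le j V x) (abs_nonneg _) hA) (abs_nonneg _) hx
  have hv' : 0 ≤ V x ^ (p + 1) := (Real.rpow_pos_of_pos (hVp x) _).le
  have hu' : 0 ≤ U x ^ (q + 1) := (Real.rpow_pos_of_pos (hUp x) _).le
  have b4 : |x i * (1 / (p + 1) * V x ^ (p + 1) + 1 / (q + 1) * U x ^ (q + 1))|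
      ≤ ‖x‖ * (V x ^ (p + 1) + U x ^ (q + 1)) := by
    rw [abs_mul]
    refine mul_le_mul (hc i) ?_ (abs_nonneg _) hx
    rw [abs_of_nonneg (by positivity)]
    have h1 : 1 / (p + 1) ≤ 1 := by rw [div_le_one (by linarith)]; linarith
    have h2 : 1 / (q + 1) ≤ 1 := by rw [div_le_one (by linarith)]; linarith
    nlinarith
  have b5 : |a1 * (V x * pd i U x)| ≤ |a1| * (V x * A) := by
    rw [abs_mul, abs_mul, abs_of_pos (hVp x)]
    exact mul_le_mul_of_nonneg_left
      (mul_le_mul_of_nonneg_left (abs_pd_le i U x) (hVp x).le) (abs_nonneg _)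
  have b6 : |a2 * (U x * pd i V x)| ≤ |a2| * (U x * B) := by
    rw [abs_mul, abs_mul, abs_of_pos (hUp x)]
    exact mul_le_mul_of_nonneg_left
      (mul_le_mul_of_nonneg_left (abs_pd_le i V x) (hUp x).le) (abs_nonneg _)
  have p1 : 0 ≤ ‖x‖ * (A * B) := by positivity
  have p2 : 0 ≤ ‖x‖ * (V x ^ (p + 1) + U x ^ (q + 1)) := by positivity
  have p3 : 0 ≤ V x * A := mul_nonneg (hVp x).le hA
  have p4 : 0 ≤ U x * B := mul_nonneg (hUp x).le hB
  have h12 := abs_add_le (pd i U x * ∑ j, x j * pd j V x) (pd i V x * ∑ j, x j * pd j U x)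
  unfold Ff Hf
  refine (abs_add_le _ _).trans ((add_le_add ((abs_add_le _ _).trans (add_le_add
    ((abs_add_le _ _).trans (add_le_add ((abs_sub _ _).trans (add_le_add h12 le_rfl)) le_rfl))
    le_rfl)) le_rfl).trans ?_)
  nlinarith [abs_nonneg a1, abs_nonneg a2, (Nat.cast_nonneg n : (0 : ℝ) ≤ n)]

end Field

/-- The identity tested against a cutoff that avoids the origin. -/
lemma identity_bound {p q κ a1 a2 : ℝ} (hp : 0 < p) (hq : 0 < q) (ha : a1 + a2 = (n : ℝ) - 2)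
    (h1 : (n : ℝ) / (p + 1) - a1 = κ) (h2 : (n : ℝ) / (q + 1) - a2 = κ)
    {u v : Euc n → ℝ} (hs : IsPositiveEntireSolution p q u v) {ψ : Euc n → ℝ}
    (hψ : ContDiff ℝ 1 ψ) (hψc : HasCompactSupport ψ) (h0 : (0 : Euc n) ∉ tsupport ψ) :
    Integrable (fun x => ‖fderiv ℝ ψ x‖ * Hf u v p q x) ∧
    |κ * ∫ x, ψ x * (v x ^ (p + 1) + u x ^ (q + 1))|
      ≤ n * (3 * n + 1 + |a1| + |a2|) * ∫ x, ‖fderiv ℝ ψ x‖ * Hf u v p q x := by
  obtain ⟨huc, hvc, hu2, hv2, hup, hvp, heq⟩ := hs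
  obtain ⟨δ, hδ, hball⟩ := Metric.isOpen_iff.1 (isClosed_tsupport ψ).isOpen_compl 0 h0
  have hfar : ∀ x ∈ tsupport ψ, 3 / 4 * δ < ‖x‖ := by
    intro x hx
    by_contra h
    exact hball (by simp only [Metric.mem_ball, dist_zero_right]; linarith) hx
  set U := glue δ u
  set V := glue δ v
  have hU : ContDiff ℝ 2 U := contDiff_glue hδ hu2
  have hV : ContDiff ℝ 2 V := contDiff_glue hδ hv2
  have hUp : ∀ x, 0 < U x := glue_pos hup
  have hVp : ∀ x, 0 < V x := glue_pos hvp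
  have eqH : ∀ x, ‖fderiv ℝ ψ x‖ * Hf u v p q x = ‖fderiv ℝ ψ x‖ * Hf U V p q x := by
    intro x
    by_cases hx : x ∈ tsupport ψ
    · obtain ⟨a, b, -⟩ := glue_local hδ hu2 (hfar x hx)
      obtain ⟨c, d, -⟩ := glue_local hδ hv2 (hfar x hx)
      simp only [Hf, U, V, a, b, c, d]
    · simp [fderiv_eq_zero_of_notMem hx]
  have hint : Integrable (fun x => ‖fderiv ℝ ψ x‖ * Hf U V p q x) := by
    refine (((hψ.continuous_fderiv one_ne_zero).norm).mul ?_).integrable_of_hasCompactSupport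
      ((hψc.fderiv ℝ).norm.mul_right)
    have c1 := (hU.continuous_fderiv two_ne_zero).norm
    have c2 := (hV.continuous_fderiv two_ne_zero).norm
    exact ((continuous_norm.mul ((c1.mul c2).add ((hV.continuous.rpow_const fun x =>
      Or.inl (hVp x).ne').add (hU.continuous.rpow_const fun x => Or.inl (hUp x).ne')))).add
      (hV.continuous.mul c1)).add (hU.continuous.mul c2)
  refine ⟨hint.congr (Eventually.of_forall fun x => (eqH x).symm), ?_⟩
  simp only [eqH]
  set F := Ff U V p q a1 a2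
  have hF : ∀ i, ContDiff ℝ 1 (F i) := contDiff_Ff hU hV hUp hVp a1 a2
  have i1 : ∀ i, Integrable fun x => ψ x * pd i (F i) x := fun i =>
    (hψ.continuous.mul (continuous_pd (hF i) i)).integrable_of_hasCompactSupport hψc.mul_right
  have i2 : ∀ i, Integrable fun x => pd i ψ x * F i x := fun i =>
    ((continuous_pd hψ i).mul (hF i).continuous).integrable_of_hasCompactSupport
      (hasCompactSupport_pd hψc i).mul_right
  have hkey : κ * ∫ x, ψ x * (v x ^ (p + 1) + u x ^ (q + 1))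
      = -∑ i, ∫ x, pd i ψ x * F i x := by
    rw [← Finset.sum_neg_distrib, ← integral_const_mul,
      ← Finset.sum_congr rfl fun i _ => integral_pd_mul hψ hψc (hF i) i,
      ← integral_finsetSum _ fun i _ => i1 i]
    refine integral_congr_ae (Eventually.of_forall fun x => ?_)
    simp only [← Finset.mul_sum]
    by_cases hx : x ∈ tsupport ψ
    · obtain ⟨a, -, b⟩ := glue_local hδ hu2 (hfar x hx)
      obtain ⟨c, -, d⟩ := glue_local hδ hv2 (hfar x hx)
      have hx0 : x ≠ 0 := fun h => h0 (h ▸ hx)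
      obtain ⟨e1, e2⟩ := heq x hx0
      simp only [F]
      rw [sum_pd_Ff hU hV hUp hVp a1 a2 (by linarith) (by linarith) x
        (by rw [b, show V x = v x from c]; linarith)
        (by rw [d, show U x = u x from a]; linarith) ha, h1, h2,
        show V x = v x from c, show U x = u x from a]
      ring
    · simp [image_eq_zero_of_notMem_tsupport hx]
  have hb : ∀ i, |∫ x, pd i ψ x * F i x|
      ≤ (3 * n + 1 + |a1| + |a2|) * ∫ x, ‖fderiv ℝ ψ x‖ * Hf U V p q x := by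
    intro i
    rw [← integral_const_mul]
    refine abs_integral_le_integral_abs.trans (integral_mono (i2 i).abs (hint.const_mul _)
      fun x => ?_)
    rw [abs_mul, mul_left_comm]
    exact mul_le_mul (abs_pd_le i ψ x) (abs_Ff_le hUp hVp a1 a2 hp.le hq.le i x) (abs_nonneg _)
      (norm_nonneg _)
  rw [hkey, abs_neg]
  refine (Finset.abs_sum_le_sum_abs _ _).trans
    ((Finset.sum_le_card_nsmul _ _ _ fun i _ => hb i).trans (le_of_eq ?_))
  simp [mul_assoc]

/-- Caccioppoli on a dyadic shell around the origin. -/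
lemma energy (hn : 3 ≤ n) {L : ℝ} (hL : ∀ y, |deriv Real.smoothTransition y| ≤ L)
    {u g : Euc n → ℝ} (hu2 : ContDiffOn ℝ 2 u {x | x ≠ 0}) (hup : ∀ x, 0 < u x)
    (heq : ∀ x, x ≠ 0 → -(Δ u x) = g x) {M : ℝ}
    (hM : ∀ x ∈ Metric.closedBall (0 : Euc n) 1, u x ≤ M ∧ |g x| ≤ M)
    {ε : ℝ} (hε : 0 < ε) (hε4 : ε < 1 / 4) :
    IntegrableOn (fun x => ‖fderiv ℝ u x‖ ^ 2) {x : Euc n | ε ≤ ‖x‖ ∧ ‖x‖ ≤ 2 * ε} ∧
    ∫ x in {x : Euc n | ε ≤ ‖x‖ ∧ ‖x‖ ≤ 2 * ε}, ‖fderiv ℝ u x‖ ^ 2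
      ≤ (2 * M ^ 2 + 4 * M ^ 2 * (n * (34 * L / ε) ^ 2))
        * ((4 * ε) ^ n * (volume : Measure (Euc n)).real (Metric.ball 0 1)) := by
  set S : Set (Euc n) := {x | ε ≤ ‖x‖ ∧ ‖x‖ ≤ 2 * ε}
  have hSc : IsCompact S := (isCompact_closedBall (0 : Euc n) (2 * ε)).of_isClosed_subset
    (isClosed_le continuous_const continuous_norm |>.inter
      (isClosed_le continuous_norm continuous_const))
    fun x hx => by simpa using hx.2
  have hL0 : 0 ≤ L := (abs_nonneg _).trans (hL 0)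
  have hM0 : 0 ≤ M := (hup 0).le.trans (hM 0 (by simp)).1
  set c0 : Euc n → ℝ := radial (4 / ε ^ 2) (-1) with hc0
  set c1 : Euc n → ℝ := radial (-(1 / (4 * ε ^ 2))) 2 with hc1
  set χ : Euc n → ℝ := fun x => c0 x * c1 x with hχdef
  have hχs : ContDiff ℝ 1 χ := (contDiff_radial _ _).mul (contDiff_radial _ _)
  have hlow : ∀ x : Euc n, ‖x‖ ≤ ε / 2 → c0 x = 0 := fun x hx => by
    apply Real.smoothTransition.zero_of_nonpos
    have h := pow_le_pow_left₀ (norm_nonneg x) hx 2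
    have : 4 / ε ^ 2 * ‖x‖ ^ 2 ≤ 1 := by
      rw [div_mul_eq_mul_div, div_le_one (by positivity)]; linarith
    linarith
  have hfar : ∀ x : Euc n, 4 * ε ≤ ‖x‖ → c1 x = 0 := fun x hx => by
    apply Real.smoothTransition.zero_of_nonpos
    have : 4 ≤ 1 / (4 * ε ^ 2) * ‖x‖ ^ 2 := by
      rw [div_mul_eq_mul_div, le_div_iff₀ (by positivity)]; nlinarith
    linarith
  have hone : ∀ x ∈ S, χ x = 1 := by
    rintro x ⟨hl, hr⟩
    have e0 : c0 x = 1 := by
      apply Real.smoothTransition.one_of_one_le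
      have : 4 ≤ 4 / ε ^ 2 * ‖x‖ ^ 2 := by
        rw [div_mul_eq_mul_div, le_div_iff₀ (by positivity)]; nlinarith
      linarith
    have e1 : c1 x = 1 := by
      apply Real.smoothTransition.one_of_one_le
      have : 1 / (4 * ε ^ 2) * ‖x‖ ^ 2 ≤ 1 := by
        rw [div_mul_eq_mul_div, div_le_one (by positivity)]; nlinarith [norm_nonneg x]
      linarith
    simp [hχdef, e0, e1]
  have hts : tsupport χ ⊆ {x | ε / 2 ≤ ‖x‖ ∧ ‖x‖ ≤ 4 * ε} := by
    refine closure_minimal (fun x hx => ?_) (isClosed_le continuous_const continuous_norm |>.inter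
      (isClosed_le continuous_norm continuous_const))
    constructor
    · by_contra h; exact hx (by simp [hχdef, hlow x (le_of_not_ge h)])
    · by_contra h; exact hx (by simp [hχdef, hfar x (le_of_not_ge h)])
  have hχc : HasCompactSupport χ := (isCompact_closedBall (0 : Euc n) (4 * ε)).of_isClosed_subset
    (isClosed_tsupport χ) fun x hx => by simpa using (hts hx).2
  have hχb : ∀ x, 0 ≤ χ x ∧ χ x ≤ 1 := fun x =>
    ⟨mul_nonneg (radial_mem _ _ x).1 (radial_mem _ _ x).1,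
      mul_le_one₀ (radial_mem _ _ x).2 (radial_mem _ _ x).1 (radial_mem _ _ x).2⟩
  have hχd : ∀ x : Euc n, ‖x‖ ≤ 4 * ε → ‖fderiv ℝ χ x‖ ≤ 34 * L / ε := by
    intro x hx
    have d0 : DifferentiableAt ℝ c0 x :=
      (contDiff_radial (m := 1) _ _).differentiable one_ne_zero x
    have d1 : DifferentiableAt ℝ c1 x :=
      (contDiff_radial (m := 1) _ _).differentiable one_ne_zero x
    rw [hχdef, fderiv_fun_mul d0 d1]
    refine (norm_add_le _ _).trans ?_
    rw [norm_smul, norm_smul, Real.norm_eq_abs, Real.norm_eq_abs]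
    have k0 : |c0 x| ≤ 1 := by
      rw [abs_of_nonneg (radial_mem _ _ x).1]; exact (radial_mem _ _ x).2
    have k1 : |c1 x| ≤ 1 := by
      rw [abs_of_nonneg (radial_mem _ _ x).1]; exact (radial_mem _ _ x).2
    have m0 : ‖fderiv ℝ c0 x‖ ≤ 32 * L / ε := by
      refine (norm_fderiv_radial hL _ _ x).trans ?_
      rw [abs_of_pos (by positivity)]
      calc L * (2 * (4 / ε ^ 2) * ‖x‖) ≤ L * (2 * (4 / ε ^ 2) * (4 * ε)) := by gcongr
        _ = _ := by field_simp; ring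
    have m1 : ‖fderiv ℝ c1 x‖ ≤ 2 * L / ε := by
      refine (norm_fderiv_radial hL _ _ x).trans ?_
      rw [abs_neg, abs_of_pos (by positivity)]
      calc L * (2 * (1 / (4 * ε ^ 2)) * ‖x‖) ≤ L * (2 * (1 / (4 * ε ^ 2)) * (4 * ε)) := by gcongr
        _ = _ := by field_simp
    calc |c0 x| * ‖fderiv ℝ c1 x‖ + |c1 x| * ‖fderiv ℝ c0 x‖
        ≤ 1 * (2 * L / ε) + 1 * (32 * L / ε) := by gcongr
      _ = _ := by ring
  have hδ : 0 < ε / 2 := by linarith
  set U := glue (ε / 2) u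
  have hU : ContDiff ℝ 2 U := contDiff_glue hδ hu2
  set f : Euc n → ℝ := fun x => χ x * χ x * U x
  have hf : ContDiff ℝ 1 f := (hχs.mul hχs).mul (hU.of_le one_le_two)
  have hfc : HasCompactSupport f := hχc.mul_right.mul_right
  set P : Euc n → ℝ := fun x => ∑ i, (f x * pd i (pd i U) x + pd i f x * pd i U x) with hP
  have j1 : ∀ i, Integrable fun x => f x * pd i (pd i U) x := fun i =>
    (hf.continuous.mul (continuous_pd (contDiff_pd hU i) i)).integrable_of_hasCompactSupport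
      hfc.mul_right
  have j2 : ∀ i, Integrable fun x => pd i f x * pd i U x := fun i =>
    ((continuous_pd hf i).mul (continuous_pd (hU.of_le one_le_two) i)).integrable_of_hasCompactSupport
      (hasCompactSupport_pd hfc i).mul_right
  have hPi : Integrable P := integrable_finsetSum _ fun i _ => (j1 i).add (j2 i)
  have hP0 : ∫ x, P x = 0 := by
    rw [hP, integral_finsetSum _ fun i _ => (j1 i).fun_add (j2 i)]
    refine Finset.sum_eq_zero fun i _ => ?_
    rw [integral_add (j1 i) (j2 i), integral_pd_mul hf hfc (contDiff_pd hU i) i]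
    ring
  set d : Euc n → ℝ := fun x => ‖fderiv ℝ U x‖ ^ 2 with hd
  have hdi : IntegrableOn d S :=
    ((hU.continuous_fderiv two_ne_zero).norm.pow 2).continuousOn.integrableOn_compact hSc
  set K := M ^ 2 + 2 * M ^ 2 * (n * (34 * L / ε) ^ 2) with hK
  have hK0 : 0 ≤ K := by positivity
  set B := Metric.closedBall (0 : Euc n) (4 * ε)
  have hpt : ∀ x, 2⁻¹ * S.indicator d x ≤ P x + B.indicator (fun _ => K) x := by
    intro x
    by_cases hx : x ∈ tsupport χ
    · have hxn := hts hx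
      have hxB : x ∈ B := by simpa [B] using hxn.2
      rw [Set.indicator_of_mem hxB]
      have hxl : 3 / 4 * (ε / 2) < ‖x‖ := by linarith [hxn.1]
      obtain ⟨eU, eD, eL⟩ := glue_local hδ hu2 hxl
      have hx0 : x ≠ 0 := by rintro rfl; simp at hxl; linarith
      have hx1 : x ∈ Metric.closedBall (0 : Euc n) 1 := by simp; linarith [hxn.2]
      obtain ⟨hu', hg'⟩ := hM x hx1
      have dχ := hχs.differentiable one_ne_zero x
      have dU := (hU.of_le one_le_two).differentiable one_ne_zero x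
      have ef : ∀ i, pd i f x
          = 2 * χ x * pd i χ x * U x + χ x * χ x * pd i U x := fun i => by
        simp only [f]
        rw [pd_mul' (dχ.fun_mul dχ) dU, pd_mul' dχ dχ]; ring
      have eP : P x = χ x * χ x * U x * (-g x)
          + ∑ i, (2 * χ x * pd i χ x * U x + χ x * χ x * pd i U x) * pd i U x := by
        simp only [hP, Finset.sum_add_distrib, ← Finset.mul_sum, ef]
        rw [eL, ← heq x hx0, neg_neg]
      have hlo : ∑ i, (2 * χ x * pd i χ x * U x + χ x * χ x * pd i U x) * pd i U x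
          ≥ 2⁻¹ * (χ x * χ x) * grad2 U x - 2 * U x ^ 2 * grad2 χ x := by
        simp only [grad2, Finset.mul_sum, ← Finset.sum_sub_distrib, ge_iff_le]
        exact Finset.sum_le_sum fun i _ => by
          nlinarith [sq_nonneg (χ x * pd i U x + 2 * U x * pd i χ x)]
      have hzero : χ x * χ x * U x * (-g x) ≥ -M ^ 2 := by
        have e1 : χ x * χ x * U x ≤ M := by
          rw [show U x = u x from eU]
          exact (mul_le_of_le_one_left (hup x).le
            (mul_le_one₀ (hχb x).2 (hχb x).1 (hχb x).2)).trans hu'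
        have e0 : 0 ≤ χ x * χ x * U x :=
          mul_nonneg (mul_nonneg (hχb x).1 (hχb x).1) (glue_pos hup x).le
        have e2 := (abs_le.1 hg').2
        nlinarith
      have hgr : 2 * U x ^ 2 * grad2 χ x ≤ 2 * M ^ 2 * (n * (34 * L / ε) ^ 2) := by
        refine mul_le_mul (mul_le_mul_of_nonneg_left (pow_le_pow_left₀ (glue_pos hup x).le
          (eU.trans_le hu') 2) two_pos.le) ((grad2_le χ x).trans ?_) (grad2_nonneg _ _)
          (by positivity)
        exact mul_le_mul_of_nonneg_left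
          (pow_le_pow_left₀ (norm_nonneg _) (hχd x hxn.2) 2) (Nat.cast_nonneg n)
      have hI : 2⁻¹ * S.indicator d x ≤ 2⁻¹ * (χ x * χ x) * grad2 U x := by
        by_cases hxS : x ∈ S
        · rw [Set.indicator_of_mem hxS, hone x hxS]
          simpa [hd] using norm_fderiv_sq_le U x
        · rw [Set.indicator_of_notMem hxS, mul_zero]
          exact mul_nonneg (mul_nonneg (by norm_num) (mul_self_nonneg _)) (grad2_nonneg _ _)
      rw [eP, hK]
      linarith
    · have hf0 : x ∉ tsupport f := fun h => hx (tsupport_mul_subset_left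
        (tsupport_mul_subset_left h))
      have hxS : x ∉ S := fun h => hx (subset_tsupport _ (by simp [hone x h]))
      have : P x = 0 := by
        simp [hP, image_eq_zero_of_notMem_tsupport hf0, pd, fderiv_eq_zero_of_notMem hf0]
      rw [Set.indicator_of_notMem hxS, this, mul_zero, zero_add]
      exact Set.indicator_nonneg (fun _ _ => hK0) x
  have hBi : Integrable (B.indicator fun _ => K) :=
    (integrableOn_const (isCompact_closedBall _ _).measure_lt_top.ne).integrable_indicator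
      measurableSet_closedBall
  have hI2 := integral_mono ((hdi.integrable_indicator hSc.measurableSet).const_mul _)
    (hPi.add hBi) hpt
  simp only [Pi.add_apply] at hI2
  rw [integral_const_mul, integral_indicator hSc.measurableSet, integral_add hPi hBi, hP0,
    zero_add, integral_indicator_const _ measurableSet_closedBall,
    volume_real_closedBall _ (by linarith), smul_eq_mul] at hI2
  have hdS : Set.EqOn d (fun x => ‖fderiv ℝ u x‖ ^ 2) S := fun x hx => by
    simp only [hd, U, (glue_local hδ hu2 (show 3 / 4 * (ε / 2) < ‖x‖ by linarith [hx.1])).2.1]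
  refine ⟨hdi.congr_fun hdS hSc.measurableSet, ?_⟩
  rw [← setIntegral_congr_fun hSc.measurableSet hdS]
  rw [hK] at hI2
  linarith

/-- density of the right-hand side -/
def Gd (u v : Euc n → ℝ) (p q : ℝ) (x : Euc n) : ℝ :=
  u x ^ (q + 1) + v x ^ (p + 1) + (u x + ‖fderiv ℝ u x‖) * (v x + ‖fderiv ℝ v x‖)

lemma alg_far {r D A B u v P Q : ℝ} (hA : 0 ≤ A) (hB : 0 ≤ B) (hu : 0 ≤ u) (hv : 0 ≤ v)
    (hP : 0 ≤ P) (hQ : 0 ≤ Q) (hD : 0 ≤ D) (hr : r ≤ D) :
    r * (A * B + (P + Q)) + v * A + u * B ≤ (1 + D) * (Q + P + (u + A) * (v + B)) := by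
  have h1 : r * (A * B + (P + Q)) ≤ D * (A * B + (P + Q)) :=
    mul_le_mul_of_nonneg_right hr (by positivity)
  have h2 := mul_nonneg hD (mul_nonneg hu hv)
  have h3 := mul_nonneg hD (mul_nonneg hu hB)
  have h4 := mul_nonneg hD (mul_nonneg hA hv)
  have h5 := mul_nonneg hu hv
  have h6 := mul_nonneg hA hB
  linarith

lemma alg_near {A B M m : ℝ} :
    2 * (A * B) + 2 * M + m * A + m * B ≤ 3 / 2 * (A ^ 2 + B ^ 2) + (2 * M + m ^ 2) := by
  nlinarith [sq_nonneg (A - B), sq_nonneg (m - A), sq_nonneg (m - B)]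

/-- density dominating the cutoff error on the shell -/
def dens (u v : Euc n → ℝ) (M1 ε : ℝ) (x : Euc n) : ℝ :=
  3 / 2 * (‖fderiv ℝ u x‖ ^ 2 + ‖fderiv ℝ v x‖ ^ 2) + (2 * M1 + M1 ^ 2 / ε ^ 2)

lemma Hf_far {u v : Euc n → ℝ} {p q D : ℝ} (hup : ∀ x, 0 < u x) (hvp : ∀ x, 0 < v x)
    (hD : 0 ≤ D) {x : Euc n} (hx : ‖x‖ ≤ D) : Hf u v p q x ≤ (1 + D) * Gd u v p q x :=
  alg_far (norm_nonneg _) (norm_nonneg _) (hup x).le (hvp x).le
    (Real.rpow_nonneg (hvp x).le _) (Real.rpow_nonneg (hup x).le _) hD hx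

lemma Hf_nonneg {u v : Euc n → ℝ} {p q : ℝ} (hup : ∀ x, 0 < u x) (hvp : ∀ x, 0 < v x)
    (x : Euc n) : 0 ≤ Hf u v p q x := by
  have := Real.rpow_nonneg (hup x).le (q + 1)
  have := Real.rpow_nonneg (hvp x).le (p + 1)
  have := hup x; have := hvp x
  unfold Hf
  positivity

lemma Hf_near {u v : Euc n → ℝ} {p q M1 ε L : ℝ} (hε : 0 < ε) (hup : ∀ x, 0 < u x)
    (hvp : ∀ x, 0 < v x) (hL0 : 0 ≤ L) {x : Euc n} (hr : ‖x‖ ≤ 2 * ε) (bu : u x ≤ M1)
    (bv : v x ≤ M1) (bW : v x ^ (p + 1) + u x ^ (q + 1) ≤ M1) :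
    4 * L / ε * Hf u v p q x ≤ 4 * L * dens u v M1 ε x := by
  unfold Hf dens
  have hW : 0 ≤ v x ^ (p + 1) + u x ^ (q + 1) :=
    add_nonneg (Real.rpow_nonneg (hvp x).le _) (Real.rpow_nonneg (hup x).le _)
  generalize v x ^ (p + 1) + u x ^ (q + 1) = W at bW hW ⊢
  have hA : 0 ≤ ‖fderiv ℝ u x‖ := norm_nonneg _
  have hB : 0 ≤ ‖fderiv ℝ v x‖ := norm_nonneg _
  generalize ‖fderiv ℝ u x‖ = A at hA ⊢
  generalize ‖fderiv ℝ v x‖ = B at hB ⊢
  have e1 : ‖x‖ * (A * B + W) ≤ 2 * ε * (A * B + M1) :=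
    mul_le_mul hr (by linarith) (by positivity) (by linarith)
  have e2 : v x * A ≤ M1 * A := mul_le_mul_of_nonneg_right bv hA
  have e3 : u x * B ≤ M1 * B := mul_le_mul_of_nonneg_right bu hB
  calc 4 * L / ε * (‖x‖ * (A * B + W) + v x * A + u x * B)
      ≤ 4 * L / ε * (2 * ε * (A * B + M1) + M1 * A + M1 * B) :=
        mul_le_mul_of_nonneg_left (by linarith) (by positivity)
    _ = 4 * L * (2 * (A * B) + 2 * M1 + M1 / ε * A + M1 / ε * B) := by field_simp
    _ ≤ _ := by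
        rw [← div_pow]
        exact mul_le_mul_of_nonneg_left alg_near (by linarith)

lemma cutoff_pointwise {u v ζ : Euc n → ℝ} {p q D L Mz M1 ε : ℝ} (hup : ∀ x, 0 < u x)
    (hvp : ∀ x, 0 < v x) (hζ : ContDiff ℝ 1 ζ) (hMz : ∀ x, ‖ζ x‖ ≤ Mz) (hD : 0 ≤ D)
    (hDs : ∀ x, fderiv ℝ ζ x ≠ 0 → ‖x‖ ≤ D) (hL0 : 0 ≤ L)
    (hL : ∀ y, |deriv Real.smoothTransition y| ≤ L) (hε : 0 < ε)
    (hb : ∀ x ∈ Metric.closedBall (0 : Euc n) (2 * ε),
      u x ≤ M1 ∧ v x ≤ M1 ∧ v x ^ (p + 1) + u x ^ (q + 1) ≤ M1) (x : Euc n) :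
    ‖fderiv ℝ (fun y => ζ y * radial (1 / ε ^ 2) (-1) y) x‖ * Hf u v p q x
      ≤ (1 + D) * (‖fderiv ℝ ζ x‖ * Gd u v p q x)
        + Mz * (4 * L) * {y : Euc n | ε ≤ ‖y‖ ∧ ‖y‖ ≤ 2 * ε}.indicator (dens u v M1 ε) x := by
  set χ : Euc n → ℝ := radial (1 / ε ^ 2) (-1) with hχ
  set S : Set (Euc n) := {y | ε ≤ ‖y‖ ∧ ‖y‖ ≤ 2 * ε}
  have hMz0 : 0 ≤ Mz := (norm_nonneg _).trans (hMz 0)
  have hH0 := Hf_nonneg (p := p) (q := q) hup hvp x
  have dζ := hζ.differentiable one_ne_zero x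
  have dχ : DifferentiableAt ℝ χ x :=
    (contDiff_radial (m := 1) _ _).differentiable one_ne_zero x
  have hle : ‖fderiv ℝ (fun y => ζ y * χ y) x‖ ≤ ‖fderiv ℝ ζ x‖ + Mz * ‖fderiv ℝ χ x‖ := by
    rw [fderiv_fun_mul dζ dχ, add_comm]
    refine (norm_add_le _ _).trans ?_
    rw [norm_smul, norm_smul]
    refine add_le_add ?_ (mul_le_mul_of_nonneg_right (hMz x) (norm_nonneg _))
    refine mul_le_of_le_one_left (norm_nonneg _) ?_
    rw [Real.norm_eq_abs, abs_of_nonneg (radial_mem _ _ x).1]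
    exact (radial_mem _ _ x).2
  have h1 : ‖fderiv ℝ ζ x‖ * Hf u v p q x ≤ (1 + D) * (‖fderiv ℝ ζ x‖ * Gd u v p q x) := by
    by_cases hx : fderiv ℝ ζ x = 0
    · simp [hx]
    rw [mul_left_comm]
    exact mul_le_mul_of_nonneg_left (Hf_far hup hvp hD (hDs x hx)) (norm_nonneg _)
  have h2 : ‖fderiv ℝ χ x‖ * Hf u v p q x ≤ 4 * L * S.indicator (dens u v M1 ε) x := by
    by_cases hx : x ∈ S
    · rw [Set.indicator_of_mem hx]
      obtain ⟨hl, hr'⟩ := hx
      obtain ⟨bu, bv, bW⟩ := hb x (by simpa using hr')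
      refine le_trans (mul_le_mul_of_nonneg_right ?_ hH0) (Hf_near hε hup hvp hL0 hr' bu bv bW)
      refine (norm_fderiv_radial hL _ _ x).trans ?_
      rw [abs_of_pos (by positivity)]
      calc L * (2 * (1 / ε ^ 2) * ‖x‖) ≤ L * (2 * (1 / ε ^ 2) * (2 * ε)) := by gcongr
        _ = _ := by field_simp; ring
    · rw [Set.indicator_of_notMem hx, mul_zero]
      have hz : fderiv ℝ χ x = 0 := by
        have : ‖x‖ < ε ∨ 2 * ε < ‖x‖ := by
          by_contra h; push Not at h; exact hx h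
        rcases this with h | h
        · have : χ =ᶠ[𝓝 x] fun _ => (0 : ℝ) := by
            filter_upwards [(isOpen_lt continuous_norm continuous_const).mem_nhds h] with y hy
            apply Real.smoothTransition.zero_of_nonpos
            have : 1 / ε ^ 2 * ‖y‖ ^ 2 ≤ 1 := by
              rw [div_mul_eq_mul_div, div_le_one (by positivity), one_mul]
              exact pow_le_pow_left₀ (norm_nonneg y) (le_of_lt hy) 2
            linarith
          simp [this.fderiv_eq]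
        · have : χ =ᶠ[𝓝 x] fun _ => (1 : ℝ) := by
            filter_upwards [(isOpen_lt continuous_const continuous_norm).mem_nhds h] with y hy
            have hy' : 2 * ε < ‖y‖ := hy
            apply Real.smoothTransition.one_of_one_le
            have : 4 ≤ 1 / ε ^ 2 * ‖y‖ ^ 2 := by
              rw [div_mul_eq_mul_div, le_div_iff₀ (by positivity)]; nlinarith
            linarith
          simp [this.fderiv_eq]
      simp [hz]
  calc _ ≤ (‖fderiv ℝ ζ x‖ + Mz * ‖fderiv ℝ χ x‖) * Hf u v p q x :=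
        mul_le_mul_of_nonneg_right hle hH0
    _ = ‖fderiv ℝ ζ x‖ * Hf u v p q x + Mz * (‖fderiv ℝ χ x‖ * Hf u v p q x) := by ring
    _ ≤ _ := by
        rw [mul_assoc Mz]
        exact add_le_add h1 (mul_le_mul_of_nonneg_left h2 hMz0)

/-- error of the puncture at scale `ε` -/
def Err (n : ℕ) (κ C0 Mz M1 L ε : ℝ) : ℝ :=
  let V1 := (volume : Measure (Euc n)).real (Metric.ball 0 1)
  |κ| * (Mz * M1 * ((2 * ε) ^ n * V1))
    + C0 * (Mz * (4 * L) * (3 * ((2 * M1 ^ 2 + 4 * M1 ^ 2 * (n * (34 * L / ε) ^ 2))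
        * ((4 * ε) ^ n * V1)) + (2 * M1 + M1 ^ 2 / ε ^ 2) * ((2 * ε) ^ n * V1)))

lemma tendsto_Err (hn : 3 ≤ n) (κ C0 Mz M1 L : ℝ) :
    Tendsto (Err n κ C0 Mz M1 L) (𝓝[>] 0) (𝓝 0) := by
  set V1 := (volume : Measure (Euc n)).real (Metric.ball 0 1) with hV1
  set E' : ℝ → ℝ := fun ε => |κ| * (Mz * M1 * (2 ^ n * ε ^ n * V1))
    + C0 * (Mz * (4 * L) * (3 * ((2 * M1 ^ 2 * ε ^ 2 + 4 * M1 ^ 2 * (n * (34 * L) ^ 2))
        * (4 ^ n * ε ^ (n - 2) * V1)) + (2 * M1 * ε ^ 2 + M1 ^ 2) * (2 ^ n * ε ^ (n - 2) * V1)))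
    with hE'
  have h : Tendsto E' (𝓝[>] 0) (𝓝 0) := by
    have hc : Continuous E' := by fun_prop
    have := hc.tendsto 0
    simp only [hE', zero_pow (show n ≠ 0 by omega), zero_pow (show n - 2 ≠ 0 by omega)] at this
    simp only [mul_zero, zero_mul, add_zero] at this
    exact this.mono_left nhdsWithin_le_nhds
  refine h.congr' ?_
  filter_upwards [self_mem_nhdsWithin] with ε (hε : 0 < ε)
  have e : ε ^ n = ε ^ (n - 2) * ε ^ 2 := by rw [← pow_add]; congr 1; omega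
  simp only [hE', Err, ← hV1, mul_pow 2 ε n, mul_pow 4 ε n, e]
  field_simp

lemma step {p q κ a1 a2 : ℝ} (hn : 3 ≤ n) (hp : 0 < p) (hq : 0 < q)
    (ha : a1 + a2 = (n : ℝ) - 2)
    (k1 : (n : ℝ) / (p + 1) - a1 = κ) (k2 : (n : ℝ) / (q + 1) - a2 = κ)
    {u v ζ : Euc n → ℝ} (hs : IsPositiveEntireSolution p q u v) {D L Mz M1 ε : ℝ}
    (hζ : ContDiff ℝ 1 ζ) (hζc : HasCompactSupport ζ) (hζ0 : ∀ x, 0 ≤ ζ x)
    (hMz : ∀ x, ‖ζ x‖ ≤ Mz) (hD : 0 ≤ D) (hDs : ∀ x, fderiv ℝ ζ x ≠ 0 → ‖x‖ ≤ D)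
    (hJi : Integrable fun x => ‖fderiv ℝ ζ x‖ * Gd u v p q x)
    (hL0 : 0 ≤ L) (hL : ∀ y, |deriv Real.smoothTransition y| ≤ L)
    (hb : ∀ x ∈ Metric.closedBall (0 : Euc n) 1, u x ≤ M1 ∧ v x ≤ M1 ∧
      v x ^ (p + 1) + u x ^ (q + 1) ≤ M1 ∧ |v x ^ p| ≤ M1 ∧ |u x ^ q| ≤ M1)
    (hε : 0 < ε) (hε4 : ε < 1 / 4) :
    κ * ∫ x, ζ x * (v x ^ (p + 1) + u x ^ (q + 1))
      ≤ n * (3 * n + 1 + |a1| + |a2|) * ((1 + D) * ∫ x, ‖fderiv ℝ ζ x‖ * Gd u v p q x)
        + Err n κ (n * (3 * n + 1 + |a1| + |a2|)) Mz M1 L ε := by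
  obtain ⟨huc, hvc, hu2, hv2, hup, hvp, heq⟩ := hs
  set C0 : ℝ := n * (3 * n + 1 + |a1| + |a2|)
  have hC0 : 0 ≤ C0 := by positivity
  have hMz0 : 0 ≤ Mz := (norm_nonneg _).trans (hMz 0)
  have hM10 : 0 ≤ M1 := (hup 0).le.trans (hb 0 (by simp)).1
  set V1 := (volume : Measure (Euc n)).real (Metric.ball 0 1) with hV1
  set W : Euc n → ℝ := fun x => v x ^ (p + 1) + u x ^ (q + 1) with hW
  have hWc : Continuous W :=
    (hvc.rpow_const fun x => Or.inl (hvp x).ne').add (huc.rpow_const fun x => Or.inl (hup x).ne')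
  have hW0 : ∀ x, 0 ≤ W x := fun x =>
    add_nonneg (Real.rpow_nonneg (hvp x).le _) (Real.rpow_nonneg (hup x).le _)
  set χ : Euc n → ℝ := radial (1 / ε ^ 2) (-1) with hχ
  set ψ : Euc n → ℝ := fun x => ζ x * χ x with hψdef
  have hψ : ContDiff ℝ 1 ψ := hζ.mul (contDiff_radial _ _)
  have hψc : HasCompactSupport ψ := hζc.mul_right
  have hψ0 : (0 : Euc n) ∉ tsupport ψ := by
    rw [notMem_tsupport_iff_eventuallyEq]
    filter_upwards [Metric.closedBall_mem_nhds (0 : Euc n) hε] with y hy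
    have : χ y = 0 := by
      apply Real.smoothTransition.zero_of_nonpos
      have : 1 / ε ^ 2 * ‖y‖ ^ 2 ≤ 1 := by
        rw [div_mul_eq_mul_div, div_le_one (by positivity), one_mul]
        exact pow_le_pow_left₀ (norm_nonneg y) (by simpa using hy) 2
      linarith
    simp [hψdef, this]
  obtain ⟨hHi, hH⟩ := identity_bound hp hq ha k1 k2 ⟨huc, hvc, hu2, hv2, hup, hvp, heq⟩
    hψ hψc hψ0
  set B := Metric.closedBall (0 : Euc n) (2 * ε)
  have hB1 : ∀ x ∈ B, x ∈ Metric.closedBall (0 : Euc n) 1 :=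
    fun x hx => Metric.closedBall_subset_closedBall (by linarith) hx
  have iz : Integrable fun x => ζ x * W x :=
    (hζ.continuous.mul hWc).integrable_of_hasCompactSupport hζc.mul_right
  have ip : Integrable fun x => ψ x * W x :=
    (hψ.continuous.mul hWc).integrable_of_hasCompactSupport hψc.mul_right
  have hcut : |(∫ x, ζ x * W x) - ∫ x, ψ x * W x| ≤ Mz * M1 * ((2 * ε) ^ n * V1) := by
    rw [← integral_sub iz ip]
    refine abs_integral_le_integral_abs.trans ?_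
    have hBi : Integrable (B.indicator fun _ => Mz * M1) :=
      (integrableOn_const (isCompact_closedBall _ _).measure_lt_top.ne).integrable_indicator
        measurableSet_closedBall
    refine (integral_mono (iz.sub' ip).abs hBi fun x => ?_).trans (le_of_eq ?_)
    · by_cases hx : x ∈ B
      · rw [Set.indicator_of_mem hx, hψdef]
        obtain ⟨-, -, hWb, -, -⟩ := hb x (hB1 x hx)
        rw [show ζ x * W x - ζ x * χ x * W x = ζ x * (1 - χ x) * W x by ring, abs_mul, abs_mul,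
          abs_of_nonneg (hζ0 x), abs_of_nonneg (hW0 x),
          abs_of_nonneg (sub_nonneg.2 (radial_mem _ _ x).2)]
        refine mul_le_mul ?_ hWb (hW0 x) hMz0
        have h2 := (radial_mem (n := n) (1 / ε ^ 2) (-1) x).1
        have h3 := (le_abs_self (ζ x)).trans (hMz x)
        exact (mul_le_of_le_one_right (hζ0 x) (by linarith)).trans h3
      · have h2 : 2 * ε ≤ ‖x‖ := by
          simp only [B, Metric.mem_closedBall, dist_zero_right] at hx; linarith
        have : χ x = 1 := by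
          apply Real.smoothTransition.one_of_one_le
          have : 4 ≤ 1 / ε ^ 2 * ‖x‖ ^ 2 := by
            rw [div_mul_eq_mul_div, le_div_iff₀ (by positivity)]; nlinarith
          linarith
        simp [hψdef, this, Set.indicator_of_notMem hx]
    · rw [integral_indicator_const _ measurableSet_closedBall,
        volume_real_closedBall _ (by linarith), smul_eq_mul, ← hV1]
      ring
  set S : Set (Euc n) := {x | ε ≤ ‖x‖ ∧ ‖x‖ ≤ 2 * ε}
  have hSm : MeasurableSet S :=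
    ((isClosed_le continuous_const continuous_norm).inter
      (isClosed_le continuous_norm continuous_const)).measurableSet
  obtain ⟨iu, eu⟩ := energy hn hL hu2 hup (g := fun x => v x ^ p) (fun x hx => (heq x hx).1)
    (fun x hx => ⟨(hb x hx).1, (hb x hx).2.2.2.1⟩) hε hε4
  obtain ⟨iv, ev'⟩ := energy hn hL hv2 hvp (g := fun x => u x ^ q) (fun x hx => (heq x hx).2)
    (fun x hx => ⟨(hb x hx).2.1, (hb x hx).2.2.2.2⟩) hε hε4
  have hSf : volume S ≠ ⊤ := ((measure_mono fun x hx => by simpa [B] using hx.2).trans_lt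
    (isCompact_closedBall (0 : Euc n) (2 * ε)).measure_lt_top).ne
  set d : Euc n → ℝ := dens u v M1 ε with hd0
  have hdi : IntegrableOn d S := ((iu.add iv).const_mul _).add (integrableOn_const hSf)
  have hint := integral_mono hHi ((hJi.const_mul _).add
    ((hdi.integrable_indicator hSm).const_mul _))
    (cutoff_pointwise hup hvp hζ hMz hD hDs hL0 hL hε fun x hx =>
      ⟨(hb x (hB1 x hx)).1, (hb x (hB1 x hx)).2.1, (hb x (hB1 x hx)).2.2.1⟩)
  simp only [Pi.add_apply] at hint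
  rw [integral_add (hJi.const_mul _) ((hdi.integrable_indicator hSm).const_mul _),
    integral_const_mul, integral_const_mul, integral_indicator hSm] at hint
  set P := (2 * M1 ^ 2 + 4 * M1 ^ 2 * (n * (34 * L / ε) ^ 2)) * ((4 * ε) ^ n * V1) with hP
  set c := 2 * M1 + M1 ^ 2 / ε ^ 2 with hcdef
  have hd : ∫ x in S, d x ≤ 3 * P + c * ((2 * ε) ^ n * V1) := by
    simp only [hd0, dens]
    rw [integral_add ((iu.fun_add iv).const_mul _) (integrableOn_const hSf), integral_const_mul,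
      integral_add iu iv, setIntegral_const, smul_eq_mul, ← hcdef]
    have hvol : volume.real S ≤ (2 * ε) ^ n * V1 := by
      rw [hV1, ← volume_real_closedBall (2 * ε) (by linarith)]
      exact measureReal_mono (fun x hx => by simpa using hx.2)
        (isCompact_closedBall _ _).measure_lt_top.ne
    have h1 := mul_le_mul_of_nonneg_right hvol (show (0 : ℝ) ≤ c by positivity)
    have h2 : (∫ x in S, ‖fderiv ℝ u x‖ ^ 2) ≤ P := eu
    have h3 : (∫ x in S, ‖fderiv ℝ v x‖ ^ 2) ≤ P := ev'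
    generalize (∫ x in S, ‖fderiv ℝ u x‖ ^ 2) = Eu at h2 ⊢
    generalize (∫ x in S, ‖fderiv ℝ v x‖ ^ 2) = Ev at h3 ⊢
    linarith
  generalize hJ : ∫ x, ‖fderiv ℝ ζ x‖ * Gd u v p q x = J at hint ⊢
  generalize hI : ∫ x, ζ x * W x = I at hcut ⊢
  generalize hI' : ∫ x, ψ x * W x = I' at hcut hH
  generalize hK : ∫ x, ‖fderiv ℝ ψ x‖ * Hf u v p q x = K at hint hH
  calc κ * I ≤ |κ * I'| + |κ| * |I - I'| := by
        rw [← abs_mul]
        calc κ * I = κ * I' + κ * (I - I') := by ring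
          _ ≤ _ := add_le_add (le_abs_self _) (le_abs_self _)
    _ ≤ C0 * K + |κ| * (Mz * M1 * ((2 * ε) ^ n * V1)) :=
        add_le_add hH (mul_le_mul_of_nonneg_left hcut (abs_nonneg κ))
    _ ≤ C0 * ((1 + D) * J + Mz * (4 * L) * (3 * P + c * ((2 * ε) ^ n * V1)))
          + |κ| * (Mz * M1 * ((2 * ε) ^ n * V1)) :=
        add_le_add (mul_le_mul_of_nonneg_left (hint.trans (add_le_add le_rfl
          (mul_le_mul_of_nonneg_left hd (by positivity)))) hC0) le_rfl
    _ = _ := by simp only [Err, hP, hcdef, ← hV1]; ring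

lemma integrable_main {p q : ℝ} {u v ζ : Euc n → ℝ} (hs : IsPositiveEntireSolution p q u v)
    (hζ : ContDiff ℝ 1 ζ) (hζc : HasCompactSupport ζ)
    (hloc : ∀ᶠ x in 𝓝 0, fderiv ℝ ζ x = 0) :
    Integrable fun x => ‖fderiv ℝ ζ x‖ * Gd u v p q x := by
  obtain ⟨huc, hvc, hu2, hv2, hup, hvp, -⟩ := hs
  have hc : Continuous fun x => ‖fderiv ℝ ζ x‖ * Gd u v p q x := by
    rw [continuous_iff_continuousAt]
    intro x
    by_cases hx : x = 0
    · subst hx
      refine (continuousAt_const (y := (0 : ℝ))).congr ?_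
      filter_upwards [hloc] with y hy
      simp [hy]
    · have hu1 := ((hu2.continuousOn_fderiv_of_isOpen isOpen_ne one_le_two).continuousAt
        (isOpen_ne.mem_nhds hx)).norm
      have hv1 := ((hv2.continuousOn_fderiv_of_isOpen isOpen_ne one_le_two).continuousAt
        (isOpen_ne.mem_nhds hx)).norm
      exact (hζ.continuous_fderiv one_ne_zero).norm.continuousAt.mul
        (((huc.rpow_const fun y => Or.inl (hup y).ne').add
          (hvc.rpow_const fun y => Or.inl (hvp y).ne')).continuousAt.add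
          ((huc.continuousAt.add hu1).mul (hvc.continuousAt.add hv1)))
  exact hc.integrable_of_hasCompactSupport ((hζc.fderiv ℝ).norm.mul_right)

lemma exists_local_bound {p q : ℝ} {u v : Euc n → ℝ} (hs : IsPositiveEntireSolution p q u v) :
    ∃ M1 : ℝ, ∀ x ∈ Metric.closedBall (0 : Euc n) 1, u x ≤ M1 ∧ v x ≤ M1 ∧
      v x ^ (p + 1) + u x ^ (q + 1) ≤ M1 ∧ |v x ^ p| ≤ M1 ∧ |u x ^ q| ≤ M1 := by
  obtain ⟨huc, hvc, -, -, hup, hvp, -⟩ := hs
  have cv : ∀ r : ℝ, Continuous fun x => v x ^ r :=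
    fun r => hvc.rpow_const fun x => Or.inl (hvp x).ne'
  have cu : ∀ r : ℝ, Continuous fun x => u x ^ r :=
    fun r => huc.rpow_const fun x => Or.inl (hup x).ne'
  obtain ⟨M1, hM1⟩ := (isCompact_closedBall (0 : Euc n) 1).exists_bound_of_continuousOn
    (((((huc.add hvc).add (cv (p + 1))).add (cu (q + 1))).add (cv p)).add (cu q)).continuousOn
  refine ⟨M1, fun x hx => ?_⟩
  have := hM1 x hx
  rw [Real.norm_eq_abs] at this
  have := (le_abs_self _).trans this
  have := hup x; have := hvp x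
  have := Real.rpow_pos_of_pos (hvp x) (p + 1); have := Real.rpow_pos_of_pos (hup x) (q + 1)
  have := Real.rpow_pos_of_pos (hvp x) p; have := Real.rpow_pos_of_pos (hup x) q
  simp only [Pi.add_apply] at *
  refine ⟨?_, ?_, ?_, ?_, ?_⟩ <;> (try rw [abs_of_pos ‹_›]) <;> linarith

/-- The localized Rellich–Pohozaev inequality. -/
theorem pohozaev {n : ℕ} (hn : 3 ≤ n) {p q : ℝ} (hp : 0 < p) (hq : 0 < q) :
    ∃ C : ℝ, ∀ u v : Euc n → ℝ, IsPositiveEntireSolution p q u v →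
      ∀ (ζ : Euc n → ℝ) (D : ℝ), ContDiff ℝ 1 ζ → HasCompactSupport ζ → (∀ x, 0 ≤ ζ x) →
      (∀ᶠ x in 𝓝 0, fderiv ℝ ζ x = 0) → 0 ≤ D → (∀ x, fderiv ℝ ζ x ≠ 0 → ‖x‖ ≤ D) →
      ((n : ℝ) / (p + 1) + n / (q + 1) - (n - 2)) * ∫ x, ζ x * (v x ^ (p + 1) + u x ^ (q + 1))
        ≤ C * (1 + D) * ∫ x, ‖fderiv ℝ ζ x‖ * (u x ^ (q + 1) + v x ^ (p + 1)
            + (u x + ‖fderiv ℝ u x‖) * (v x + ‖fderiv ℝ v x‖)) := by
  set κ := ((n : ℝ) / (p + 1) + n / (q + 1) - (n - 2)) / 2 with hκ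
  set a1 := (n : ℝ) / (p + 1) - κ with ha1
  set a2 := (n : ℝ) / (q + 1) - κ with ha2
  set C0 : ℝ := n * (3 * n + 1 + |a1| + |a2|) with hC0
  refine ⟨2 * C0, fun u v hs ζ D hζ hζc hζ0 hloc hD hDs => ?_⟩
  obtain ⟨L, hL0, hL, -⟩ := exists_deriv_bound
  obtain ⟨Mz, hMz⟩ := hζ.continuous.bounded_above_of_compact_support hζc
  obtain ⟨M1, hb⟩ := exists_local_bound hs
  have hJi := integrable_main hs hζ hζc hloc
  set J := ∫ x, ‖fderiv ℝ ζ x‖ * Gd u v p q x with hJ
  have hev : ∀ᶠ ε in 𝓝[>] (0 : ℝ), κ * ∫ x, ζ x * (v x ^ (p + 1) + u x ^ (q + 1))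
      ≤ C0 * ((1 + D) * J) + Err n κ C0 Mz M1 L ε := by
    filter_upwards [self_mem_nhdsWithin, mem_nhdsWithin_of_mem_nhds
      (Iio_mem_nhds (show (0 : ℝ) < 1 / 4 by norm_num))] with ε h1 h2
    exact step hn hp hq (show a1 + a2 = (n : ℝ) - 2 by rw [ha1, ha2, hκ]; ring)
      (by rw [ha1]; ring) (by rw [ha2]; ring) hs hζ hζc hζ0 hMz hD hDs hJi hL0 hL hb h1 h2
  have hlim : Tendsto (fun ε => C0 * ((1 + D) * J) + Err n κ C0 Mz M1 L ε) (𝓝[>] 0)
      (𝓝 (C0 * ((1 + D) * J))) := by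
    simpa using (tendsto_Err hn κ C0 Mz M1 L).const_add (C0 * ((1 + D) * J))
  have hfin := ge_of_tendsto hlim hev
  rw [show (n : ℝ) / (p + 1) + n / (q + 1) - (n - 2) = 2 * κ by rw [hκ]; ring, mul_assoc (2 * C0),
    mul_assoc 2 κ, mul_assoc 2 C0]
  exact mul_le_mul_of_nonneg_left hfin two_pos.le

end Vale.Agent.P100C
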