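import Vale.Agent.P100.Main

/-!
Scaling: a bound at unit scale for all positive entire solutions rules them out.
-/

open MeasureTheory Filter Topology Laplacian
open scoped ContDiff

noncomputable section

namespace Vale.Agent.P100C

open Vale.Agent.P100

variable {n : ℕ}

lemma pd_scale {f : Euc n → ℝ} {c R : ℝ} (x : Euc n) (i : Fin n) :
    pd i (fun y => c * f (R • y)) x = c * R * pd i f (R • x) := by
  have h1 : fderiv ℝ (fun y => f (R • y)) x = R • fderiv ℝ f (R • x) := by
    rw [fderiv_comp_smul]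
  have h2 : fderiv ℝ (fun y => c * f (R • y)) x = c • fderiv ℝ (fun y => f (R • y)) x := by
    rw [show (fun y => c * f (R • y)) = c • (fun y => f (R • y)) from rfl, fderiv_const_smul_field]
    rfl
  simp only [pd, h2, h1, smul_apply, smul_eq_mul]
  ring

lemma laplacian_scale {f : Euc n → ℝ} {c R : ℝ} {x : Euc n}
    (hf : ContDiffAt ℝ 2 f (R • x)) :
    Δ (fun y => c * f (R • y)) x = c * R ^ 2 * Δ f (R • x) := by
  have hs : ContDiffAt ℝ 2 (fun y : Euc n => R • y) x := (contDiff_const_smul R).contDiffAt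
  have h2 : ContDiffAt ℝ 2 (fun y => c * f (R • y)) x := contDiffAt_const.mul (hf.comp x hs)
  rw [laplacian_eq_sum h2, laplacian_eq_sum hf, Finset.mul_sum]
  refine Finset.sum_congr rfl fun i _ => ?_
  have : pd i (fun y => c * f (R • y)) = fun z => c * R * pd i f (R • z) := funext fun z =>
    pd_scale z i
  rw [this, pd_scale x i]
  ring

/-- The scaled pair. -/
theorem scaled {p q : ℝ} {u v : Euc n → ℝ} (hs : IsPositiveEntireSolution p q u v)
    (hpq : p * q - 1 ≠ 0) {R : ℝ} (hR : 0 < R) :
    IsPositiveEntireSolution p q (fun x => R ^ (2 * (p + 1) / (p * q - 1)) * u (R • x))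
      (fun x => R ^ (2 * (q + 1) / (p * q - 1)) * v (R • x)) := by
  obtain ⟨huc, hvc, hu2, hv2, hup, hvp, heq⟩ := hs
  set α := 2 * (p + 1) / (p * q - 1)
  set β := 2 * (q + 1) / (p * q - 1)
  have hmap : Set.MapsTo (fun x : Euc n => R • x) {x | x ≠ 0} {x | x ≠ 0} :=
    fun x hx => smul_ne_zero hR.ne' hx
  have hsm : ContDiff ℝ 2 (fun x : Euc n => R • x) := contDiff_const_smul R
  refine ⟨continuous_const.mul (huc.comp (continuous_const_smul R)),
    continuous_const.mul (hvc.comp (continuous_const_smul R)),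
    contDiffOn_const.mul (hu2.comp hsm.contDiffOn hmap),
    contDiffOn_const.mul (hv2.comp hsm.contDiffOn hmap),
    fun x => mul_pos (Real.rpow_pos_of_pos hR _) (hup _),
    fun x => mul_pos (Real.rpow_pos_of_pos hR _) (hvp _), fun x hx => ?_⟩
  have hx' : R • x ≠ 0 := hmap hx
  obtain ⟨e1, e2⟩ := heq _ hx'
  rw [laplacian_scale (hu2.contDiffAt (isOpen_ne.mem_nhds hx')),
    laplacian_scale (hv2.contDiffAt (isOpen_ne.mem_nhds hx')),
    Real.mul_rpow (by positivity) (hvp _).le, Real.mul_rpow (by positivity) (hup _).le,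
    ← Real.rpow_mul hR.le, ← Real.rpow_mul hR.le, ← Real.rpow_two, ← Real.rpow_add hR,
    ← Real.rpow_add hR, ← e1, ← e2]
  have a1 : β * p = α + 2 := by
    simp only [α, β]
    rw [div_mul_eq_mul_div, div_add' _ _ _ hpq, div_left_inj' hpq]
    ring
  have a2 : α * q = β + 2 := by
    simp only [α, β]
    rw [div_mul_eq_mul_div, div_add' _ _ _ hpq, div_left_inj' hpq]
    ring
  rw [a1, a2]
  constructor <;> ring

/-- A uniform bound at unit scale excludes positive entire solutions below the critical line. -/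
theorem no_solution_of_unit_bound {p q : ℝ} (hp : 0 < p) (hq : 0 < q) (hpq : 1 < p * q)
    (hsub : (n : ℝ) - 2 < n / (p + 1) + n / (q + 1))
    (h : ∃ C : ℝ, ∀ u v : Euc n → ℝ, IsPositiveEntireSolution p q u v →
      ∫ x in Metric.closedBall (0 : Euc n) 1, v x ^ (p + 1) ≤ C) :
    ¬ ∃ u v : Euc n → ℝ, IsPositiveEntireSolution p q u v := by
  rintro ⟨u, v, hs⟩
  obtain ⟨C, hC⟩ := h
  have hd : 0 < p * q - 1 := by linarith
  set β := 2 * (q + 1) / (p * q - 1) with hβ
  set E := β * (p + 1) - n with hE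
  have hE0 : 0 < E := by
    have h1 : ((n : ℝ) - 2) * ((p + 1) * (q + 1)) < n * (q + 1) + n * (p + 1) := by
      have := mul_lt_mul_of_pos_right hsub (mul_pos (by linarith : (0:ℝ) < p + 1) (by linarith : (0:ℝ) < q + 1))
      have e : ((n : ℝ) / (p + 1) + n / (q + 1)) * ((p + 1) * (q + 1)) = n * (q + 1) + n * (p + 1) := by
        field_simp
      linarith
    rw [hE, hβ, sub_pos, div_mul_eq_mul_div, lt_div_iff₀ hd]
    linarith
  obtain ⟨huc, hvc, hu2, hv2, hup, hvp, heq⟩ := hs
  set g : Euc n → ℝ := fun x => v x ^ (p + 1)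
  have hgc : Continuous g := hvc.rpow_const fun x => Or.inl (hvp x).ne'
  have hg0 : ∀ x, 0 < g x := fun x => Real.rpow_pos_of_pos (hvp x) _
  set I := ∫ x in Metric.closedBall (0 : Euc n) 1, g x with hI
  have hIp : 0 < I := by
    rw [hI, setIntegral_pos_iff_support_of_nonneg_ae (Eventually.of_forall fun x => (hg0 x).le)
      (hgc.continuousOn.integrableOn_compact (isCompact_closedBall _ _))]
    rw [Set.eq_univ_of_forall (s := Function.support g) fun x => (hg0 x).ne', Set.univ_inter]
    exact Metric.measure_closedBall_pos volume _ one_pos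
  have hb : ∀ R : ℝ, 1 ≤ R → I * R ^ E ≤ C := by
    intro R hR
    have hR0 : 0 < R := by linarith
    have h1 := hC _ _ (scaled ⟨huc, hvc, hu2, hv2, hup, hvp, heq⟩ hd.ne' hR0)
    have h2 : ∫ x in Metric.closedBall (0 : Euc n) 1, (R ^ β * v (R • x)) ^ (p + 1)
        = R ^ E * ∫ x in Metric.closedBall (0 : Euc n) R, g x := by
      have e : ∀ x, (R ^ β * v (R • x)) ^ (p + 1) = R ^ (β * (p + 1)) * g (R • x) := fun x => by
        rw [Real.mul_rpow (by positivity) (hvp _).le, ← Real.rpow_mul hR0.le]
      rw [setIntegral_congr_fun measurableSet_closedBall (fun x _ => e x), integral_const_mul,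
        Measure.setIntegral_comp_smul_of_pos volume g (Metric.closedBall 0 1) hR0,
        finrank_euclideanSpace_fin, smul_closedBall' hR0.ne', smul_zero, Real.norm_eq_abs,
        abs_of_pos hR0, mul_one, smul_eq_mul, hE, Real.rpow_sub hR0, Real.rpow_natCast]
      field_simp
    rw [h2] at h1
    refine le_trans ?_ h1
    rw [mul_comm]
    refine mul_le_mul_of_nonneg_left ?_ (by positivity)
    exact setIntegral_mono_set
      (hgc.continuousOn.integrableOn_compact (isCompact_closedBall _ _))
      (Eventually.of_forall fun x => (hg0 x).le)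
      (Eventually.of_forall fun x hx => Metric.closedBall_subset_closedBall hR hx)
  have hlim : Tendsto (fun R : ℝ => I * R ^ E) atTop atTop :=
    (tendsto_rpow_atTop hE0).const_mul_atTop hIp
  obtain ⟨R, hR1, hR2⟩ := ((eventually_ge_atTop (1 : ℝ)).and (hlim.eventually (eventually_gt_atTop C))).exists
  linarith [hb R hR1]

end Vale.Agent.P100C
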