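import Vale.Agent.P100C.Potential
import Vale.Agent.P100C.Scale
import Vale.Agent.P100C.Pohozaev

/-!
Universal local bounds for positive solutions: the equations hold weakly across the origin, so
the components satisfy the mean value inequality, and `pq > 1` closes the estimate.
-/

open MeasureTheory Filter Topology Laplacian Set
open scoped ContDiff

noncomputable section

namespace Vale.Agent.P100C

open Vale.Agent.P100

variable {n : ℕ}

/-- positive part to a power -/
def ppow (k : ℕ) (t : ℝ) : ℝ := max t 0 ^ k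

lemma ppow_nonneg (k : ℕ) (t : ℝ) : 0 ≤ ppow k t := pow_nonneg (le_max_right _ _) k

lemma continuous_ppow (k : ℕ) : Continuous (ppow k) :=
  (continuous_id.max continuous_const).pow k

lemma hasDerivAt_ppow (k : ℕ) (t : ℝ) :
    HasDerivAt (ppow (k + 2)) ((k + 2 : ℝ) * ppow (k + 1) t) t := by
  rcases lt_trichotomy t 0 with h | rfl | h
  · have : ppow (k + 2) =ᶠ[𝓝 t] fun _ => (0 : ℝ) := by
      filter_upwards [Iio_mem_nhds h] with x hx
      simp [ppow, max_eq_right (le_of_lt (show x < 0 from hx))]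
    refine ((hasDerivAt_const t (0 : ℝ)).congr_of_eventuallyEq this).congr_deriv ?_
    simp [ppow, max_eq_right h.le]
  · rw [hasDerivAt_iff_isLittleO_nhds_zero]
    have e : ppow (k + 1) 0 = 0 := by simp [ppow]
    have e2 : ppow (k + 2) 0 = 0 := by simp [ppow]
    simp only [zero_add, e, e2, mul_zero, smul_zero, sub_zero]
    refine (Asymptotics.IsBigO.of_bound 1 (Eventually.of_forall fun h => ?_)).trans_isLittleO
      (Asymptotics.isLittleO_pow_id (show 1 < k + 2 by omega))
    simp only [ppow, norm_pow, Real.norm_eq_abs, one_mul]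
    exact pow_le_pow_left₀ (abs_nonneg _)
      (by rw [abs_of_nonneg (le_max_right h 0)]; exact max_le (le_abs_self h) (abs_nonneg h)) _
  · have : ppow (k + 2) =ᶠ[𝓝 t] fun x => x ^ (k + 2) := by
      filter_upwards [Ioi_mem_nhds h] with x hx
      simp [ppow, max_eq_left (le_of_lt (show 0 < x from hx))]
    refine ((hasDerivAt_pow (k + 2) t).congr_of_eventuallyEq this).congr_deriv ?_
    simp [ppow, max_eq_left h.le]

lemma contDiff_ppow_four : ContDiff ℝ 2 (ppow 4) := by
  have h4 : deriv (ppow 4) = fun t => 4 * ppow 3 t := funext fun t => by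
    rw [(hasDerivAt_ppow 2 t).deriv]; norm_num
  have h3 : deriv (ppow 3) = fun t => 3 * ppow 2 t := funext fun t => by
    rw [(hasDerivAt_ppow 1 t).deriv]; norm_num
  have c3 : ContDiff ℝ 1 (ppow 3) := by
    rw [contDiff_one_iff_deriv, h3]
    exact ⟨fun t => (hasDerivAt_ppow 1 t).differentiableAt, continuous_const.mul (continuous_ppow 2)⟩
  rw [show (2 : WithTop ℕ∞) = 1 + 1 from (one_add_one_eq_two).symm, contDiff_succ_iff_deriv]
  exact ⟨fun t => (hasDerivAt_ppow 2 t).differentiableAt, by simp,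
    by rw [h4]; exact contDiff_const.mul c3⟩

/-- the test function `(s - |z - x|²)₊⁴` -/
def tb (s : ℝ) (x z : Euc n) : ℝ := ppow 4 (s - ‖z - x‖ ^ 2)

lemma contDiff_tb (s : ℝ) (x : Euc n) : ContDiff ℝ 2 (tb s x) :=
  contDiff_ppow_four.comp (contDiff_const.sub ((contDiff_id.sub contDiff_const).norm_sq ℝ))

lemma hasCompactSupport_tb (s : ℝ) (x : Euc n) : HasCompactSupport (tb s x) := by
  refine HasCompactSupport.intro (isCompact_closedBall x (|s| + 1)) fun z hz => ?_
  rw [Metric.mem_closedBall, dist_eq_norm, not_le] at hz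
  have h1 : s ≤ ‖z - x‖ ^ 2 := by nlinarith [le_abs_self s, abs_nonneg s]
  simp [tb, ppow, max_eq_right (sub_nonpos.2 h1)]

lemma hasFDerivAt_gap (s : ℝ) (x z : Euc n) :
    HasFDerivAt (fun z : Euc n => s - ‖z - x‖ ^ 2) (-(2 • innerSL ℝ (z - x))) z := by
  simpa using (((hasFDerivAt_id z).sub_const x).norm_sq).const_sub s

lemma pd_tb (s : ℝ) (x z : Euc n) (i : Fin n) :
    pd i (tb s x) z = -8 * ((z i - x i) * ppow 3 (s - ‖z - x‖ ^ 2)) := by
  have h := (hasDerivAt_ppow 2 (s - ‖z - x‖ ^ 2)).comp_hasFDerivAt z (hasFDerivAt_gap s x z)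
  have e : tb s x = ppow 4 ∘ fun z : Euc n => s - ‖z - x‖ ^ 2 := rfl
  rw [pd, e, h.fderiv]
  simp [ev, EuclideanSpace.inner_single_right]
  ring

lemma pd_pd_tb (s : ℝ) (x z : Euc n) (i : Fin n) :
    pd i (pd i (tb s x)) z = -8 * ppow 3 (s - ‖z - x‖ ^ 2) +
      48 * ((z i - x i) ^ 2 * ppow 2 (s - ‖z - x‖ ^ 2)) := by
  rw [show pd i (tb s x) = fun z => -8 * ((z i - x i) * ppow 3 (s - ‖z - x‖ ^ 2)) from
    funext fun z => pd_tb s x z i]
  have h3 := (hasDerivAt_ppow 1 (s - ‖z - x‖ ^ 2)).comp_hasFDerivAt z (hasFDerivAt_gap s x z)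
  have hc : HasFDerivAt (fun z : Euc n => z i - x i)
      (EuclideanSpace.proj (𝕜 := ℝ) i : Euc n →L[ℝ] ℝ) z :=
    ((EuclideanSpace.proj (𝕜 := ℝ) i).hasFDerivAt).sub_const _
  have hp : HasFDerivAt (fun z : Euc n => -8 * ((z i - x i) * ppow 3 (s - ‖z - x‖ ^ 2))) _ z :=
    (hc.fun_mul h3).const_mul (-8)
  rw [pd, hp.fderiv]
  simp [ev, EuclideanSpace.inner_single_right]
  ring

lemma sum_pd_pd_tb (s : ℝ) (x z : Euc n) :
    ∑ i, pd i (pd i (tb s x)) z = 16 * (3 * s * ppow 2 (s - ‖z - x‖ ^ 2) -
      ((n : ℝ) / 2 + 3) * ppow 3 (s - ‖z - x‖ ^ 2)) := by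
  simp only [pd_pd_tb, Finset.sum_add_distrib, ← Finset.mul_sum, ← Finset.sum_mul,
    Finset.sum_const, Finset.card_univ, Fintype.card_fin, nsmul_eq_mul]
  have hN : ∑ i, (z i - x i) ^ 2 = ‖z - x‖ ^ 2 := by simp [EuclideanSpace.norm_sq_eq]
  rw [hN]
  rcases le_total (s - ‖z - x‖ ^ 2) 0 with h | h
  · simp [ppow, max_eq_right h]
  · simp only [ppow, max_eq_left h]; ring

lemma pd_pd_mul {a b : Euc n → ℝ} (ha : ContDiff ℝ 2 a) (hb : ContDiff ℝ 2 b) (i : Fin n)
    (x : Euc n) : pd i (pd i fun y => a y * b y) x =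
      pd i (pd i a) x * b x + 2 * (pd i a x * pd i b x) + a x * pd i (pd i b) x := by
  have da := ha.differentiable (by norm_num)
  have db := hb.differentiable (by norm_num)
  have d1 := (contDiff_pd ha i).differentiable one_ne_zero
  have d2 := (contDiff_pd hb i).differentiable one_ne_zero
  have e : pd i (fun y => a y * b y) = fun y => a y * pd i b y + pd i a y * b y := funext fun y => by
    simp only [pd]
    rw [fderiv_fun_mul (da y) (db y)]
    simp; ring
  rw [e]
  have := (((da x).hasFDerivAt.fun_mul (d2 x).hasFDerivAt).fun_add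
    ((d1 x).hasFDerivAt.fun_mul (db x).hasFDerivAt)).fderiv
  rw [pd, this]
  simp only [pd, _root_.add_apply, _root_.smul_apply, smul_eq_mul]
  ring

/-- The equation holds weakly across the origin. -/
theorem weak_eq (hn : 3 ≤ n) {u g : Euc n → ℝ} (hu : Continuous u) (hg : Continuous g)
    (hu2 : ContDiffOn ℝ 2 u {x | x ≠ 0}) (heq : ∀ x, x ≠ 0 → -(Δ u x) = g x)
    {φ : Euc n → ℝ} (hφ : ContDiff ℝ 2 φ) (hφc : HasCompactSupport φ) :
    ∫ x, u x * ∑ i, pd i (pd i φ) x = -∫ x, g x * φ x := by
  set η := radial (n := n) (-1) 2 with hη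
  have hη2 : ContDiff ℝ 2 η := contDiff_radial _ _
  have hηc : HasCompactSupport η := by
    refine HasCompactSupport.intro (isCompact_closedBall 0 2) fun z hz => ?_
    rw [Metric.mem_closedBall, dist_zero_right, not_le] at hz
    exact Real.smoothTransition.zero_of_nonpos (by nlinarith)
  have hη1 : ∀ z : Euc n, ‖z‖ ≤ 1 → η z = 1 := fun z hz =>
    Real.smoothTransition.one_of_one_le (by nlinarith [norm_nonneg z])
  have hη0 : ∀ z : Euc n, 2 ≤ ‖z‖ → η z = 0 := fun z hz =>
    Real.smoothTransition.zero_of_nonpos (by nlinarith)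
  obtain ⟨M1, hM1⟩ := (isCompact_closedBall (0 : Euc n) 2).exists_bound_of_continuousOn
    (f := fun x => (|u x| + |g x|) * (|φ x| + ∑ i, (|pd i φ x| + |pd i (pd i φ) x|)))
    ((hu.abs.add hg.abs).mul (hφ.continuous.abs.add (continuous_finsetSum _ fun i _ =>
      (continuous_pd (hφ.of_le one_le_two) i).abs.add
        (continuous_pd (contDiff_pd hφ i) i).abs))).continuousOn
  obtain ⟨M2, hM2⟩ := ((hη2.continuous.abs.add (continuous_finsetSum _ fun i _ =>
      (continuous_pd (hη2.of_le one_le_two) i).abs.add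
        (continuous_pd (contDiff_pd hη2 i) i).abs))).bounded_above_of_compact_support (by
    refine HasCompactSupport.intro hηc fun z hz => ?_
    have h0 : η z = 0 := image_eq_zero_of_notMem_tsupport hz
    have h1 : ∀ i, pd i η z = 0 := fun i => image_eq_zero_of_notMem_tsupport
      fun h => hz (tsupport_fderiv_apply_subset ℝ (ev i) h)
    have h2 : ∀ i, pd i (pd i η) z = 0 := fun i => image_eq_zero_of_notMem_tsupport
      fun h => hz (tsupport_fderiv_apply_subset ℝ (ev i)
        (tsupport_fderiv_apply_subset ℝ (ev i) h))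
    simp [h0, h1, h2])
  set V := (volume : Measure (Euc n)).real (Metric.ball 0 1)
  set A := |∫ x, u x * ∑ i, pd i (pd i φ) x + g x * φ x| with hA
  have iu : Integrable fun x => u x * ∑ i, pd i (pd i φ) x + g x * φ x := by
    refine Continuous.integrable_of_hasCompactSupport ((hu.mul (continuous_finsetSum _ fun i _ =>
      continuous_pd (contDiff_pd hφ i) i)).add (hg.mul hφ.continuous)) ?_
    refine HasCompactSupport.intro hφc fun z hz => ?_
    have h0 : φ z = 0 := image_eq_zero_of_notMem_tsupport hz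
    have h2 : ∀ i, pd i (pd i φ) z = 0 := fun i => image_eq_zero_of_notMem_tsupport
      fun h => hz (tsupport_fderiv_apply_subset ℝ (ev i)
        (tsupport_fderiv_apply_subset ℝ (ev i) h))
    simp [h0, h2]
  have key : ∀ ε : ℝ, 0 < ε → ε ≤ 1 →
      A ≤ |M1| * ((4 * n + 4 : ℝ) * (|M2| + 1)) * 2 ^ n * V * ε := by
    intro ε hε hε1
    set c : Euc n → ℝ := fun y => 1 * η (ε⁻¹ • y) with hc
    have hc2 : ContDiff ℝ 2 c := contDiff_const.mul (hη2.comp (contDiff_const_smul _))
    set ψ : Euc n → ℝ := fun y => (1 - c y) * φ y with hψ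
    have hψ2 : ContDiff ℝ 2 ψ := (contDiff_const.sub hc2).mul hφ
    have hψc : HasCompactSupport ψ := hφc.mul_left
    have hψ0 : ∀ y : Euc n, ‖y‖ ≤ ε → ψ y = 0 := fun y hy => by
      have : η (ε⁻¹ • y) = 1 := hη1 _ (by
        rw [norm_smul, norm_inv, Real.norm_eq_abs, abs_of_pos hε, inv_mul_le_one₀ hε]; exact hy)
      simp [hψ, hc, this]
    have hid : ∫ y, (u y * ∑ i, pd i (pd i ψ) y + g y * ψ y) = 0 := by
      set U := glue ε u
      have hU : ContDiff ℝ 2 U := contDiff_glue hε hu2
      have e1 : ∀ y, u y * ∑ i, pd i (pd i ψ) y = U y * ∑ i, pd i (pd i ψ) y := fun y => by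
        rcases lt_or_ge ‖y‖ ε with h | h
        · have : ψ =ᶠ[𝓝 y] fun _ => (0 : ℝ) := by
            filter_upwards [(isOpen_lt continuous_norm continuous_const).mem_nhds h] with z hz
            exact hψ0 z (le_of_lt hz)
          have e : ∀ i, pd i (pd i ψ) y = 0 := fun i => by
            have : pd i ψ =ᶠ[𝓝 y] fun _ => (0 : ℝ) := by
              filter_upwards [this.eventuallyEq_nhds] with z hz
              rw [pd, hz.fderiv_eq]; simp
            rw [pd, this.fderiv_eq]; simp
          simp [e]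
        · simp only [U]
          rw [glue_eq hε u (show 3 / 4 * ε ≤ ‖y‖ by linarith)]
      have e2 : ∀ y, ψ y * ∑ i, pd i (pd i U) y = -(g y * ψ y) := fun y => by
        rcases le_or_gt ‖y‖ ε with h | h
        · simp [hψ0 y h]
        · have hy : y ≠ 0 := by rintro rfl; simp at h; linarith
          rw [(glue_local hε hu2 (show 3 / 4 * ε < ‖y‖ by linarith)).2.2, ← heq y hy]
          ring
      have h1 := integral_mul_lap hψ2 hψc hU
      simp only [e2] at h1
      have i1 : Integrable fun y => g y * ψ y :=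
        (hg.mul hψ2.continuous).integrable_of_hasCompactSupport hψc.mul_left
      have i2 : Integrable fun y => u y * ∑ i, pd i (pd i ψ) y := by
        refine Continuous.integrable_of_hasCompactSupport (hu.mul (continuous_finsetSum _ fun i _ =>
          continuous_pd (contDiff_pd hψ2 i) i)) (HasCompactSupport.intro hψc fun z hz => ?_)
        have h2 : ∀ i, pd i (pd i ψ) z = 0 := fun i => image_eq_zero_of_notMem_tsupport
          fun h => hz (tsupport_fderiv_apply_subset ℝ (ev i)
            (tsupport_fderiv_apply_subset ℝ (ev i) h))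
        simp [h2]
      rw [integral_add i2 i1, integral_congr_ae (Eventually.of_forall e1), ← h1, integral_neg,
        neg_add_cancel]
    have iψ : Integrable fun y => u y * ∑ i, pd i (pd i ψ) y + g y * ψ y := by
      refine Continuous.integrable_of_hasCompactSupport ((hu.mul (continuous_finsetSum _ fun i _ =>
        continuous_pd (contDiff_pd hψ2 i) i)).add (hg.mul hψ2.continuous)) ?_
      refine HasCompactSupport.intro hψc fun z hz => ?_
      have h0 : ψ z = 0 := image_eq_zero_of_notMem_tsupport hz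
      have h2 : ∀ i, pd i (pd i ψ) z = 0 := fun i => image_eq_zero_of_notMem_tsupport
        fun h => hz (tsupport_fderiv_apply_subset ℝ (ev i)
          (tsupport_fderiv_apply_subset ℝ (ev i) h))
      simp [h0, h2]
    set B := |M1| * ((4 * n + 4 : ℝ) * (|M2| + 1)) * (ε⁻¹) ^ 2 with hB
    have hdiff : ∀ y, ‖(u y * ∑ i, pd i (pd i φ) y + g y * φ y) -
        (u y * ∑ i, pd i (pd i ψ) y + g y * ψ y)‖ ≤
        (Metric.closedBall (0 : Euc n) (2 * ε)).indicator (fun _ => B) y := by
      intro y
      have hfun : ψ = fun z => (fun z => 1 - c z) z * φ z := rfl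
      by_cases hy : y ∈ Metric.closedBall (0 : Euc n) (2 * ε)
      · rw [indicator_of_mem hy, Real.norm_eq_abs]
        have hm := hM1 y (Metric.closedBall_subset_closedBall (by linarith) hy)
        have hm2 := hM2 (ε⁻¹ • y)
        simp only [Real.norm_eq_abs] at hm hm2
        set a := fun z : Euc n => 1 - c z
        have ha : ContDiff ℝ 2 a := contDiff_const.sub hc2
        have hp1 : ∀ i z, pd i a z = -(ε⁻¹ * pd i η (ε⁻¹ • z)) := fun i z => by
          have : pd i a z = -(pd i c z) := by simp [pd, a, fderiv_const_sub]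
          rw [this, hc, pd_scale, one_mul]
        have hp2 : ∀ i, pd i (pd i a) y = -(ε⁻¹ ^ 2 * pd i (pd i η) (ε⁻¹ • y)) := fun i => by
          rw [show pd i a = fun z => (-ε⁻¹) * pd i η (ε⁻¹ • z) from
            funext fun z => by rw [hp1]; ring, pd_scale]
          ring
        set S1 := |φ y| + ∑ i, (|pd i φ y| + |pd i (pd i φ) y|) with hS1
        set S2 := |η (ε⁻¹ • y)| + ∑ i, (|pd i η (ε⁻¹ • y)| + |pd i (pd i η) (ε⁻¹ • y)|) with hS2
        have hS10 : 0 ≤ S1 := by positivity
        have hm' : (|u y| + |g y|) * S1 ≤ |M1| :=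
          ((le_abs_self _).trans hm).trans (le_abs_self _)
        have hS2' : S2 ≤ |M2| := ((le_abs_self _).trans hm2).trans (le_abs_self _)
        have hS20 : 0 ≤ S2 := by positivity
        have hi : 1 ≤ ε⁻¹ := (one_le_inv₀ hε).2 hε1
        have q0 : |c y * φ y| ≤ ε⁻¹ ^ 2 * ((|M2| + 1) * S1) := by
          rw [abs_mul]
          simp only [hc, one_mul]
          calc |η (ε⁻¹ • y)| * |φ y| ≤ 1 * ((|M2| + 1) * S1) := by
                rw [one_mul]
                refine mul_le_mul ?_ (le_add_of_nonneg_right (by positivity)) (abs_nonneg _)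
                  (by positivity)
                have : |η (ε⁻¹ • y)| ≤ S2 := le_add_of_nonneg_right (by positivity)
                linarith
            _ ≤ _ := mul_le_mul_of_nonneg_right (one_le_pow₀ hi) (by positivity)
        have qi : ∀ i, |pd i (pd i φ) y - pd i (pd i ψ) y| ≤ 4 * (ε⁻¹ ^ 2 * ((|M2| + 1) * S1)) := by
          intro i
          rw [hfun, pd_pd_mul ha hφ, hp2, hp1]
          have a1 : |pd i φ y| + |pd i (pd i φ) y| ≤ S1 :=
            (Finset.single_le_sum (f := fun j => |pd j φ y| + |pd j (pd j φ) y|)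
              (fun j _ => by positivity) (Finset.mem_univ i)).trans
              (le_add_of_nonneg_left (abs_nonneg _))
          have a0 : |φ y| ≤ S1 := le_add_of_nonneg_right (by positivity)
          have a2 : |pd i η (ε⁻¹ • y)| + |pd i (pd i η) (ε⁻¹ • y)| ≤ S2 :=
            (Finset.single_le_sum (f := fun j => |pd j η (ε⁻¹ • y)| + |pd j (pd j η) (ε⁻¹ • y)|)
              (fun j _ => by positivity) (Finset.mem_univ i)).trans
              (le_add_of_nonneg_left (abs_nonneg _))
          have a3 : |c y| ≤ S2 := by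
            simp only [hc, one_mul]; exact le_add_of_nonneg_right (by positivity)
          have := abs_nonneg (pd i φ y); have := abs_nonneg (pd i (pd i φ) y)
          have := abs_nonneg (pd i η (ε⁻¹ • y)); have := abs_nonneg (pd i (pd i η) (ε⁻¹ • y))
          have e : pd i (pd i φ) y - (-(ε⁻¹ ^ 2 * pd i (pd i η) (ε⁻¹ • y)) * φ y +
              2 * (-(ε⁻¹ * pd i η (ε⁻¹ • y)) * pd i φ y) + (1 - c y) * pd i (pd i φ) y) =
              ε⁻¹ ^ 2 * (pd i (pd i η) (ε⁻¹ • y) * φ y) +
              2 * (ε⁻¹ * (pd i η (ε⁻¹ • y) * pd i φ y)) + c y * pd i (pd i φ) y := by ring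
          rw [e]
          refine (abs_add_three _ _ _).trans ?_
          simp only [abs_mul, abs_pow, abs_two, abs_of_pos (inv_pos.2 hε)]
          have m1 : |pd i (pd i η) (ε⁻¹ • y)| * |φ y| ≤ (|M2| + 1) * S1 :=
            mul_le_mul (by linarith) a0 (abs_nonneg _) (by positivity)
          have m2 : |pd i η (ε⁻¹ • y)| * |pd i φ y| ≤ (|M2| + 1) * S1 :=
            mul_le_mul (by linarith) (by linarith) (abs_nonneg _) (by positivity)
          have m3 : |c y| * |pd i (pd i φ) y| ≤ (|M2| + 1) * S1 :=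
            mul_le_mul (by linarith) (by linarith) (abs_nonneg _) (by positivity)
          have k1 := mul_le_mul_of_nonneg_left m1 (sq_nonneg ε⁻¹)
          have k2 := mul_le_mul (show ε⁻¹ ≤ ε⁻¹ ^ 2 from le_self_pow₀ hi two_ne_zero) m2
            (by positivity) (sq_nonneg _)
          have k3 := mul_le_mul (show (1 : ℝ) ≤ ε⁻¹ ^ 2 from one_le_pow₀ hi) m3
            (by positivity) (sq_nonneg _)
          linarith
        have qs : |∑ i, (pd i (pd i φ) y - pd i (pd i ψ) y)| ≤
            n * (4 * (ε⁻¹ ^ 2 * ((|M2| + 1) * S1))) :=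
          (Finset.abs_sum_le_sum_abs _ _).trans
            ((Finset.sum_le_sum fun i _ => qi i).trans (le_of_eq (by simp)))
        have e : (u y * ∑ i, pd i (pd i φ) y + g y * φ y) -
            (u y * ∑ i, pd i (pd i ψ) y + g y * ψ y) =
            u y * ∑ i, (pd i (pd i φ) y - pd i (pd i ψ) y) + g y * (c y * φ y) := by
          rw [Finset.sum_sub_distrib]; simp only [hψ]; ring
        rw [e]
        refine (abs_add_le _ _).trans ?_
        rw [abs_mul, abs_mul (g y)]
        set T := ε⁻¹ ^ 2 * ((|M2| + 1) * S1) with hT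
        have hT0 : 0 ≤ T := by positivity
        have t1 := mul_le_mul_of_nonneg_left qs (abs_nonneg (u y))
        have t2 := mul_le_mul_of_nonneg_left q0 (abs_nonneg (g y))
        have t3 : (|u y| + |g y|) * ((4 * n + 4 : ℝ) * T) ≤ B := by
          calc (|u y| + |g y|) * ((4 * n + 4 : ℝ) * T)
              = ((|u y| + |g y|) * S1) * ((4 * n + 4 : ℝ) * (|M2| + 1) * ε⁻¹ ^ 2) := by
                rw [hT]; ring
            _ ≤ |M1| * ((4 * n + 4 : ℝ) * (|M2| + 1) * ε⁻¹ ^ 2) :=
                mul_le_mul_of_nonneg_right hm' (by positivity)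
            _ = _ := by rw [hB]; ring
        have : 0 ≤ |u y| * T := mul_nonneg (abs_nonneg _) hT0
        have : 0 ≤ |g y| * T := mul_nonneg (abs_nonneg _) hT0
        have : 0 ≤ (n : ℝ) * (|g y| * T) := by positivity
        linarith
      · rw [indicator_of_notMem hy]
        rw [Metric.mem_closedBall, dist_zero_right, not_le] at hy
        have hev : ψ =ᶠ[𝓝 y] φ := by
          filter_upwards [(isOpen_lt continuous_const continuous_norm).mem_nhds hy] with z hz
          have : η (ε⁻¹ • z) = 0 := hη0 _ (by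
            rw [norm_smul, norm_inv, Real.norm_eq_abs, abs_of_pos hε, ← div_eq_inv_mul,
              le_div_iff₀ hε]
            exact le_of_lt hz)
          simp [hψ, hc, this]
        have e : ∀ i, pd i (pd i ψ) y = pd i (pd i φ) y := fun i => by
          have : pd i ψ =ᶠ[𝓝 y] pd i φ := by
            filter_upwards [hev.eventuallyEq_nhds] with z hz
            rw [pd, pd, hz.fderiv_eq]
          rw [pd, pd, this.fderiv_eq]
        simp [e, hev.eq_of_nhds]
    have hI : A ≤ B * ((2 * ε) ^ n * V) := by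
      have : ∫ x, (u x * ∑ i, pd i (pd i φ) x + g x * φ x) =
          ∫ y, ((u y * ∑ i, pd i (pd i φ) y + g y * φ y) -
            (u y * ∑ i, pd i (pd i ψ) y + g y * ψ y)) := by
        rw [integral_sub iu iψ, hid, sub_zero]
      rw [hA, this, ← Real.norm_eq_abs]
      refine (norm_integral_le_of_norm_le ((integrable_indicator_iff measurableSet_closedBall).2
        (integrableOn_const measure_closedBall_lt_top.ne)) (Eventually.of_forall hdiff)).trans ?_
      rw [integral_indicator_const B measurableSet_closedBall,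
        volume_real_closedBall (2 * ε) (by linarith), smul_eq_mul, mul_comm]
    refine hI.trans (le_of_eq_of_le (b := |M1| * ((4 * n + 4 : ℝ) * (|M2| + 1)) * 2 ^ n * V *
      ε ^ (n - 2)) ?_ (mul_le_mul_of_nonneg_left (pow_le_of_le_one hε.le hε1 (by omega))
        (by positivity)))
    rw [hB, mul_pow, inv_pow, show ε ^ n = ε ^ 2 * ε ^ (n - 2) by
      rw [← pow_add]; congr 1; omega]
    field_simp
  have hA0 : A = 0 := by
    refine le_antisymm (le_of_forall_pos_le_add fun r hr => ?_) (abs_nonneg _)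
    set K := |M1| * ((4 * n + 4 : ℝ) * (|M2| + 1)) * 2 ^ n * V
    have hK : 0 ≤ K := by positivity
    have hε : 0 < min 1 (r / (K + 1)) := lt_min one_pos (div_pos hr (by linarith))
    refine (key _ hε (min_le_left _ _)).trans ?_
    rw [zero_add]
    calc K * min 1 (r / (K + 1)) ≤ (K + 1) * (r / (K + 1)) :=
          mul_le_mul (by linarith) (min_le_right _ _) hε.le (by linarith)
      _ = r := by field_simp
  rw [hA, abs_eq_zero] at hA0
  have i1 : Integrable fun x => g x * φ x :=
    (hg.mul hφ.continuous).integrable_of_hasCompactSupport hφc.mul_left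
  have i2 : Integrable fun x => u x * ∑ i, pd i (pd i φ) x := by
    exact (iu.sub i1).congr (Eventually.of_forall fun x => by simp)
  rw [integral_add i2 i1] at hA0
  linarith

/-- Mean value inequality for weakly superharmonic functions. -/
theorem mean_value (n : ℕ) (L : ℝ) (hL : 0 < L) : ∃ c : ℝ, 0 < c ∧ ∀ u : Euc n → ℝ, Continuous u →
    (∀ x, 0 ≤ u x) → (∀ s (x : Euc n), ∫ z, u z * ∑ i, pd i (pd i (tb s x)) z ≤ 0) →
    ∀ x ∈ Metric.closedBall (0 : Euc n) (3 * L),
      c * (∫ z in Metric.closedBall (0 : Euc n) L, u z) ≤ u x := by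
  set w : Euc n → ℝ := fun y => ppow 3 (1 - ‖y‖ ^ 2) with hw
  have hwc : Continuous w := (continuous_ppow 3).comp (by fun_prop)
  have hwk : HasCompactSupport w := HasCompactSupport.intro (isCompact_closedBall 0 1) fun z hz => by
    rw [Metric.mem_closedBall, dist_zero_right, not_le] at hz
    simp [hw, ppow, max_eq_right (sub_nonpos.2 (one_le_pow₀ (n := 2) hz.le))]
  have hW : 0 < ∫ y, w y := by
    refine (hwc.integral_pos_of_hasCompactSupport_nonneg_nonzero hwk (fun y => ppow_nonneg _ _)
      (x := 0) ?_)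
    simp [hw, ppow]
  set β : ℝ := (n : ℝ) / 2 + 3 with hβ
  set W := ∫ y, w y
  refine ⟨((8 * L) ^ 2) ^ (-β) * (48 * L ^ 2) ^ 3 / W, by positivity, fun u hu hu0 hsup x hx => ?_⟩
  set J : ℝ → ℝ := fun s => ∫ z, u z * ppow 3 (s - ‖z - x‖ ^ 2) with hJ
  set N : ℝ → ℝ := fun s => s ^ (-β) * J s with hN
  have hcs : ∀ (k : ℕ) (s : ℝ), Continuous fun z => u z * ppow k (s - ‖z - x‖ ^ 2) := fun k s =>
    hu.mul ((continuous_ppow k).comp (by fun_prop))
  have hsp : ∀ (k : ℕ) (s T : ℝ), s ≤ T → 0 ≤ T → ∀ z,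
      z ∉ Metric.closedBall x (T + 1) → ppow (k + 1) (s - ‖z - x‖ ^ 2) = 0 := fun k s T hsT hT z hz => by
    rw [Metric.mem_closedBall, dist_eq_norm, not_le] at hz
    have : s ≤ ‖z - x‖ ^ 2 := by nlinarith
    simp [ppow, max_eq_right (sub_nonpos.2 this)]
  have hint : ∀ (k : ℕ) (s : ℝ), Integrable fun z => u z * ppow (k + 1) (s - ‖z - x‖ ^ 2) :=
    fun k s => (hcs (k + 1) s).integrable_of_hasCompactSupport
      (HasCompactSupport.intro (isCompact_closedBall x (max s 0 + 1)) fun z hz => by
        rw [hsp k s _ (le_max_left _ _) (le_max_right _ _) z hz, mul_zero])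
  have hJd : ∀ s : ℝ, 0 < s → HasDerivAt J (∫ z, u z * (3 * ppow 2 (s - ‖z - x‖ ^ 2))) s := by
    intro s hs
    refine (hasDerivAt_integral_of_dominated_loc_of_deriv_le (Metric.ball_mem_nhds s one_pos)
      (F := fun t z => u z * ppow 3 (t - ‖z - x‖ ^ 2))
      (F' := fun t z => u z * (3 * ppow 2 (t - ‖z - x‖ ^ 2)))
      (bound := (Metric.closedBall x (s + 2)).indicator fun z => u z * (3 * (s + 1) ^ 2))
      (Eventually.of_forall fun t => (hcs 3 t).aestronglyMeasurable) (hint 2 s)
      ((hu.mul (continuous_const.mul ((continuous_ppow 2).comp (by fun_prop)))).aestronglyMeasurable)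
      (Eventually.of_forall fun z t ht => ?_)
      ((hu.mul continuous_const).continuousOn.integrableOn_compact
        (isCompact_closedBall _ _) |>.integrable_indicator measurableSet_closedBall)
      (Eventually.of_forall fun z t _ => ?_)).2
    · rw [Metric.mem_ball, Real.dist_eq, abs_lt] at ht
      rw [Real.norm_eq_abs, abs_of_nonneg (mul_nonneg (hu0 z) (mul_nonneg (by norm_num) (ppow_nonneg _ _)))]
      by_cases hz : z ∈ Metric.closedBall x (s + 2)
      · rw [indicator_of_mem hz]
        refine mul_le_mul_of_nonneg_left (mul_le_mul_of_nonneg_left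
          (pow_le_pow_left₀ (le_max_right _ _) (max_le ?_ (by linarith)) 2) (by norm_num)) (hu0 z)
        nlinarith
      · rw [indicator_of_notMem hz, hsp 1 t (s + 1) (by linarith) (by linarith) z
          (by rwa [show s + 1 + 1 = s + 2 by ring]), mul_zero, mul_zero]
    · have h := (hasDerivAt_ppow 1 (t - ‖z - x‖ ^ 2)).comp t
        ((hasDerivAt_id t).sub_const (‖z - x‖ ^ 2))
      refine (h.const_mul (u z)).congr_deriv ?_
      norm_num
  have hNd : ∀ s : ℝ, 0 < s → HasDerivAt N
      (s ^ (-β - 1) / 16 * ∫ z, u z * ∑ i, pd i (pd i (tb s x)) z) s := by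
    intro s hs
    refine ((Real.hasDerivAt_rpow_const (p := -β) (Or.inl hs.ne')).mul (hJd s hs)).congr_deriv ?_
    have e : ∀ z, u z * ∑ i, pd i (pd i (tb s x)) z = 16 * s *
        (u z * (3 * ppow 2 (s - ‖z - x‖ ^ 2))) - 16 * β * (u z * ppow 3 (s - ‖z - x‖ ^ 2)) :=
      fun z => by rw [sum_pd_pd_tb]; ring
    have i2 : Integrable fun z => u z * (3 * ppow 2 (s - ‖z - x‖ ^ 2)) :=
      ((hint 1 s).const_mul 3).congr (Eventually.of_forall fun z => by ring)
    rw [integral_congr_ae (Eventually.of_forall e), integral_sub (i2.const_mul _)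
      ((hint 2 s).const_mul _), integral_const_mul, integral_const_mul,
      show s ^ (-β) = s ^ (-β - 1) * s by rw [← Real.rpow_add_one hs.ne']; simp]
    ring
  have hmono : AntitoneOn N (Ioi 0) :=
    antitoneOn_of_deriv_nonpos (convex_Ioi 0)
      (fun s hs => (hNd s hs).continuousAt.continuousWithinAt)
      (fun s hs => (hNd s (interior_subset hs)).differentiableAt.differentiableWithinAt)
      fun s hs => by
        rw [(hNd s (interior_subset hs)).deriv]
        exact mul_nonpos_of_nonneg_of_nonpos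
          (div_nonneg (Real.rpow_nonneg (le_of_lt (show (0:ℝ) < s from interior_subset hs)) _) (by norm_num))
          (hsup s x)
  set M : ℝ → ℝ := fun t => ∫ y in Metric.closedBall (0 : Euc n) 1, u (x + t • y) * w y with hM
  have hMN : ∀ t : ℝ, 0 < t → M t = N (t ^ 2) := by
    intro t ht
    have hw0 : ∀ y ∉ Metric.closedBall (0 : Euc n) 1, u (x + t • y) * w y = 0 := fun y hy => by
      rw [Metric.mem_closedBall, dist_zero_right, not_le] at hy
      simp [hw, ppow, max_eq_right (sub_nonpos.2 (one_le_pow₀ (n := 2) hy.le))]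
    have e : ∀ y, u (x + t • y) * ppow 3 (t ^ 2 - ‖(x + t • y) - x‖ ^ 2) =
        t ^ 6 * (u (x + t • y) * w y) := fun y => by
      have : t ^ 2 - ‖(x + t • y) - x‖ ^ 2 = t ^ 2 * (1 - ‖y‖ ^ 2) := by
        rw [add_sub_cancel_left, norm_smul, mul_pow, Real.norm_eq_abs, sq_abs]; ring
      rw [this]
      simp only [hw, ppow]
      rw [show (0 : ℝ) = t ^ 2 * 0 by simp, ← mul_max_of_nonneg _ _ (sq_nonneg t), mul_zero, mul_pow]
      ring
    have h1 := Measure.integral_comp_smul_of_nonneg (μ := (volume : Measure (Euc n)))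
      (fun z => u (x + z) * ppow 3 (t ^ 2 - ‖(x + z) - x‖ ^ 2)) t (hR := ht.le)
    rw [integral_congr_ae (Eventually.of_forall e), integral_const_mul,
      integral_add_left_eq_self (fun z => u z * ppow 3 (t ^ 2 - ‖z - x‖ ^ 2)) x,
      finrank_euclideanSpace_fin, smul_eq_mul] at h1
    rw [hM, hN]
    simp only
    rw [setIntegral_eq_integral_of_forall_compl_eq_zero hw0]
    have e2 : (t ^ 2) ^ (-β) * (t ^ n * t ^ 6) = 1 := by
      rw [← pow_add, ← Real.rpow_natCast t (n + 6), ← Real.rpow_natCast t 2,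
        ← Real.rpow_mul ht.le, ← Real.rpow_add ht]
      convert Real.rpow_zero t using 2
      rw [hβ]; push_cast; ring
    have hJ' : J (t ^ 2) = t ^ n * (t ^ 6 * ∫ y, u (x + t • y) * w y) := by
      rw [h1, hJ]; field_simp
    rw [hJ']
    calc ∫ y, u (x + t • y) * w y = ((t ^ 2) ^ (-β) * (t ^ n * t ^ 6)) * ∫ y, u (x + t • y) * w y := by
          rw [e2, one_mul]
      _ = _ := by ring
  have hMc : Continuous M := continuous_parametric_integral_of_continuous
    (f := fun t y => u (x + t • y) * w y)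
    ((hu.comp (continuous_const.add (continuous_fst.smul continuous_snd))).mul
      (hwc.comp continuous_snd)) (isCompact_closedBall _ _)
  have hM0 : M 0 = u x * W := by
    simp only [hM, zero_smul, add_zero]
    rw [integral_const_mul, setIntegral_eq_integral_of_forall_compl_eq_zero fun y hy => by
      rw [Metric.mem_closedBall, dist_zero_right, not_le] at hy
      simp [hw, ppow, max_eq_right (sub_nonpos.2 (one_le_pow₀ (n := 2) hy.le))]]
  have hlim : N ((8 * L) ^ 2) ≤ M 0 := by
    refine ge_of_tendsto (hMc.continuousWithinAt (s := Ioi 0) (x := 0)).tendsto ?_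
    filter_upwards [self_mem_nhdsWithin, mem_nhdsWithin_of_mem_nhds
      (Iio_mem_nhds (show (0:ℝ) < 8 * L by positivity))] with t ht ht'
    rw [hMN t ht]
    exact hmono (mem_Ioi.2 (pow_pos ht 2)) (mem_Ioi.2 (by positivity))
      (pow_le_pow_left₀ (le_of_lt ht) (le_of_lt ht') 2)
  rw [hM0] at hlim
  have hJ8 : (48 * L ^ 2) ^ 3 * (∫ z in Metric.closedBall (0 : Euc n) L, u z) ≤ J ((8 * L) ^ 2) := by
    rw [← integral_const_mul, ← integral_indicator measurableSet_closedBall]
    refine integral_mono_of_nonneg (Eventually.of_forall fun z => indicator_nonneg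
      (fun y _ => mul_nonneg (by positivity) (hu0 y)) z) (hint 2 _) (Eventually.of_forall fun z => ?_)
    by_cases hz : z ∈ Metric.closedBall (0 : Euc n) L
    · rw [indicator_of_mem hz]
      show (48 * L ^ 2) ^ 3 * u z ≤ u z * ppow 3 ((8 * L) ^ 2 - ‖z - x‖ ^ 2)
      rw [mul_comm (u z)]
      refine mul_le_mul_of_nonneg_right (pow_le_pow_left₀ (by positivity) (le_max_of_le_left ?_) 3) (hu0 z)
      rw [mem_closedBall_zero_iff] at hz hx
      have : ‖z - x‖ ≤ 4 * L := (norm_sub_le _ _).trans (by linarith)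
      nlinarith [norm_nonneg (z - x)]
    · rw [indicator_of_notMem hz]; exact mul_nonneg (hu0 z) (ppow_nonneg _ _)
  rw [div_mul_eq_mul_div, div_le_iff₀ hW, mul_assoc]
  exact (mul_le_mul_of_nonneg_left hJ8 (by positivity)).trans hlim

/-- Mass of the source against mass of the function. -/
theorem source_bound (hn : 3 ≤ n) (L : ℝ) (hL : 0 < L) : ∃ C : ℝ, 0 ≤ C ∧ ∀ u g : Euc n → ℝ,
    Continuous u → Continuous g → (∀ x, 0 ≤ u x) → ContDiffOn ℝ 2 u {x | x ≠ 0} →
    (∀ x, x ≠ 0 → -(Δ u x) = g x) →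
      ∫ x, g x * tb (L ^ 2) 0 x ≤ C * ∫ x in Metric.closedBall (0 : Euc n) L, u x := by
  obtain ⟨C, hC⟩ := (isCompact_closedBall (0 : Euc n) L).exists_bound_of_continuousOn
    (continuous_finsetSum Finset.univ fun i _ =>
      continuous_pd (contDiff_pd (contDiff_tb (L ^ 2) (0 : Euc n)) i) i).continuousOn
  refine ⟨|C|, abs_nonneg _, fun u g hu hg hu0 hu2 heq => ?_⟩
  have h := weak_eq hn hu hg hu2 heq (contDiff_tb (L ^ 2) 0) (hasCompactSupport_tb _ _)
  rw [← integral_const_mul, ← integral_indicator measurableSet_closedBall]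
  calc ∫ x, g x * tb (L ^ 2) 0 x = ∫ x, -(u x * ∑ i, pd i (pd i (tb (L ^ 2) 0)) x) := by
        rw [integral_neg, h, neg_neg]
    _ ≤ _ := by
      refine integral_mono ?_ (((hu.const_mul |C|).continuousOn.integrableOn_compact
        (isCompact_closedBall _ _)).integrable_indicator measurableSet_closedBall) fun x => ?_
      · refine (Continuous.integrable_of_hasCompactSupport (hu.mul
          (continuous_finsetSum _ fun i _ => continuous_pd
            (contDiff_pd (contDiff_tb (L ^ 2) (0 : Euc n)) i) i))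
          (HasCompactSupport.intro (hasCompactSupport_tb (L ^ 2) (0 : Euc n)) fun z hz => ?_)).neg
        have h2 : ∀ i, pd i (pd i (tb (L ^ 2) (0 : Euc n))) z = 0 := fun i =>
          image_eq_zero_of_notMem_tsupport fun h => hz (tsupport_fderiv_apply_subset ℝ (ev i)
            (tsupport_fderiv_apply_subset ℝ (ev i) h))
        simp [h2]
      · by_cases hx : x ∈ Metric.closedBall (0 : Euc n) L
        · rw [indicator_of_mem hx]
          have h1 := hC x hx
          rw [Real.norm_eq_abs] at h1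
          calc -(u x * ∑ i, pd i (pd i (tb (L ^ 2) 0)) x)
              ≤ u x * |∑ i, pd i (pd i (tb (L ^ 2) 0)) x| := by
                rw [← mul_neg]; exact mul_le_mul_of_nonneg_left (neg_le_abs _) (hu0 x)
            _ ≤ u x * |C| := mul_le_mul_of_nonneg_left (h1.trans (le_abs_self _)) (hu0 x)
            _ = _ := mul_comm _ _
        · rw [indicator_of_notMem hx, sum_pd_pd_tb]
          rw [mem_closedBall_zero_iff, not_le] at hx
          have : L ^ 2 - ‖x‖ ^ 2 ≤ 0 := by nlinarith
          simp [ppow, sub_zero, max_eq_right this]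

/-- Universal local bounds. -/
theorem apriori {n : ℕ} (hn : 3 ≤ n) {p q : ℝ} (hp : 0 < p) (hq : 0 < q) (hpq : 1 < p * q)
    (L : ℝ) (hL : 0 < L) : ∃ C : ℝ, ∀ u v : Euc n → ℝ, IsPositiveEntireSolution p q u v →
      (∫ x in Metric.closedBall (0 : Euc n) L, u x) ≤ C ∧
      (∫ x in Metric.closedBall (0 : Euc n) L, v x) ≤ C ∧
      (∫ x in Metric.closedBall (0 : Euc n) L, v x ^ p) ≤ C := by
  have main : ∀ R : ℝ, 0 < R → ∃ C : ℝ, ∀ u v : Euc n → ℝ, IsPositiveEntireSolution p q u v →
      (∫ x in Metric.closedBall (0 : Euc n) R, u x) ≤ C ∧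
      (∫ x in Metric.closedBall (0 : Euc n) R, v x) ≤ C := by
    intro R hR
    obtain ⟨c, hc, hmv⟩ := mean_value n R hR
    obtain ⟨D, hD0, hsrc⟩ := source_bound hn R hR
    set T := ∫ x, tb (R ^ 2) (0 : Euc n) x
    have hTi : Integrable (tb (R ^ 2) (0 : Euc n)) :=
      (contDiff_tb _ _).continuous.integrable_of_hasCompactSupport (hasCompactSupport_tb _ _)
    have hT : 0 < T := by
      refine (contDiff_tb (R ^ 2) (0 : Euc n)).continuous.integral_pos_of_hasCompactSupport_nonneg_nonzero
        (hasCompactSupport_tb _ _) (fun y => ppow_nonneg _ _) (x := 0) ?_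
      simp [tb, ppow, hR.ne']
    set K := D / T + 1 with hK
    have hK0 : 0 < K := by positivity
    set X0 := ((K / c) ^ (p + 1)) ^ (1 / (p * q - 1)) with hX0d
    refine ⟨max (X0 / c) ((K / c * X0) ^ (1 / p) / c), fun u v hs => ?_⟩
    obtain ⟨huc, hvc, hu2, hv2, hup, hvp, heq⟩ := hs
    have hsuper : ∀ (u g : Euc n → ℝ), Continuous u → Continuous g → (∀ x, 0 ≤ g x) →
        ContDiffOn ℝ 2 u {x | x ≠ 0} → (∀ x, x ≠ 0 → -(Δ u x) = g x) →
        ∀ s (x : Euc n), ∫ z, u z * ∑ i, pd i (pd i (tb s x)) z ≤ 0 := by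
      intro u g hu hg hg0 hu2 he s x
      rw [weak_eq hn hu hg hu2 he (contDiff_tb s x) (hasCompactSupport_tb s x)]
      exact neg_nonpos.2 (integral_nonneg fun z => mul_nonneg (hg0 z) (ppow_nonneg _ _))
    have hvpc : Continuous fun x => v x ^ p := hvc.rpow_const fun x => Or.inl (hvp x).ne'
    have huqc : Continuous fun x => u x ^ q := huc.rpow_const fun x => Or.inl (hup x).ne'
    set Iu := ∫ x in Metric.closedBall (0 : Euc n) R, u x
    set Iv := ∫ x in Metric.closedBall (0 : Euc n) R, v x
    have hu0 : 0 ≤ Iu := integral_nonneg fun x => (hup x).le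
    have hv0 : 0 ≤ Iv := integral_nonneg fun x => (hvp x).le
    have step : ∀ (u v : Euc n → ℝ) (r : ℝ), 0 < r → Continuous u → Continuous v →
        (∀ x, 0 ≤ u x) → (∀ x, 0 < v x) → ContDiffOn ℝ 2 u {x | x ≠ 0} →
        (∀ x, x ≠ 0 → -(Δ u x) = v x ^ r) →
        (∀ x ∈ Metric.closedBall (0 : Euc n) (3 * R),
          c * (∫ z in Metric.closedBall (0 : Euc n) R, v z) ≤ v x) →
        (c * ∫ z in Metric.closedBall (0 : Euc n) R, v z) ^ r
          ≤ K * ∫ x in Metric.closedBall (0 : Euc n) R, u x := by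
      intro u v r hr hu hv hu0 hv0 hu2 he hlow
      have hg : Continuous fun x => v x ^ r := hv.rpow_const fun x => Or.inl (hv0 x).ne'
      have h1 := hsrc u _ hu hg hu0 hu2 he
      have h2 : (c * ∫ z in Metric.closedBall (0 : Euc n) R, v z) ^ r * T ≤
          ∫ x, v x ^ r * tb (R ^ 2) 0 x := by
        rw [← integral_const_mul]
        refine integral_mono (hTi.const_mul _)
          ((hg.mul (contDiff_tb _ _).continuous).integrable_of_hasCompactSupport
            (hasCompactSupport_tb _ _).mul_left) fun x => ?_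
        by_cases hx : x ∈ Metric.closedBall (0 : Euc n) (3 * R)
        · exact mul_le_mul_of_nonneg_right (Real.rpow_le_rpow
            (mul_nonneg hc.le (integral_nonneg fun z => (hv0 z).le)) (hlow x hx) hr.le)
            (ppow_nonneg _ _)
        · rw [mem_closedBall_zero_iff, not_le] at hx
          have : R ^ 2 - ‖x‖ ^ 2 ≤ 0 := by nlinarith
          simp [tb, ppow, sub_zero, max_eq_right this]
      have hI : 0 ≤ ∫ x in Metric.closedBall (0 : Euc n) R, u x := integral_nonneg hu0
      rw [hK, add_mul, one_mul, div_mul_eq_mul_div]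
      refine le_trans ?_ (le_add_of_nonneg_right hI)
      rw [le_div_iff₀ hT]
      exact h2.trans h1
    have hvp' : ∀ x, 0 ≤ v x ^ p := fun x => Real.rpow_nonneg (hvp x).le _
    have huq' : ∀ x, 0 ≤ u x ^ q := fun x => Real.rpow_nonneg (hup x).le _
    have s1 : (c * Iv) ^ p ≤ K * Iu := step u v p hp huc hvc (fun x => (hup x).le) hvp hu2
      (fun x hx => (heq x hx).1) (hmv v hvc (fun x => (hvp x).le)
        (hsuper v _ hvc huqc huq' hv2 fun x hx => (heq x hx).2))
    have s2 : (c * Iu) ^ q ≤ K * Iv := step v u q hq hvc huc (fun x => (hvp x).le) hup hv2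
      (fun x hx => (heq x hx).2) (hmv u huc (fun x => (hup x).le)
        (hsuper u _ huc hvpc hvp' hu2 fun x hx => (heq x hx).1))
    set X := c * Iu with hX
    set Y := c * Iv with hY
    have hX' : 0 ≤ X := mul_nonneg hc.le hu0
    have hY' : 0 ≤ Y := mul_nonneg hc.le hv0
    set A := K / c with hA
    have hA0 : 0 < A := div_pos hK0 hc
    have t1 : Y ^ p ≤ A * X := s1.trans (le_of_eq (by rw [hA, hX]; field_simp))
    have t2 : X ^ q ≤ A * Y := s2.trans (le_of_eq (by rw [hA, hY]; field_simp))
    have hd : 0 < p * q - 1 := by linarith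
    have hX0 : X ≤ X0 := by
      rcases eq_or_lt_of_le hX' with h | h
      · rw [← h]; positivity
      · have e1 := Real.rpow_le_rpow (Real.rpow_nonneg hX' q) t2 hp.le
        rw [← Real.rpow_mul hX', Real.mul_rpow hA0.le hY', mul_comm q p] at e1
        have e2 : X ^ (p * q - 1) ≤ A ^ (p + 1) := by
          rw [Real.rpow_sub_one h.ne', div_le_iff₀ h, Real.rpow_add_one hA0.ne', mul_assoc]
          exact e1.trans (mul_le_mul_of_nonneg_left t1 (Real.rpow_nonneg hA0.le p))
        have e3 := Real.rpow_le_rpow (Real.rpow_nonneg hX' _) e2 (one_div_nonneg.2 hd.le)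
        rwa [← Real.rpow_mul hX', mul_one_div_cancel hd.ne', Real.rpow_one] at e3
    have hY0 : Y ≤ (A * X0) ^ (1 / p) := by
      have e1 := Real.rpow_le_rpow (Real.rpow_nonneg hY' p)
        (t1.trans (mul_le_mul_of_nonneg_left hX0 hA0.le)) (one_div_nonneg.2 hp.le)
      rwa [← Real.rpow_mul hY', mul_one_div_cancel hp.ne', Real.rpow_one] at e1
    exact ⟨((le_div_iff₀ hc).2 (by rw [mul_comm]; exact hX0)).trans (le_max_left _ _),
      ((le_div_iff₀ hc).2 (by rw [mul_comm]; exact hY0)).trans (le_max_right _ _)⟩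
  obtain ⟨C1, h1⟩ := main L hL
  obtain ⟨C2, h2⟩ := main (2 * L) (by linarith)
  obtain ⟨D, hD0, hsrc⟩ := source_bound hn (2 * L) (by linarith)
  refine ⟨max C1 (D * C2 / (3 * L ^ 2) ^ 4), fun u v hs => ?_⟩
  obtain ⟨a1, a2⟩ := h1 u v hs
  obtain ⟨b1, -⟩ := h2 u v hs
  obtain ⟨huc, hvc, hu2, hv2, hup, hvp, heq⟩ := hs
  refine ⟨a1.trans (le_max_left _ _), a2.trans (le_max_left _ _), le_trans ?_ (le_max_right _ _)⟩
  have hvpc : Continuous fun x => v x ^ p := hvc.rpow_const fun x => Or.inl (hvp x).ne'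
  rw [le_div_iff₀ (by positivity), mul_comm, ← integral_const_mul,
    ← integral_indicator measurableSet_closedBall]
  refine le_trans ?_ ((hsrc u _ huc hvpc (fun x => (hup x).le) hu2 fun x hx => (heq x hx).1).trans
    (mul_le_mul_of_nonneg_left b1 hD0))
  refine integral_mono_of_nonneg (Eventually.of_forall fun x => indicator_nonneg
    (fun y _ => mul_nonneg (by positivity) (Real.rpow_nonneg (hvp y).le _)) x)
    ((hvpc.mul (contDiff_tb _ _).continuous).integrable_of_hasCompactSupport
      (hasCompactSupport_tb _ _).mul_left) (Eventually.of_forall fun x => ?_)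
  by_cases hx : x ∈ Metric.closedBall (0 : Euc n) L
  · rw [indicator_of_mem hx, mul_comm]
    refine mul_le_mul_of_nonneg_left ?_ (Real.rpow_nonneg (hvp x).le _)
    rw [mem_closedBall_zero_iff] at hx
    refine pow_le_pow_left₀ (by positivity) (le_max_of_le_left ?_) 4
    rw [sub_zero]; nlinarith [norm_nonneg x]
  · rw [indicator_of_notMem hx]
    exact mul_nonneg (Real.rpow_nonneg (hvp x).le _) (ppow_nonneg _ _)

end Vale.Agent.P100C
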