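import Vale.Agent.P100C.Main

/-!
The large exponent corner for `1 < q`: in dimension five, `p (q - 1) < 2`.

The differences to `q ≤ 1`: the source `u ^ q` of the second equation is estimated by interpolation
between the slice norm of `u` and the energy `∫ u ^ (q + 1)`, at the cost `(q - 1) / q`, and the
gradient of `u` is interpolated between its free and its energy dependent slice norms.
-/

open MeasureTheory Filter Topology Laplacian Set
open scoped ContDiff ENNReal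

noncomputable section

namespace Vale.Agent.P100C

open Vale.Agent.P100 Vale.Agent.P100T

namespace High

/-- The Lebesgue exponents used on slices. -/
structure Expo (m p q : ℝ) where
  k0 : ℝ
  k1 : ℝ
  a0 : ℝ
  a1 : ℝ
  a : ℝ
  a' : ℝ
  A : ℝ
  B : ℝ
  lam : ℝ
  k0_ge : 1 ≤ k0
  k1_ge : 1 ≤ k1
  a0_ge : 1 ≤ a0
  a1_ge : 1 ≤ a1
  a'_ge : 1 ≤ a'
  A_nonneg : 0 ≤ A
  B_nonneg : 0 ≤ B
  sum_eq : A + B = q + 1
  holder : A / k0 + B / k1 = 1
  lam_nonneg : 0 ≤ lam
  lam_le : lam ≤ 1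
  interp : (1 - lam) / a0 + lam / a1 = 1 / a
  conj : a.HolderConjugate a'
  k0_cond : 1 - 2 / m < 1 / k0
  k1_cond : p / (p + 1) - 2 / m < 1 / k1
  a0_cond : 1 - 1 / m < 1 / a0
  a1_cond : p / (p + 1) - 1 / m < 1 / a1
  a'_cond : 1 / (q * k0) + (q - 1) / q - 1 / m < 1 / a'
  B_cond : B * (p / (p + 1)) < 1
  lam_cond : lam * (p / (p + 1)) + (q - 1) / q < 1
  q_le : q ≤ 2

theorem exists_expo {p q : ℝ} (hq : 1 < q) (hqp : q ≤ p) (h : p * (q - 1) < 2) :
    Nonempty (Expo 4 p q) := by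
  have hp0 : 0 < p := by linarith
  have hp : 0 < p + 1 := by linarith
  have hq0 : 0 < q := by linarith
  have hq2 : q ≤ 2 := by nlinarith
  set l := p / (p + 1) with hl
  have hl12 : 1 / 2 < l := by rw [hl, div_lt_div_iff₀ two_pos hp]; linarith
  have hl1 : l < 1 := (div_lt_one hp).2 (by linarith)
  set lo := (p + 1) * (1 / 2 - 1 / (2 * q)) with hlo
  set hi := min 1 ((p + 1) / (p * q)) with hhi
  have hlo0 : 0 ≤ lo := by
    refine mul_nonneg hp.le ?_
    have : 1 / (2 * q) ≤ 1 / 2 := one_div_le_one_div_of_le two_pos (by linarith)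
    linarith
  have hlohi : lo < hi := by
    have e : lo = (p + 1) * (q - 1) / (2 * q) := by rw [hlo]; field_simp
    rw [e]
    refine lt_min ?_ ?_
    · rw [div_lt_one (by positivity)]
      nlinarith
    · rw [div_lt_div_iff₀ (by positivity) (by positivity)]
      nlinarith [mul_pos hp hq0]
  set lam := (lo + hi) / 2 with hlam
  have hlam0 : 0 ≤ lam := by linarith
  have hlam1 : lam ≤ 1 := by linarith [min_le_left (1 : ℝ) ((p + 1) / (p * q))]
  have hlam2 : lam < (p + 1) / (p * q) := by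
    linarith [min_le_right (1 : ℝ) ((p + 1) / (p * q))]
  set g := lam / (p + 1) - (1 / 2 - 1 / (2 * q)) with hg
  have hg0 : 0 < g := by
    rw [hg, sub_pos, lt_div_iff₀ hp]
    linarith
  set δ := 2 - p * (q - 1) with hδ
  have hδ0 : 0 < δ := by linarith
  set ε := min (1 / 8) (min (g / 3) (δ / (3 * p * (q + 1)))) with hε
  have he0 : 0 < ε := lt_min (by norm_num) (lt_min (by linarith) (by positivity))
  have he1 : ε ≤ 1 / 8 := min_le_left _ _
  have he2 : ε ≤ g / 3 := (min_le_right _ _).trans (min_le_left _ _)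
  have he3 : ε ≤ δ / (3 * p * (q + 1)) := (min_le_right _ _).trans (min_le_right _ _)
  set y0 := 1 / 2 + ε with hy0
  set y1 := l - 1 / 2 + ε with hy1
  set z0 := 3 / 4 + ε with hz0
  set z1 := l - 1 / 4 + ε with hz1
  set B := ((q + 1) * y0 - 1) * (p + 1) with hB
  set x := (1 - lam) * z0 + lam * z1 with hx
  have hBnn : 0 ≤ B := by
    refine mul_nonneg ?_ hp.le
    rw [hy0]
    nlinarith
  have hBl : B * l < 1 := by
    have e : B * l = p * (q - 1) / 2 + p * (q + 1) * ε := by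
      rw [hB, hy0, hl]; field_simp; ring
    have : p * (q + 1) * ε ≤ δ / 3 := by
      calc p * (q + 1) * ε ≤ p * (q + 1) * (δ / (3 * p * (q + 1))) :=
            mul_le_mul_of_nonneg_left he3 (by positivity)
        _ = δ / 3 := by field_simp
    linarith
  have hBq : B ≤ q + 1 := by
    have : B * (1 / 2) ≤ B * l := mul_le_mul_of_nonneg_left hl12.le hBnn
    linarith
  have hy0p : 0 < y0 := by linarith
  have hy1p : 0 < y1 := by linarith
  have hz0p : 0 < z0 := by linarith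
  have hz1p : 0 < z1 := by linarith
  have hxeq : x = z0 - lam / (p + 1) := by
    rw [hx, hz0, hz1, hl]; field_simp; ring
  have hxz : x ≤ z0 := by
    have : 0 ≤ lam / (p + 1) := by positivity
    linarith
  have hx0 : 0 < x := by
    rcases le_total lam (1 / 2) with hc | hc
    · have h1 := mul_pos (show 0 < 1 - lam by linarith) hz0p
      have h2 := mul_nonneg hlam0 hz1p.le
      linarith
    · have h1 := mul_nonneg (show 0 ≤ 1 - lam by linarith) hz0p.le
      have h2 := mul_pos (show 0 < lam by linarith) hz1p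
      linarith
  have hx1 : x < 1 := by linarith
  have h1x : 0 < 1 - x := by linarith
  refine ⟨{ k0 := 1 / y0, k1 := 1 / y1, a0 := 1 / z0, a1 := 1 / z1, a := 1 / x,
            a' := 1 / (1 - x), A := q + 1 - B, B := B, lam := lam
            k0_ge := by rw [le_div_iff₀ hy0p]; linarith
            k1_ge := by rw [le_div_iff₀ hy1p]; linarith
            a0_ge := by rw [le_div_iff₀ hz0p]; linarith
            a1_ge := by rw [le_div_iff₀ hz1p]; linarith
            a'_ge := by rw [le_div_iff₀ h1x]; linarith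
            A_nonneg := by linarith, B_nonneg := hBnn, sum_eq := by ring
            holder := by
              rw [div_div_eq_mul_div, div_div_eq_mul_div, div_one, div_one, hB, hy1, hy0, hl]
              field_simp
              ring
            lam_nonneg := hlam0, lam_le := hlam1
            interp := by rw [div_div_eq_mul_div, div_div_eq_mul_div, div_one, div_one, one_div_one_div]
            conj := by
              rw [Real.holderConjugate_iff]
              exact ⟨(one_lt_div hx0).2 hx1, by simp⟩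
            k0_cond := by rw [one_div_one_div]; linarith
            k1_cond := by rw [one_div_one_div, ← hl]; linarith
            a0_cond := by rw [one_div_one_div]; linarith
            a1_cond := by rw [one_div_one_div, ← hl]; linarith
            a'_cond := ?_
            B_cond := hBl
            lam_cond := ?_
            q_le := hq2 }⟩
  · rw [one_div_one_div]
    have e : 1 / (q * (1 / y0)) + (q - 1) / q = 1 - 1 / (2 * q) + ε / q := by
      rw [hy0]; field_simp; ring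
    have : ε / q ≤ ε := div_le_self he0.le hq.le
    linarith
  · have : lam * (p / (p + 1)) < 1 / q := by
      calc lam * (p / (p + 1)) < (p + 1) / (p * q) * (p / (p + 1)) :=
            mul_lt_mul_of_pos_right hlam2 (by positivity)
        _ = 1 / q := by field_simp
    have : 1 / q + (q - 1) / q = 1 := by field_simp; ring
    linarith

/-- Interpolation of the slice norm of `g ^ q`. -/
theorem sn_pow_le {m : ℕ} (i : Fin (m + 1)) {q k0 : ℝ} (hq : 1 ≤ q) (hk0 : 1 ≤ k0)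
    {g : Euc (m + 1) → ℝ≥0∞} (hg : Measurable g) :
    ∫⁻ t, sn i (1 / (1 / (q * k0) + (q - 1) / q)) (fun y => g y ^ q) t ≤
      (∫⁻ t, sn i k0 g t) ^ (1 / q) *
        (∫⁻ t, sn i 1 (fun y => g y ^ (q + 1)) t) ^ ((q - 1) / q) := by
  have hq0 : 0 < q := by linarith
  have hk : 0 < k0 := by linarith
  set β := (q - 1) / q with hβ
  have hβ0 : 0 ≤ β := div_nonneg (by linarith) hq0.le
  have hαp : 0 < 1 / (q * k0) := by positivity
  set c := 1 / (q * k0) + β with hc
  have hc0 : 0 < c := by linarith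
  refine le_trans (lintegral_mono fun t => ?_)
    (ENNReal.lintegral_mul_norm_pow_le (measurable_sn hg i k0).aemeasurable
      (measurable_sn (hg.pow_const _) i 1).aemeasurable (by positivity) hβ0
      (by rw [hβ]; field_simp; ring))
  have hgs := measurable_slice hg i t
  have h := ENNReal.lintegral_mul_norm_pow_le (μ := volume) (hgs.pow_const k0).aemeasurable
    (hgs.pow_const (q + 1)).aemeasurable (div_nonneg hαp.le hc0.le) (div_nonneg hβ0 hc0.le)
    (by rw [← add_div, div_self hc0.ne'])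
  have e : ∀ z, (g (ins i t z) ^ k0) ^ (1 / (q * k0) / c) * (g (ins i t z) ^ (q + 1)) ^ (β / c) =
      (g (ins i t z) ^ q) ^ (1 / c) := fun z => by
    rw [← ENNReal.rpow_mul, ← ENNReal.rpow_mul, ← ENNReal.rpow_mul,
      ← ENNReal.rpow_add_of_nonneg _ _ (by positivity) (by positivity)]
    congr 1
    rw [hc, hβ]
    field_simp
    ring
  simp only [e] at h
  simp only [← ENNReal.rpow_mul] at h
  simp only [sn, ENNReal.rpow_one, div_one, one_div_one_div, ← ENNReal.rpow_mul]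
  refine (ENNReal.rpow_le_rpow h hc0.le).trans (le_of_eq ?_)
  rw [ENNReal.mul_rpow_of_nonneg _ _ hc0.le, ← ENNReal.rpow_mul, ← ENNReal.rpow_mul]
  congr 2
  · field_simp
  · field_simp

section Norms

/-- The five families of slice norms. -/
theorem slice_norms {m : ℕ} (hm : 4 ≤ m) {p q : ℝ} (hp : 0 < p) (hq : 1 < q)
    (hpq : 1 < p * q) (E : Expo m p q) :
    ∃ C : ℝ≥0∞, C ≠ ⊤ ∧ ∀ u v : Euc (m + 1) → ℝ, IsPositiveEntireSolution p q u v →
      ∀ ρ δ : ℝ, 1 ≤ ρ → 0 < δ → δ ≤ 1 / 16 → ρ + 8 * δ ≤ 2 → ∀ i,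
        let Φ := ∫⁻ y, cut (shell (ρ - 4 * δ) (ρ + 8 * δ)) (fun y => v y ^ (p + 1)) y
        let Ψ := ∫⁻ y, cut (shell (ρ - 4 * δ) (ρ + 8 * δ)) (fun y => u y ^ (q + 1)) y
        let I := Set.Icc (-(4 * (m + 1 : ℝ))) (4 * (m + 1 : ℝ))
        let c := ENNReal.ofReal ((δ ^ (m + 3))⁻¹)
        (∫⁻ r in I, sn i E.k0 (cut (shell ρ (ρ + 4 * δ)) (ext u)) r) ≤ C * c ∧
        (∫⁻ r in I, sn i E.k1 (cut (shell ρ (ρ + 4 * δ)) (ext u)) r) ≤ C * (c + Φ ^ (p / (p + 1))) ∧
        (∫⁻ r in I, sn i E.a0 (cut (shell ρ (ρ + 4 * δ)) (jet (ext u))) r) ≤ C * c ∧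
        (∫⁻ r in I, sn i E.a1 (cut (shell ρ (ρ + 4 * δ)) (jet (ext u))) r) ≤ C * (c + Φ ^ (p / (p + 1))) ∧
        (∫⁻ r in I, sn i E.a' (cut (shell ρ (ρ + 4 * δ)) (jet (ext v))) r)
          ≤ C * (c * (1 + Ψ ^ ((q - 1) / q))) := by
  have hq0 : 0 < q := by linarith
  have hn3 : 3 ≤ m + 1 := by omega
  set D : ℝ := 4 * (m + 1 : ℝ) with hD
  have hDcast : (4 * ((m + 1 : ℕ) : ℝ)) = D := by push_cast; ring
  obtain ⟨L, hL⟩ := apriori hn3 hp hq0 hpq D (by positivity)
  obtain ⟨Cp, hCp0, hpot⟩ := shell_potential m (by omega)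
  set l : ℝ := (p + 1) / p with hl
  have hl1 : 1 ≤ l := by rw [le_div_iff₀ hp]; linarith
  have hinv : 1 / l = p / (p + 1) := one_div_div _ _
  set β := (q - 1) / q with hβ
  have hβ0 : 0 ≤ β := div_nonneg (by linarith) hq0.le
  have hk00 : 0 < E.k0 := by linarith [E.k0_ge]
  set cq := 1 / (q * E.k0) + β with hcq
  have hcq0 : 0 < cq := by positivity
  have hl3 : 1 ≤ 1 / cq := by
    rw [le_div_iff₀ hcq0, one_mul]
    have h1 : 1 / (q * E.k0) ≤ 1 / q :=
      one_div_le_one_div_of_le hq0 (le_mul_of_one_le_right hq0.le E.k0_ge)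
    have : 1 / q + β = 1 := by rw [hβ]; field_simp; ring
    linarith
  have hm' : (4 : ℝ) ≤ m := by exact_mod_cast hm
  have hm0 : (0 : ℝ) < m := by linarith
  have cond1 : ∀ {k l : ℝ}, 1 / l - 2 / m < 1 / k →
      (m : ℝ) - 1 < 1 + m * (1 + 1 / k - 1 / l) := fun {k l} h => by
    have h2 := mul_lt_mul_of_pos_left h hm0
    rw [mul_sub, mul_div_cancel₀ _ hm0.ne'] at h2
    linarith
  have cond2 : ∀ {k l : ℝ}, 1 / l - 1 / m < 1 / k →
      (m : ℝ) < 1 + m * (1 + 1 / k - 1 / l) := fun {k l} h => by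
    have h2 := mul_lt_mul_of_pos_left h hm0
    rw [mul_sub, mul_one_div_cancel hm0.ne'] at h2
    linarith
  obtain ⟨B0, hB0, nb0⟩ := norm_bound (m := m) (by omega) E.k0_ge le_rfl (by linarith)
    (cond1 (l := 1) (by linarith [E.k0_cond, (one_div_one : (1:ℝ) / 1 = 1)])) (by linarith) D
  obtain ⟨B1, hB1, nb1⟩ := norm_bound (m := m) (by omega) E.k1_ge hl1 (by linarith)
    (cond1 (by rw [hinv]; exact E.k1_cond)) (by linarith) D
  obtain ⟨B2, hB2, nb2⟩ := norm_bound (m := m) (by omega) E.a0_ge le_rfl hm0.le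
    (cond2 (l := 1) (by linarith [E.a0_cond, (one_div_one : (1:ℝ) / 1 = 1)])) (by linarith) D
  obtain ⟨B3, hB3, nb3⟩ := norm_bound (m := m) (by omega) E.a1_ge hl1 hm0.le
    (cond2 (by rw [hinv]; exact E.a1_cond)) (by linarith) D
  obtain ⟨B4, hB4, nb4⟩ := norm_bound (m := m) (by omega) E.a'_ge hl3 hm0.le
    (cond2 (by rw [one_div_one_div]; exact E.a'_cond)) (by linarith) D
  obtain ⟨H1, hH1, hold1⟩ := sn_holder_bound (m := m) (l := (1 : ℝ)) le_rfl D
  obtain ⟨Hl, hHl, holdl⟩ := sn_holder_bound (m := m) (l := l) hl1 D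
  set Lp := max L 0
  set A := ENNReal.ofReal (Cp * Lp) with hA
  set Cq := ENNReal.ofReal Cp
  set Lv := ENNReal.ofReal Lp
  -- the constants
  set K0 := B0 * (A + Cq * H1 * Lv) with hK0
  set K1 := B1 * (A + Cq * Hl) with hK1
  set K2 := B2 * (A + Cq * H1 * Lv) with hK2
  set K3 := B3 * (A + Cq * Hl) with hK3
  set K4 := B4 * (A + Cq * (K0 ^ (1 / q) * H1 ^ β)) with hK4
  have hAt : A ≠ ⊤ := ENNReal.ofReal_ne_top
  have hCqt : Cq ≠ ⊤ := ENNReal.ofReal_ne_top
  have hK0t : K0 ≠ ⊤ := ENNReal.mul_ne_top hB0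
    (ENNReal.add_ne_top.2 ⟨hAt, ENNReal.mul_ne_top (ENNReal.mul_ne_top hCqt hH1) ENNReal.ofReal_ne_top⟩)
  have hK1t : K1 ≠ ⊤ := ENNReal.mul_ne_top hB1
    (ENNReal.add_ne_top.2 ⟨hAt, ENNReal.mul_ne_top hCqt hHl⟩)
  have hK2t : K2 ≠ ⊤ := ENNReal.mul_ne_top hB2
    (ENNReal.add_ne_top.2 ⟨hAt, ENNReal.mul_ne_top (ENNReal.mul_ne_top hCqt hH1) ENNReal.ofReal_ne_top⟩)
  have hK3t : K3 ≠ ⊤ := ENNReal.mul_ne_top hB3
    (ENNReal.add_ne_top.2 ⟨hAt, ENNReal.mul_ne_top hCqt hHl⟩)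
  have hK4t : K4 ≠ ⊤ := ENNReal.mul_ne_top hB4
    (ENNReal.add_ne_top.2 ⟨hAt, ENNReal.mul_ne_top hCqt
      (ENNReal.mul_ne_top (ENNReal.rpow_ne_top_of_nonneg (by positivity) hK0t)
        (ENNReal.rpow_ne_top_of_nonneg hβ0 hH1))⟩)
  refine ⟨K0 + K1 + K2 + K3 + K4, by simp [hK0t, hK1t, hK2t, hK3t, hK4t],
    fun u v hs ρ δ hρ hδ hδ1 hρδ i => ?_⟩
  obtain ⟨hLu, hLv, hLvp⟩ := hL u v hs
  obtain ⟨huc, hvc, hu2, hv2, hup, hvp, heq⟩ := hs
  intro Φ Ψ I c
  have hU := contDiff_ext hu2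
  have hV' := contDiff_ext hv2
  have hUp : ∀ x, 0 ≤ ext u x := fun x => (ext_pos hup x).le
  have hVp : ∀ x, 0 ≤ ext v x := fun x => (ext_pos hvp x).le
  have hc1 : (1 : ℝ≥0∞) ≤ c := by
    rw [← ENNReal.ofReal_one]
    exact ENNReal.ofReal_le_ofReal ((one_le_inv₀ (by positivity)).2 (pow_le_one₀ hδ.le (by linarith)))
  set S0 := shell (n := m + 1) ρ (ρ + 4 * δ) with hS0
  set S1 := shell (n := m + 1) (ρ - 2 * δ) (ρ + 6 * δ) with hS1
  set S2 := shell (n := m + 1) (ρ - 4 * δ) (ρ + 8 * δ) with hS2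
  have hn : ∀ a b : ℝ, 3 / 4 ≤ a → ∀ y ∈ shell (n := m + 1) a b, 1 / 4 < ‖y‖ := fun a b ha y hy => by
    linarith [shell_le_norm hy]
  have hlap : ∀ y ∈ S2, Δ (ext u) y = -(v y ^ p) ∧ Δ (ext v) y = -(u y ^ q) := fun y hy => by
    have h4 := hn _ _ (by linarith) y hy
    have hy0 : y ≠ 0 := by rintro rfl; simp at h4; linarith
    rw [laplacian_ext h4, laplacian_ext h4]
    obtain ⟨e1, e2⟩ := heq y hy0
    constructor <;> linarith
  have hmass : ∀ (f : Euc (m + 1) → ℝ), Continuous f → (∀ x, 0 ≤ f x) → ∀ a b : ℝ, b ≤ 4 → 0 ≤ b →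
      (∫ x in shell a b, f x) ≤ ∫ x in Metric.closedBall (0 : Euc (m + 1)) D, f x := by
    intro f hf hf0 a b hb hb0
    refine setIntegral_mono_set (hf.continuousOn.integrableOn_compact (isCompact_closedBall _ _))
      (Eventually.of_forall hf0) (Eventually.of_forall fun x hx => ?_)
    show x ∈ Metric.closedBall (0 : Euc (m + 1)) D
    rw [mem_closedBall_zero_iff, ← hDcast]
    exact cube_norm_le hb0 hb (hx : x ∈ shell a b).1
  have hmU : ∀ a b : ℝ, 3 / 4 ≤ a → b ≤ 4 → 0 ≤ b → (∫ x in shell a b, ext u x) ≤ Lp := by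
    intro a b ha hb hb0
    rw [setIntegral_congr_fun (measurableSet_shell a b) fun y hy => ext_eq (hn a b ha y hy)]
    exact ((hmass u huc (fun x => (hup x).le) a b hb hb0).trans hLu).trans (le_max_left _ _)
  have hmV : ∀ a b : ℝ, 3 / 4 ≤ a → b ≤ 4 → 0 ≤ b → (∫ x in shell a b, ext v x) ≤ Lp := by
    intro a b ha hb hb0
    rw [setIntegral_congr_fun (measurableSet_shell a b) fun y hy => ext_eq (hn a b ha y hy)]
    exact ((hmass v hvc (fun x => (hvp x).le) a b hb hb0).trans hLv).trans (le_max_left _ _)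
  -- sources
  have hvpc : Continuous fun y => v y ^ p := hvc.rpow_const fun x => Or.inl (hvp x).ne'
  have huqc : Continuous fun y => u y ^ q := huc.rpow_const fun x => Or.inl (hup x).ne'
  set gP := cut S2 fun y => v y ^ p with hgP
  set gQ := cut S1 fun y => u y ^ q with hgQ
  set gU := cut S1 (ext u) with hgU
  have hgPm : Measurable gP := measurable_cut (measurableSet_shell _ _) hvpc.measurable
  have hgQm : Measurable gQ := measurable_cut (measurableSet_shell _ _) huqc.measurable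
  have hgUm : Measurable gU := measurable_cut (measurableSet_shell _ _) hU.continuous.measurable
  have hgPs : ∀ y, gP y ≠ 0 → ‖y‖ ≤ D := fun y hy =>
    hDcast ▸ cut_support (by linarith) (by linarith) _ y hy
  have hgQs : ∀ y, gQ y ≠ 0 → ‖y‖ ≤ D := fun y hy =>
    hDcast ▸ cut_support (by linarith) (by linarith) _ y hy
  have hgUs : ∀ y, gU y ≠ 0 → ‖y‖ ≤ D := fun y hy =>
    hDcast ▸ cut_support (by linarith) (by linarith) _ y hy
  have hB : ∀ a b : ℝ, 0 ≤ b → b ≤ 4 → shell a b ⊆ Metric.closedBall (0 : Euc (m + 1)) D :=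
    fun a b hb0 hb x hx => by simpa [← hDcast] using cube_norm_le hb0 hb hx.1
  have hcA : ENNReal.ofReal (Cp * Lp * (δ ^ (m + 3))⁻¹) = A * c := by
    rw [ENNReal.ofReal_mul (by positivity)]
  -- pointwise domination on the enlarged shell
  have dU : ∀ x ∈ S1, ENNReal.ofReal (ext u x) ≤ A * c + Cq * pot ((m : ℝ) - 1) gP x ∧
      ENNReal.ofReal (jet (ext u) x) ≤ A * c + Cq * pot (m : ℝ) gP x := by
    intro x hx
    have h := hpot (ext u) (fun y => v y ^ p) hU hUp (ρ - 2 * δ) (ρ + 6 * δ) δ hδ (by linarith)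
      (by linarith) (by linarith) (by linarith)
      (fun y hy => by
        have hy' : y ∈ S2 := shell_mono (by linarith) (by linarith) hy
        rw [(hlap y hy').1, abs_neg, abs_of_pos (Real.rpow_pos_of_pos (hvp y) _)])
      Lp (hmU _ _ (by linarith) (by linarith) (by linarith)) x hx
    rw [show ρ - 2 * δ - 2 * δ = ρ - 4 * δ by ring, show ρ + 6 * δ + 2 * δ = ρ + 8 * δ by ring,
      hcA] at h
    exact h
  have dV : ∀ x ∈ S0, ENNReal.ofReal (jet (ext v) x) ≤ A * c + Cq * pot (m : ℝ) gQ x := by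
    intro x hx
    have h := (hpot (ext v) (fun y => u y ^ q) hV' hVp ρ (ρ + 4 * δ) δ hδ (by linarith)
      (by linarith) (by linarith) (by linarith)
      (fun y hy => by
        have hy' : y ∈ S2 := shell_mono (by linarith) (by linarith) hy
        rw [(hlap y hy').2, abs_neg, abs_of_pos (Real.rpow_pos_of_pos (hup y) _)])
      Lp (hmV _ _ (by linarith) (by linarith) (by linarith)) x hx).2
    rw [show ρ + 4 * δ + 2 * δ = ρ + 6 * δ by ring, hcA] at h
    exact h
  have hS01 : S0 ⊆ S1 := shell_mono (by linarith) (by linarith)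
  have dom : ∀ (S : Set (Euc (m + 1))) (F : Euc (m + 1) → ℝ) (P : Euc (m + 1) → ℝ≥0∞),
      S ⊆ Metric.closedBall 0 D → (∀ x ∈ S, ENNReal.ofReal (F x) ≤ P x) →
      ∀ x, cut S F x ≤ (Metric.closedBall (0 : Euc (m + 1)) D).indicator P x := by
    intro S F P hS h x
    by_cases hx : x ∈ S
    · rw [cut, indicator_of_mem hx, indicator_of_mem (hS hx)]; exact h x hx
    · simp [cut, indicator_of_notMem hx]
  -- integrals of the sources
  have hP1 : ∫⁻ t, sn i 1 gP t ≤ H1 * Lv := by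
    refine (hold1 gP hgPm hgPs i).trans ?_
    gcongr
    simp only [ENNReal.rpow_one, div_one, hgP, cut]
    rw [lintegral_indicator (measurableSet_shell _ _),
      ← ofReal_integral_eq_lintegral_ofReal
        (hvpc.continuousOn.integrableOn_compact (isCompact_shell _ _))
        (Eventually.of_forall fun y => (Real.rpow_pos_of_pos (hvp y) _).le)]
    exact ENNReal.ofReal_le_ofReal (((hmass _ hvpc (fun x => (Real.rpow_pos_of_pos (hvp x) _).le)
      _ _ (by linarith) (by linarith)).trans hLvp).trans (le_max_left _ _))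
  have hPl : ∫⁻ t, sn i l gP t ≤ Hl * Φ ^ (p / (p + 1)) := by
    refine (holdl gP hgPm hgPs i).trans (le_of_eq ?_)
    rw [hinv]
    congr 2
    refine lintegral_congr fun y => ?_
    by_cases hy : y ∈ S2
    · simp only [hgP, cut, indicator_of_mem hy]
      rw [ENNReal.ofReal_rpow_of_nonneg (Real.rpow_pos_of_pos (hvp y) _).le (by linarith),
        ← Real.rpow_mul (hvp y).le, hl, mul_div_cancel₀ _ hp.ne']
      exact (indicator_of_mem (show y ∈ shell (ρ - 4 * δ) (ρ + 8 * δ) from hy)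
        (fun y => ENNReal.ofReal (v y ^ (p + 1)))).symm
    · simp only [hgP, hS2, cut] at hy ⊢
      simp [indicator_of_notMem hy, show (0:ℝ) < l by linarith]
  have hlow : ∀ (k : ℝ≥0∞) (x : ℝ≥0∞), x ≤ H1 * Lv →
      k * (A * c + Cq * x) ≤ k * (A + Cq * H1 * Lv) * c := by
    intro k x hx
    rw [mul_assoc]
    gcongr
    rw [add_mul]
    refine add_le_add le_rfl ?_
    refine (mul_le_mul' le_rfl hx).trans ?_
    rw [mul_assoc Cq, mul_assoc Cq]
    exact mul_le_mul' le_rfl (le_mul_of_one_le_right' hc1)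
  have hsum : ∀ B : ℝ≥0∞, ∀ x : ℝ≥0∞, x ≤ Φ ^ (p / (p + 1)) * Hl →
      B * (A * c + Cq * x) ≤ B * (A + Cq * Hl) * (c + Φ ^ (p / (p + 1))) := by
    intro B x hx
    rw [mul_assoc]
    gcongr
    calc A * c + Cq * x ≤ A * c + Cq * Hl * Φ ^ (p / (p + 1)) := by
          refine add_le_add le_rfl ?_
          rw [mul_assoc, mul_comm Hl]
          exact mul_le_mul' le_rfl hx
      _ ≤ (A + Cq * Hl) * c + (A + Cq * Hl) * Φ ^ (p / (p + 1)) :=
          add_le_add (mul_le_mul_left le_self_add _) (mul_le_mul_left le_add_self _)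
      _ = _ := by ring
  -- the slice norms of `u`
  have nU0 : ∀ S, S ⊆ S1 → ∫⁻ r in I, sn i E.k0 (cut S (ext u)) r ≤ K0 * c := by
    intro S hS
    exact (nb0 (cut S (ext u)) gP (A * c) Cq hgPm hgPs hCqt
      (dom S _ _ (hS.trans (hB _ _ (by linarith) (by linarith))) fun x hx => (dU x (hS hx)).1) i).trans
      (hlow B0 _ hP1)
  have nU1 : ∫⁻ r in I, sn i E.k1 (cut S0 (ext u)) r ≤ K1 * (c + Φ ^ (p / (p + 1))) :=
    (nb1 (cut S0 (ext u)) gP (A * c) Cq hgPm hgPs hCqt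
      (dom S0 _ _ (hB _ _ (by linarith) (by linarith)) fun x hx => (dU x (hS01 hx)).1) i).trans
      (hsum B1 _ (hPl.trans (le_of_eq (mul_comm _ _))))
  have nU2 : ∫⁻ r in I, sn i E.a0 (cut S0 (jet (ext u))) r ≤ K2 * c :=
    (nb2 (cut S0 (jet (ext u))) gP (A * c) Cq hgPm hgPs hCqt
      (dom S0 _ _ (hB _ _ (by linarith) (by linarith)) fun x hx => (dU x (hS01 hx)).2) i).trans
      (hlow B2 _ hP1)
  have nU3 : ∫⁻ r in I, sn i E.a1 (cut S0 (jet (ext u))) r ≤ K3 * (c + Φ ^ (p / (p + 1))) :=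
    (nb3 (cut S0 (jet (ext u))) gP (A * c) Cq hgPm hgPs hCqt
      (dom S0 _ _ (hB _ _ (by linarith) (by linarith)) fun x hx => (dU x (hS01 hx)).2) i).trans
      (hsum B3 _ (hPl.trans (le_of_eq (mul_comm _ _))))
  -- the source of `v`
  have hQeq : gQ = fun y => gU y ^ q := by
    funext y
    by_cases hy : y ∈ S1
    · simp only [hgQ, hgU, cut, indicator_of_mem hy, ext_eq (hn _ _ (by linarith) _ hy)]
      rw [ENNReal.ofReal_rpow_of_nonneg (hup _).le hq0.le]
    · simp [hgQ, hgU, cut, indicator_of_notMem hy, hq0]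
  have hU0 : ∫⁻ t, sn i E.k0 gU t ≤ K0 * c := by
    have hout : ∀ t, t ∉ I → sn i E.k0 gU t = 0 := by
      intro t ht
      have hz : ∀ z, gU (ins i t z) = 0 := fun z => by
        by_contra hne
        apply ht
        have h1 := hgUs _ hne
        have h2 := abs_apply_le_norm (ins i t z) i
        rw [ins_same] at h2
        exact abs_le.1 (by linarith)
      simp [sn, hz, hk00]
    refine le_of_eq_of_le ?_ (nU0 S1 subset_rfl)
    exact (setLIntegral_eq_of_support_subset fun t ht => by_contra fun h => ht (hout t h)).symm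
  have hE : ∫⁻ t, sn i 1 (fun y => gU y ^ (q + 1)) t ≤ H1 * Ψ := by
    have hsup : ∀ y, gU y ^ (q + 1) ≠ 0 → ‖y‖ ≤ D := fun y hy =>
      hgUs y fun h => hy (by rw [h, ENNReal.zero_rpow_of_pos (by linarith)])
    refine (hold1 _ (hgUm.pow_const _) hsup i).trans ?_
    simp only [ENNReal.rpow_one, div_one]
    gcongr
    refine lintegral_mono fun y => ?_
    by_cases hy : y ∈ S1
    · have hy2 : y ∈ shell (ρ - 4 * δ) (ρ + 8 * δ) := shell_mono (by linarith) (by linarith) hy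
      simp only [hgU, cut, indicator_of_mem hy, indicator_of_mem hy2,
        ext_eq (hn _ _ (by linarith) _ hy)]
      rw [ENNReal.ofReal_rpow_of_nonneg (hup _).le (by linarith)]
    · simp [hgU, cut, indicator_of_notMem hy, show 0 < q + 1 by linarith]
  have hQ : ∫⁻ t, sn i (1 / cq) gQ t ≤ K0 ^ (1 / q) * H1 ^ β * (c * Ψ ^ β) := by
    rw [hQeq]
    refine (sn_pow_le i hq.le E.k0_ge hgUm).trans ?_
    refine (mul_le_mul' (ENNReal.rpow_le_rpow hU0 (by positivity)) (ENNReal.rpow_le_rpow hE hβ0)).trans ?_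
    rw [ENNReal.mul_rpow_of_nonneg _ _ (by positivity), ENNReal.mul_rpow_of_nonneg _ _ hβ0]
    calc K0 ^ (1 / q) * c ^ (1 / q) * (H1 ^ β * Ψ ^ β)
        ≤ K0 ^ (1 / q) * c * (H1 ^ β * Ψ ^ β) := by
          gcongr
          exact (ENNReal.rpow_le_rpow_of_exponent_le hc1
            ((div_le_one hq0).2 hq.le)).trans_eq (ENNReal.rpow_one _)
      _ = _ := by ring
  have nV : ∫⁻ r in I, sn i E.a' (cut S0 (jet (ext v))) r ≤ K4 * (c * (1 + Ψ ^ β)) := by
    refine (nb4 (cut S0 (jet (ext v))) gQ (A * c) Cq hgQm hgQs hCqt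
      (dom S0 _ _ (hB _ _ (by linarith) (by linarith)) fun x hx => dV x hx) i).trans ?_
    rw [hK4, mul_assoc]
    gcongr
    calc A * c + Cq * ∫⁻ t, sn i (1 / cq) gQ t
        ≤ A * c + Cq * (K0 ^ (1 / q) * H1 ^ β * (c * Ψ ^ β)) := by gcongr
      _ ≤ (A * c + Cq * (K0 ^ (1 / q) * H1 ^ β) * (c * Ψ ^ β)) +
            (A * (c * Ψ ^ β) + Cq * (K0 ^ (1 / q) * H1 ^ β) * c) := by
          rw [← mul_assoc Cq]
          exact le_self_add
      _ = _ := by ring
  set K := K0 + K1 + K2 + K3 + K4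
  have k0 : K0 ≤ K := le_self_add.trans (le_self_add.trans (le_self_add.trans le_self_add))
  have k1 : K1 ≤ K := le_add_self.trans (le_self_add.trans (le_self_add.trans le_self_add))
  have k2 : K2 ≤ K := le_add_self.trans (le_self_add.trans le_self_add)
  have k3 : K3 ≤ K := le_add_self.trans le_self_add
  have k4 : K4 ≤ K := le_add_self
  exact ⟨(nU0 S0 hS01).trans (mul_le_mul' k0 le_rfl), nU1.trans (mul_le_mul' k1 le_rfl),
    nU2.trans (mul_le_mul' k2 le_rfl), nU3.trans (mul_le_mul' k3 le_rfl),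
    nV.trans (mul_le_mul' k4 le_rfl)⟩

end Norms

section Slices

variable {m : ℕ}

/-- The energy on one slice. -/
lemma slice_energy {p q : ℝ} (hq : 0 < q) (E : Expo m p q) {K : ℝ} (hK : 0 ≤ K)
    (i : Fin (m + 1)) {ρ r S P P2 Mb : ℝ} {U J1 J2 : Euc (m + 1) → ℝ}
    (hUc : Continuous U) (h1c : Continuous J1) (h2c : Continuous J2)
    (hU : ∀ x, 0 ≤ U x) (h1 : ∀ x, 0 ≤ J1 x) (h2 : ∀ x, 0 ≤ J2 x) (hS : 0 ≤ S) (hP : 1 ≤ P)
    (hP2 : 0 ≤ P2) (hM1 : P ^ E.B ≤ Mb) (hM2 : P ^ E.lam * P2 ≤ Mb)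
    (b0 : slN i E.k0 ρ U r ≤ S) (b1 : slN i E.k1 ρ U r ≤ P * S)
    (c0 : slN i E.a0 ρ J1 r ≤ S) (c1 : slN i E.a1 ρ J1 r ≤ P * S)
    (b3 : slN i E.a' ρ J2 r ≤ P2 * S) :
    ∫ z in (cube ρ : Set (Euc m)),
        ((1 + K) * U (ins i r z) ^ (q + 1) + J1 (ins i r z) * J2 (ins i r z))
      ≤ (2 + K) * Mb * (1 + S) ^ 3 := by
  set s : Set (Euc m) := cube ρ
  have hs : IsCompact s := isCompact_cube ρ
  set g := fun z => U (ins i r z)
  set g1 := fun z => J1 (ins i r z)
  set g2 := fun z => J2 (ins i r z)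
  have hgc : Continuous g := continuous_slice i hUc r
  have hg1c : Continuous g1 := continuous_slice i h1c r
  have hg2c : Continuous g2 := continuous_slice i h2c r
  have hk0 : (0 : ℝ) < E.k0 := by linarith [E.k0_ge]
  have hk1 : (0 : ℝ) < E.k1 := by linarith [E.k1_ge]
  have ha0 : (0 : ℝ) < E.a0 := by linarith [E.a0_ge]
  have ha1 : (0 : ℝ) < E.a1 := by linarith [E.a1_ge]
  have ha : (0 : ℝ) < E.a := E.conj.pos
  have ha' : (0 : ℝ) < E.a' := by linarith [E.a'_ge]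
  have hA := E.A_nonneg
  have hB := E.B_nonneg
  have hl0 := E.lam_nonneg
  have hl1 := sub_nonneg.2 E.lam_le
  have hP0 : 0 ≤ P := by linarith
  have hMb : 0 ≤ Mb := (Real.rpow_nonneg hP0 _).trans hM1
  have h1S : (1 : ℝ) ≤ 1 + S := by linarith
  have cu : Continuous fun z => g z ^ (q + 1) := hgc.rpow_const fun _ => Or.inr (by linarith)
  have hu : ∫ z in s, g z ^ (q + 1) ≤ Mb * (1 + S) ^ 3 := by
    have e := integral_rpow_mul_rpow_le (F := fun z => g z ^ E.k0) (G := fun z => g z ^ E.k1)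
      (hgc.rpow_const fun _ => Or.inr hk0.le) (hgc.rpow_const fun _ => Or.inr hk1.le)
      (fun z => Real.rpow_nonneg (hU _) _) (fun z => Real.rpow_nonneg (hU _) _) hs
      (div_nonneg hA hk0.le) (div_nonneg hB hk1.le) E.holder
    have e' : ∀ z, (g z ^ E.k0) ^ (E.A / E.k0) * (g z ^ E.k1) ^ (E.B / E.k1) = g z ^ (q + 1) := by
      intro z
      rw [← Real.rpow_mul (hU _), ← Real.rpow_mul (hU _), mul_div_cancel₀ _ hk0.ne',
        mul_div_cancel₀ _ hk1.ne', ← Real.rpow_add_of_nonneg (hU _) hA hB, E.sum_eq]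
    simp only [e'] at e
    have n0 : (∫ z in s, g z ^ E.k0) ^ (E.A / E.k0) = slN i E.k0 ρ U r ^ E.A := by
      rw [slN, ← Real.rpow_mul (integral_nonneg fun _ => Real.rpow_nonneg (hU _) _), one_div_mul_eq_div]
    have n1 : (∫ z in s, g z ^ E.k1) ^ (E.B / E.k1) = slN i E.k1 ρ U r ^ E.B := by
      rw [slN, ← Real.rpow_mul (integral_nonneg fun _ => Real.rpow_nonneg (hU _) _), one_div_mul_eq_div]
    rw [n0, n1] at e
    refine e.trans ?_
    calc slN i E.k0 ρ U r ^ E.A * slN i E.k1 ρ U r ^ E.B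
        ≤ (1 + S) ^ E.A * (P * (1 + S)) ^ E.B := by
          refine mul_le_mul (Real.rpow_le_rpow (slN_nonneg _ _ _ hU _) (by linarith) hA)
            (Real.rpow_le_rpow (slN_nonneg _ _ _ hU _) ?_ hB)
            (Real.rpow_nonneg (slN_nonneg _ _ _ hU _) _) (Real.rpow_nonneg (by linarith) _)
          exact b1.trans (mul_le_mul_of_nonneg_left (by linarith) hP0)
      _ = P ^ E.B * (1 + S) ^ (q + 1) := by
          rw [Real.mul_rpow hP0 (by linarith), ← E.sum_eq,
            Real.rpow_add (show 0 < 1 + S by linarith)]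
          ring
      _ ≤ Mb * (1 + S) ^ ((3 : ℕ) : ℝ) :=
          mul_le_mul hM1 (Real.rpow_le_rpow_of_exponent_le h1S (by push_cast; linarith [E.q_le]))
            (Real.rpow_nonneg (by linarith) _) hMb
      _ = _ := by rw [Real.rpow_natCast]
  -- interpolation of the gradient of the first component
  have hi : (∫ z in s, g1 z ^ E.a) ^ (1 / E.a) ≤ P ^ E.lam * (1 + S) := by
    have hα : 0 ≤ (1 - E.lam) * E.a / E.a0 := div_nonneg (mul_nonneg hl1 ha.le) ha0.le
    have hβ : 0 ≤ E.lam * E.a / E.a1 := div_nonneg (mul_nonneg hl0 ha.le) ha1.le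
    have e := integral_rpow_mul_rpow_le (F := fun z => g1 z ^ E.a0) (G := fun z => g1 z ^ E.a1)
      (hg1c.rpow_const fun _ => Or.inr ha0.le) (hg1c.rpow_const fun _ => Or.inr ha1.le)
      (fun z => Real.rpow_nonneg (h1 _) _) (fun z => Real.rpow_nonneg (h1 _) _) hs hα hβ
      (by
        calc (1 - E.lam) * E.a / E.a0 + E.lam * E.a / E.a1
            = E.a * ((1 - E.lam) / E.a0 + E.lam / E.a1) := by ring
          _ = 1 := by rw [E.interp, mul_one_div_cancel ha.ne'])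
    have e' : ∀ z, (g1 z ^ E.a0) ^ ((1 - E.lam) * E.a / E.a0) *
        (g1 z ^ E.a1) ^ (E.lam * E.a / E.a1) = g1 z ^ E.a := by
      intro z
      rw [← Real.rpow_mul (h1 _), ← Real.rpow_mul (h1 _), mul_div_cancel₀ _ ha0.ne',
        mul_div_cancel₀ _ ha1.ne', ← Real.rpow_add_of_nonneg (h1 _) (mul_nonneg hl1 ha.le)
          (mul_nonneg hl0 ha.le)]
      congr 1; ring
    simp only [e'] at e
    have i0 : 0 ≤ ∫ z in s, g1 z ^ E.a0 := integral_nonneg fun _ => Real.rpow_nonneg (h1 _) _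
    have i1 : 0 ≤ ∫ z in s, g1 z ^ E.a1 := integral_nonneg fun _ => Real.rpow_nonneg (h1 _) _
    refine (Real.rpow_le_rpow (integral_nonneg fun _ => Real.rpow_nonneg (h1 _) _) e
      (by positivity)).trans ?_
    rw [Real.mul_rpow (Real.rpow_nonneg i0 _) (Real.rpow_nonneg i1 _), ← Real.rpow_mul i0,
      ← Real.rpow_mul i1,
      show (1 - E.lam) * E.a / E.a0 * (1 / E.a) = 1 / E.a0 * (1 - E.lam) by field_simp,
      show E.lam * E.a / E.a1 * (1 / E.a) = 1 / E.a1 * E.lam by field_simp,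
      Real.rpow_mul i0, Real.rpow_mul i1]
    calc slN i E.a0 ρ J1 r ^ (1 - E.lam) * slN i E.a1 ρ J1 r ^ E.lam
        ≤ (1 + S) ^ (1 - E.lam) * (P * (1 + S)) ^ E.lam := by
          refine mul_le_mul (Real.rpow_le_rpow (slN_nonneg _ _ _ h1 _) (by linarith) hl1)
            (Real.rpow_le_rpow (slN_nonneg _ _ _ h1 _) ?_ hl0)
            (Real.rpow_nonneg (slN_nonneg _ _ _ h1 _) _) (Real.rpow_nonneg (by linarith) _)
          exact c1.trans (mul_le_mul_of_nonneg_left (by linarith) hP0)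
      _ = P ^ E.lam * ((1 + S) ^ (1 - E.lam) * (1 + S) ^ E.lam) := by
          rw [Real.mul_rpow hP0 (by linarith)]; ring
      _ = _ := by
          rw [← Real.rpow_add (show 0 < 1 + S by linarith), sub_add_cancel, Real.rpow_one]
  have hj : ∫ z in s, g1 z * g2 z ≤ Mb * (1 + S) ^ 3 := by
    have e := integral_rpow_mul_rpow_le (F := fun z => g1 z ^ E.a) (G := fun z => g2 z ^ E.a')
      (hg1c.rpow_const fun _ => Or.inr ha.le) (hg2c.rpow_const fun _ => Or.inr ha'.le)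
      (fun z => Real.rpow_nonneg (h1 _) _) (fun z => Real.rpow_nonneg (h2 _) _) hs
      (one_div_nonneg.2 ha.le) (one_div_nonneg.2 ha'.le)
      (by simpa [one_div] using E.conj.inv_add_inv_eq_one)
    have e' : ∀ z, (g1 z ^ E.a) ^ (1 / E.a) * (g2 z ^ E.a') ^ (1 / E.a') = g1 z * g2 z := by
      intro z
      rw [← Real.rpow_mul (h1 _), ← Real.rpow_mul (h2 _), mul_one_div_cancel ha.ne',
        mul_one_div_cancel ha'.ne', Real.rpow_one, Real.rpow_one]
    simp only [e'] at e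
    refine e.trans ?_
    have hPl : 0 ≤ P ^ E.lam := Real.rpow_nonneg hP0 _
    calc (∫ z in s, g1 z ^ E.a) ^ (1 / E.a) * slN i E.a' ρ J2 r
        ≤ (P ^ E.lam * (1 + S)) * (P2 * (1 + S)) :=
          mul_le_mul hi (b3.trans (mul_le_mul_of_nonneg_left (by linarith) hP2))
            (slN_nonneg _ _ _ h2 _) (by positivity)
      _ = (P ^ E.lam * P2) * (1 + S) ^ 2 := by ring
      _ ≤ Mb * (1 + S) ^ 3 :=
          mul_le_mul hM2 (pow_le_pow_right₀ h1S (by norm_num)) (by positivity) hMb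
  show ∫ z in s, ((1 + K) * g z ^ (q + 1) + g1 z * g2 z) ≤ _
  rw [integral_add ((cu.continuousOn.integrableOn_compact hs).const_mul (1 + K))
    ((show Continuous fun z => g1 z * g2 z from hg1c.mul hg2c).continuousOn.integrableOn_compact hs),
    integral_const_mul]
  have := mul_le_mul_of_nonneg_left hu (show 0 ≤ 1 + K by linarith)
  linarith

/-- A slice norm on two opposite faces. -/
def pairN (i : Fin (m + 1)) (k ρ : ℝ) (F : Euc (m + 1) → ℝ) (r : ℝ) : ℝ :=
  slN i k ρ F r + slN i k ρ F (-r)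

lemma pairN_nonneg (i : Fin (m + 1)) (k ρ : ℝ) {F : Euc (m + 1) → ℝ} (hF : ∀ x, 0 ≤ F x) (r : ℝ) :
    0 ≤ pairN i k ρ F r :=
  add_nonneg (slN_nonneg _ _ _ hF _) (slN_nonneg _ _ _ hF _)

lemma slN_le_pairN (i : Fin (m + 1)) (k ρ : ℝ) {F : Euc (m + 1) → ℝ} (hF : ∀ x, 0 ≤ F x) (r : ℝ) :
    slN i k ρ F r ≤ pairN i k ρ F |r| := by
  unfold pairN
  rcases abs_choice r with h | h <;> rw [h]
  · linarith [slN_nonneg i k ρ hF (-r)]
  · rw [neg_neg]; linarith [slN_nonneg i k ρ hF (-r)]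

lemma continuous_pairN (i : Fin (m + 1)) {k : ℝ} (hk : 1 ≤ k) (ρ : ℝ) {F : Euc (m + 1) → ℝ}
    (hF : Continuous F) : Continuous (pairN i k ρ F) := by
  have := continuous_slN i hk ρ hF
  unfold pairN
  fun_prop

/-- The normalised sum of the slice norms on the two opposite faces. -/
def slH {p q : ℝ} (E : Expo m p q) (ρ P P2 : ℝ) (U J1 J2 : Euc (m + 1) → ℝ) (r : ℝ) : ℝ :=
  ∑ i : Fin (m + 1),
    (pairN i E.k0 ρ U r + pairN i E.k1 ρ U r / P + pairN i E.a0 ρ J1 r +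
      pairN i E.a1 ρ J1 r / P + pairN i E.a' ρ J2 r / P2)

lemma continuous_slH {p q : ℝ} (E : Expo m p q) (ρ P P2 : ℝ) {U J1 J2 : Euc (m + 1) → ℝ}
    (hU : Continuous U) (h1 : Continuous J1) (h2 : Continuous J2) :
    Continuous (slH E ρ P P2 U J1 J2) :=
  continuous_finsetSum _ fun i _ => by
    have c0 := continuous_pairN i E.k0_ge ρ hU
    have c1 := continuous_pairN i E.k1_ge ρ hU
    have c2 := continuous_pairN i E.a0_ge ρ h1
    have c3 := continuous_pairN i E.a1_ge ρ h1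
    have c4 := continuous_pairN i E.a'_ge ρ h2
    fun_prop

lemma slH_bounds {p q : ℝ} (E : Expo m p q) {ρ P P2 : ℝ} (hP : 0 < P) (hP2 : 0 < P2)
    {U J1 J2 : Euc (m + 1) → ℝ} (hU : ∀ x, 0 ≤ U x) (h1 : ∀ x, 0 ≤ J1 x) (h2 : ∀ x, 0 ≤ J2 x)
    (i : Fin (m + 1)) (r : ℝ) :
    0 ≤ slH E ρ P P2 U J1 J2 r ∧
    slN i E.k0 ρ U r ≤ slH E ρ P P2 U J1 J2 |r| ∧
    slN i E.k1 ρ U r ≤ P * slH E ρ P P2 U J1 J2 |r| ∧
    slN i E.a0 ρ J1 r ≤ slH E ρ P P2 U J1 J2 |r| ∧
    slN i E.a1 ρ J1 r ≤ P * slH E ρ P P2 U J1 J2 |r| ∧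
    slN i E.a' ρ J2 r ≤ P2 * slH E ρ P P2 U J1 J2 |r| := by
  have hterm : ∀ j t, 0 ≤ pairN j E.k0 ρ U t + pairN j E.k1 ρ U t / P + pairN j E.a0 ρ J1 t +
      pairN j E.a1 ρ J1 t / P + pairN j E.a' ρ J2 t / P2 := fun j t => by
    have := pairN_nonneg j E.k0 ρ hU t
    have := div_nonneg (pairN_nonneg j E.k1 ρ hU t) hP.le
    have := pairN_nonneg j E.a0 ρ h1 t
    have := div_nonneg (pairN_nonneg j E.a1 ρ h1 t) hP.le
    have := div_nonneg (pairN_nonneg j E.a' ρ h2 t) hP2.le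
    linarith
  have hS := Finset.single_le_sum (fun j _ => hterm j |r|) (Finset.mem_univ i)
  change _ ≤ slH E ρ P P2 U J1 J2 |r| at hS
  have := pairN_nonneg i E.k0 ρ hU |r|
  have := div_nonneg (pairN_nonneg i E.k1 ρ hU |r|) hP.le
  have := pairN_nonneg i E.a0 ρ h1 |r|
  have := div_nonneg (pairN_nonneg i E.a1 ρ h1 |r|) hP.le
  have := div_nonneg (pairN_nonneg i E.a' ρ h2 |r|) hP2.le
  refine ⟨Finset.sum_nonneg fun j _ => hterm j r, (slN_le_pairN i _ ρ hU r).trans (by linarith),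
    (slN_le_pairN i _ ρ hU r).trans ?_, (slN_le_pairN i _ ρ h1 r).trans (by linarith),
    (slN_le_pairN i _ ρ h1 r).trans ?_, (slN_le_pairN i _ ρ h2 r).trans ?_⟩
  · rw [← div_le_iff₀' hP]; linarith
  · rw [← div_le_iff₀' hP]; linarith
  · rw [← div_le_iff₀' hP2]; linarith

lemma integral_slH_le {p q : ℝ} (E : Expo m p q) {ρ ρ' D P P2 A : ℝ} (hρ : 0 ≤ ρ) (hlt : ρ ≤ ρ')
    (hD : ρ' ≤ D) (hP : 0 < P) (hP2 : 0 < P2) {U J1 J2 : Euc (m + 1) → ℝ}
    (hUc : Continuous U) (h1c : Continuous J1) (h2c : Continuous J2)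
    (hU : ∀ x, 0 ≤ U x) (h1 : ∀ x, 0 ≤ J1 x) (h2 : ∀ x, 0 ≤ J2 x)
    {X Y Z : ℝ≥0∞} (hX : X ≠ ⊤) (hY : Y ≠ ⊤) (hZ : Z ≠ ⊤) (hA : X.toReal ≤ A)
    (hB : Y.toReal ≤ P * A) (hC : Z.toReal ≤ P2 * A)
    (b0 : ∀ i, ∫⁻ r in Icc (-D) D, sn i E.k0 (cut (shell ρ ρ') U) r ≤ X)
    (b1 : ∀ i, ∫⁻ r in Icc (-D) D, sn i E.k1 (cut (shell ρ ρ') U) r ≤ Y)
    (b2 : ∀ i, ∫⁻ r in Icc (-D) D, sn i E.a0 (cut (shell ρ ρ') J1) r ≤ X)
    (b3 : ∀ i, ∫⁻ r in Icc (-D) D, sn i E.a1 (cut (shell ρ ρ') J1) r ≤ Y)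
    (b4 : ∀ i, ∫⁻ r in Icc (-D) D, sn i E.a' (cut (shell ρ ρ') J2) r ≤ Z) :
    (∫ r in ρ..ρ', slH E ρ' P P2 U J1 J2 r) ≤ (m + 1 : ℝ) * (10 * A) := by
  have c0 := fun i => (continuous_pairN i E.k0_ge ρ' hUc).intervalIntegrable (μ := volume) ρ ρ'
  have c1 := fun i => ((continuous_pairN i E.k1_ge ρ' hUc).intervalIntegrable (μ := volume) ρ ρ').div_const P
  have c2 := fun i => (continuous_pairN i E.a0_ge ρ' h1c).intervalIntegrable (μ := volume) ρ ρ'
  have c3 := fun i => ((continuous_pairN i E.a1_ge ρ' h1c).intervalIntegrable (μ := volume) ρ ρ').div_const P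
  have c4 := fun i => ((continuous_pairN i E.a'_ge ρ' h2c).intervalIntegrable (μ := volume) ρ ρ').div_const P2
  unfold slH
  rw [intervalIntegral.integral_finsetSum fun i _ => ((((c0 i).add (c1 i)).add (c2 i)).add (c3 i)).add (c4 i)]
  refine (Finset.sum_le_card_nsmul _ _ (10 * A) fun i _ => ?_).trans (le_of_eq (by simp))
  have x0 : (∫ r in ρ..ρ', pairN i E.k0 ρ' U r) ≤ 2 * X.toReal :=
    integral_slN_le i E.k0_ge hUc hU hρ hlt hD hX (b0 i)
  have x1 : (∫ r in ρ..ρ', pairN i E.k1 ρ' U r) ≤ 2 * Y.toReal :=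
    integral_slN_le i E.k1_ge hUc hU hρ hlt hD hY (b1 i)
  have x2 : (∫ r in ρ..ρ', pairN i E.a0 ρ' J1 r) ≤ 2 * X.toReal :=
    integral_slN_le i E.a0_ge h1c h1 hρ hlt hD hX (b2 i)
  have x3 : (∫ r in ρ..ρ', pairN i E.a1 ρ' J1 r) ≤ 2 * Y.toReal :=
    integral_slN_le i E.a1_ge h1c h1 hρ hlt hD hY (b3 i)
  have x4 : (∫ r in ρ..ρ', pairN i E.a' ρ' J2 r) ≤ 2 * Z.toReal :=
    integral_slN_le i E.a'_ge h2c h2 hρ hlt hD hZ (b4 i)
  rw [intervalIntegral.integral_add ((((c0 i).add (c1 i)).add (c2 i)).add (c3 i)) (c4 i),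
    intervalIntegral.integral_add (((c0 i).add (c1 i)).add (c2 i)) (c3 i),
    intervalIntegral.integral_add ((c0 i).add (c1 i)) (c2 i),
    intervalIntegral.integral_add (c0 i) (c1 i),
    intervalIntegral.integral_div, intervalIntegral.integral_div, intervalIntegral.integral_div]
  have h' : ∀ (R : ℝ) (W y : ℝ), 0 < R → y ≤ 2 * W → W ≤ R * A → y / R ≤ 2 * A :=
    fun R W y hR hy hW => by rw [div_le_iff₀ hR]; linarith
  have := h' P _ _ hP x1 hB
  have := h' P _ _ hP x3 hB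
  have := h' P2 _ _ hP2 x4 hC
  linarith

end Slices

section Final

theorem recursion {m : ℕ} (hm : 4 ≤ m) {p q : ℝ} (hp : 0 < p) (hq : 1 < q)
    (hqp : q ≤ p) (hpq : 1 < p * q)
    (hsub : ((m + 1 : ℕ) : ℝ) - 2 < (m + 1 : ℕ) / (p + 1) + (m + 1 : ℕ) / (q + 1))
    (E : Expo m p q) :
    ∃ C : ℝ, 0 ≤ C ∧ ∀ u v : Euc (m + 1) → ℝ, IsPositiveEntireSolution p q u v →
      ∀ ρ ∈ Ico (1 : ℝ) 2, 1 + mass p q u v ρ ≤ C * ((2 - ρ) / 2) ^ (-((3 * m + 21 : ℕ) : ℝ)) *
        (1 + mass p q u v (ρ + (2 - ρ) / 2)) ^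
          (max ((p / (p + 1)) * E.B) ((p / (p + 1)) * E.lam + (q - 1) / q)) := by
  have hq0 : 0 < q := by linarith
  obtain ⟨C1, hC1, hsn⟩ := slice_norms hm hp hq hpq E
  obtain ⟨CP, hPoh⟩ := pohozaev (n := m + 1) (by omega) hp hq0
  set κ : ℝ := ((m + 1 : ℕ) : ℝ) / (p + 1) + (m + 1 : ℕ) / (q + 1) - (((m + 1 : ℕ) : ℝ) - 2)
    with hκd
  have hκ : 0 < κ := by rw [hκd]; linarith
  set D : ℝ := 4 * (m + 1 : ℝ) with hD
  set K : ℝ := (p + 1) / (q + 1) with hK
  have hK0 : 0 ≤ K := div_nonneg (by linarith) (by linarith)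
  set C1' := C1.toReal with hC1'
  have hC10 : 0 ≤ C1' := ENNReal.toReal_nonneg
  set e := p / (p + 1) with he
  set e2 := (q - 1) / q with he2
  set γ := max (e * E.B) (e * E.lam + e2)
  have he0 : 0 ≤ e := div_nonneg hp.le (by linarith)
  have he20 : 0 ≤ e2 := div_nonneg (by linarith) hq0.le
  have hγ0 : 0 ≤ γ := le_max_of_le_left (mul_nonneg he0 E.B_nonneg)
  set Q : ℝ := |CP| * (1 + D) * ((m + 1 : ℝ) * (4 * ((2 + K) *
    ((1 + 20 * (m + 1 : ℝ) * C1') ^ 3 * (6 / 4 ^ 3) ^ 4)))) * 8 ^ (3 * m + 21) with hQ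
  have hQ0 : 0 ≤ Q := by positivity
  refine ⟨1 + Q / κ, by positivity, fun u v hs ρ hρ => ?_⟩
  set h := (2 - ρ) / 2 with hh
  have hh0 : 0 < h := by linarith [hρ.2]
  have hh1 : h ≤ 1 / 2 := by linarith [hρ.1]
  set δ := h / 8 with hδd
  have hδ0 : 0 < δ := by linarith
  have hδ1 : δ ≤ 1 := by linarith
  have hρ1 := hρ.1
  set ρ' := ρ + 4 * δ with hρ'
  have hn3 : 3 ≤ m + 1 := by omega
  have hsoup : ∀ x : Euc (m + 1), x ≠ 0 → v x ^ (p + 1) ≤ K * u x ^ (q + 1) :=
    fun x hx => souplet hn3 hq0 hqp hpq hs hx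
  have hns := hsn u v hs ρ δ hρ1 hδ0 (by linarith) (by linarith)
  have hs' := hs
  obtain ⟨huc, hvc, hu2, hv2, hup, hvp, -⟩ := hs'
  set f := fun x => v x ^ (p + 1) + u x ^ (q + 1) with hf
  have hfc : Continuous f := (hvc.rpow_const fun x => Or.inl (hvp x).ne').add
    (huc.rpow_const fun x => Or.inl (hup x).ne')
  have hf0 : ∀ x, 0 ≤ f x := fun x =>
    add_nonneg (Real.rpow_nonneg (hvp x).le _) (Real.rpow_nonneg (hup x).le _)
  set M1 := mass p q u v (ρ + h) with hM1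
  have hM10 : 0 ≤ M1 := integral_nonneg hf0
  have h1M : (1 : ℝ) ≤ 1 + M1 := by linarith
  set P := (1 + M1) ^ e with hPd
  set P2 := (1 + M1) ^ e2 with hP2d
  set Mb := (1 + M1) ^ γ with hMbd
  have hP1 : 1 ≤ P := Real.one_le_rpow h1M he0
  have hP21 : 1 ≤ P2 := Real.one_le_rpow h1M he20
  have hP0 : 0 < P := by linarith
  have hP20 : 0 < P2 := by linarith
  set U := ext u
  set J1 := jet (ext u)
  set J2 := jet (ext v)
  have hUc : Continuous U := (contDiff_ext hu2).continuous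
  have h1c : Continuous J1 := continuous_jet (contDiff_ext hu2)
  have h2c : Continuous J2 := continuous_jet (contDiff_ext hv2)
  have hU0 : ∀ x, 0 ≤ U x := fun x => (ext_pos hup x).le
  have h10 : ∀ x, 0 ≤ J1 x := jet_nonneg hU0
  have h20 : ∀ x, 0 ≤ J2 x := jet_nonneg fun x => (ext_pos hvp x).le
  set d := (δ ^ (m + 3))⁻¹ with hd
  have hd1 : 1 ≤ d := (one_le_inv₀ (by positivity)).2 (pow_le_one₀ hδ0.le hδ1)
  set S := slH E ρ' P P2 U J1 J2 with hSd
  have hSc : Continuous S := continuous_slH E ρ' P P2 hUc h1c h2c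
  have hS0 : ∀ r, 0 ≤ S r := fun r => (slH_bounds E hP0 hP20 hU0 h10 h20 0 r).1
  have hpart : ∀ F : Euc (m + 1) → ℝ, (∀ y, F y ≤ f y) →
      ∫⁻ y, cut (shell (ρ - 4 * δ) (ρ + 8 * δ)) F y ≤ ENNReal.ofReal M1 := by
    intro F hF
    rw [hM1, mass, ofReal_integral_eq_lintegral_ofReal
      (hfc.continuousOn.integrableOn_compact (isCompact_cube _)) (Eventually.of_forall hf0),
      ← lintegral_indicator (measurableSet_cube _)]
    refine lintegral_mono fun y => ?_
    rw [show ρ + 8 * δ = ρ + h by rw [hδd]; ring, cut]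
    by_cases hy : y ∈ shell (ρ - 4 * δ) (ρ + h)
    · rw [indicator_of_mem hy, indicator_of_mem (shell_subset_cube _ _ hy)]
      exact ENNReal.ofReal_le_ofReal (hF y)
    · simp [indicator_of_notMem hy]
  set cc := ENNReal.ofReal d
  have hXt : C1 * cc ≠ ⊤ := ENNReal.mul_ne_top hC1 ENNReal.ofReal_ne_top
  have hYt : C1 * (cc + ENNReal.ofReal P) ≠ ⊤ :=
    ENNReal.mul_ne_top hC1 (ENNReal.add_ne_top.2 ⟨ENNReal.ofReal_ne_top, ENNReal.ofReal_ne_top⟩)
  have hZt : C1 * (cc * (1 + ENNReal.ofReal P2)) ≠ ⊤ :=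
    ENNReal.mul_ne_top hC1 (ENNReal.mul_ne_top ENNReal.ofReal_ne_top
      (ENNReal.add_ne_top.2 ⟨ENNReal.one_ne_top, ENNReal.ofReal_ne_top⟩))
  have hpow : ∀ (X : ℝ≥0∞) (t : ℝ), 0 ≤ t → X ≤ ENNReal.ofReal M1 →
      X ^ t ≤ ENNReal.ofReal ((1 + M1) ^ t) := fun X t ht hX => by
    refine (ENNReal.rpow_le_rpow hX ht).trans ?_
    rw [ENNReal.ofReal_rpow_of_nonneg hM10 ht]
    exact ENNReal.ofReal_le_ofReal (Real.rpow_le_rpow hM10 (by linarith) ht)
  have hΦ := hpow _ e he0 (hpart (fun y => v y ^ (p + 1))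
    fun y => le_add_of_nonneg_right (Real.rpow_nonneg (hup y).le _))
  have hΨ := hpow _ e2 he20 (hpart (fun y => u y ^ (q + 1))
    fun y => le_add_of_nonneg_left (Real.rpow_nonneg (hvp y).le _))
  have hρD : ρ' ≤ D := by
    have : (4 : ℝ) ≤ m := by exact_mod_cast hm
    rw [hD]; linarith
  have hSi : (∫ r in ρ..ρ', S r) ≤ 20 * (m + 1 : ℝ) * C1' * d := by
    refine (integral_slH_le E (A := 2 * C1' * d) (by linarith) (by linarith) hρD hP0 hP20
      hUc h1c h2c hU0 h10 h20 hXt hYt hZt ?_ ?_ ?_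
      (fun i => (hns i).1) (fun i => (hns i).2.1.trans (by gcongr))
      (fun i => (hns i).2.2.1) (fun i => (hns i).2.2.2.1.trans (by gcongr))
      (fun i => (hns i).2.2.2.2.trans (by gcongr))).trans (le_of_eq (by ring))
    · rw [ENNReal.toReal_mul, ENNReal.toReal_ofReal (by positivity)]
      have : 0 ≤ C1' * d := by positivity
      linarith
    · rw [ENNReal.toReal_mul, ENNReal.toReal_add ENNReal.ofReal_ne_top ENNReal.ofReal_ne_top,
        ENNReal.toReal_ofReal (by positivity), ENNReal.toReal_ofReal hP0.le]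
      have := mul_nonneg hC10 (mul_nonneg (sub_nonneg.2 hd1) hP0.le)
      have := mul_nonneg hC10 (mul_nonneg (sub_nonneg.2 hP1) (zero_le_one.trans hd1))
      linarith
    · rw [ENNReal.toReal_mul, ENNReal.toReal_mul,
        ENNReal.toReal_add ENNReal.one_ne_top ENNReal.ofReal_ne_top, ENNReal.toReal_one,
        ENNReal.toReal_ofReal (by positivity), ENNReal.toReal_ofReal hP20.le]
      have := mul_nonneg hC10 (mul_nonneg (sub_nonneg.2 hP21) (zero_le_one.trans hd1))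
      linarith
  obtain ⟨w, χ, hwc, hw0, hwz, hwb, hχ, h01, hone, hzero, hderiv⟩ :=
    exists_weight (M := 20 * (m + 1 : ℝ) * C1' * d) (show 0 < ρ by linarith)
      (show ρ < ρ' by linarith) (by linarith) (by positivity) 3 hSc hS0 hSi
  obtain ⟨hζ1, hζc, hζ0, hζone, hζnhd, hζsupp, hζd⟩ :=
    box_cutoff (n := m + 1) (show 0 < ρ by linarith) hχ h01 hone hzero hderiv
  set ζ := fun x : Euc (m + 1) => ∏ i, χ (x i)
  set W := (2 + K) * Mb * ((1 + 20 * (m + 1 : ℝ) * C1' * d) ^ 3 * (6 / (ρ' - ρ) ^ 3) ^ 4)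
  have hMb0 : 0 ≤ Mb := by positivity
  have hW0 : 0 ≤ W := by
    have := sub_pos.2 (show ρ < ρ' by linarith)
    positivity
  have hM1' : P ^ E.B ≤ Mb := by
    rw [hPd, ← Real.rpow_mul (by linarith)]
    exact Real.rpow_le_rpow_of_exponent_le h1M (le_max_left _ _)
  have hM2' : P ^ E.lam * P2 ≤ Mb := by
    rw [hPd, hP2d, ← Real.rpow_mul (by linarith), ← Real.rpow_add (by linarith)]
    exact Real.rpow_le_rpow_of_exponent_le h1M (le_max_right _ _)
  have hZ := boundary_term (p := p) hρ1 (show ρ ≤ ρ' by linarith) (by linarith) hK0 hq0.le hu2 hv2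
    hup hvp hsoup hwc hw0 hwz hζsupp hζd hW0 fun i r => by
      obtain ⟨-, c0, c1, c2, c3, c4⟩ := slH_bounds E (ρ := ρ') hP0 hP20 hU0 h10 h20 i r
      refine (mul_le_mul_of_nonneg_left (slice_energy hq0 E hK0 i hUc h1c h2c hU0 h10 h20
        (hS0 |r|) hP1 hP20.le hM1' hM2' c0 c1 c2 c3 c4) (hw0 _)).trans ?_
      calc w |r| * ((2 + K) * Mb * (1 + S |r|) ^ 3)
          = (2 + K) * Mb * (w |r| * (1 + S |r|) ^ 3) := by ring
        _ ≤ W := mul_le_mul_of_nonneg_left (hwb _) (by positivity)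
  have hI0 : 0 ≤ ∫ x, ‖fderiv ℝ ζ x‖ * (u x ^ (q + 1) + v x ^ (p + 1) +
      (u x + ‖fderiv ℝ u x‖) * (v x + ‖fderiv ℝ v x‖)) := integral_nonneg fun x => by
    have := hup x; have := hvp x
    have := Real.rpow_nonneg (hup x).le (q + 1)
    have := Real.rpow_nonneg (hvp x).le (p + 1)
    positivity
  have hmain := hPoh u v hs ζ D hζ1 hζc hζ0 hζnhd (by positivity) fun x hx => by
    rw [hD]
    exact_mod_cast cube_norm_le (show 0 ≤ ρ' by linarith) (by linarith) (hζsupp x hx)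
  have hleft : κ * mass p q u v ρ ≤ |CP| * (1 + D) * ((m + 1 : ℝ) * (4 * W)) := by
    have hint : Integrable fun x => ζ x * f x :=
      (hζ1.continuous.mul hfc).integrable_of_hasCompactSupport hζc.mul_right
    have h1 : mass p q u v ρ ≤ ∫ x, ζ x * f x := by
      rw [mass, ← integral_indicator (measurableSet_cube ρ)]
      refine integral_mono_of_nonneg (Eventually.of_forall fun x =>
        indicator_nonneg (fun y _ => hf0 y) x) hint (Eventually.of_forall fun x => ?_)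
      by_cases hx : x ∈ cube ρ
      · simp [indicator_of_mem hx, ζ, hζone x hx, hf]
      · simpa [indicator_of_notMem hx] using mul_nonneg (hζ0 x) (hf0 x)
    refine ((mul_le_mul_of_nonneg_left h1 hκ.le).trans hmain).trans ?_
    refine mul_le_mul (mul_le_mul_of_nonneg_right (le_abs_self CP) (by positivity)) hZ hI0
      (by positivity)
  have hW : W ≤ (2 + K) * Mb * ((1 + 20 * (m + 1 : ℝ) * C1') ^ 3 * (6 / 4 ^ 3) ^ 4 *
      (δ ^ (3 * m + 21))⁻¹) := by
    refine mul_le_mul_of_nonneg_left ?_ (by positivity)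
    have h1 : (1 + 20 * (m + 1 : ℝ) * C1' * d) ^ 3 ≤ ((1 + 20 * (m + 1 : ℝ) * C1') * d) ^ 3 := by
      gcongr; linarith
    have h2 : (6 / (ρ' - ρ) ^ 3) ^ 4 = (6 / 4 ^ 3) ^ 4 * (δ ^ 12)⁻¹ := by
      rw [show ρ' - ρ = 4 * δ by rw [hρ']; ring]
      field_simp
    rw [h2]
    calc _ ≤ ((1 + 20 * (m + 1 : ℝ) * C1') * d) ^ 3 * ((6 / 4 ^ 3) ^ 4 * (δ ^ 12)⁻¹) :=
          mul_le_mul_of_nonneg_right h1 (by positivity)
      _ = _ := by
          rw [hd, show 3 * m + 21 = (m + 3) * 3 + 12 by omega,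
            pow_add δ ((m + 3) * 3) 12, pow_mul δ (m + 3) 3, mul_inv,
            ← inv_pow, mul_pow]
          ring_nf
  have hδh : (δ ^ (3 * m + 21))⁻¹ = 8 ^ (3 * m + 21) * h ^ (-((3 * m + 21 : ℕ) : ℝ)) := by
    rw [Real.rpow_neg hh0.le, Real.rpow_natCast, hδd, div_pow]
    field_simp
  set Z := h ^ (-((3 * m + 21 : ℕ) : ℝ)) * Mb with hZd
  have hZ1 : 1 ≤ Z := one_le_mul_of_one_le_of_one_le
    (Real.one_le_rpow_of_pos_of_le_one_of_nonpos hh0 (by linarith) (neg_nonpos.2 (Nat.cast_nonneg _)))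
    (Real.one_le_rpow h1M hγ0)
  have hfin : κ * mass p q u v ρ ≤ Q * Z := by
    refine (hleft.trans (mul_le_mul_of_nonneg_left (mul_le_mul_of_nonneg_left
      (mul_le_mul_of_nonneg_left hW (by norm_num)) (by positivity)) (by positivity))).trans
      (le_of_eq ?_)
    rw [hZd, hQ, hδh]; ring
  calc 1 + mass p q u v ρ ≤ Z + Q / κ * Z := by
        refine add_le_add hZ1 ?_
        rw [div_mul_eq_mul_div, le_div_iff₀ hκ]
        linarith
    _ = _ := by rw [hZd]; ring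

end Final

end High

/-- No positive entire solution in dimension five in the corner `1 < q`, `p (q - 1) < 2`. -/
theorem no_solution_corner_high {p q : ℝ} (hq : 1 < q) (hqp : q ≤ p)
    (hsub : (5 : ℝ) - 2 < 5 / (p + 1) + 5 / (q + 1)) (hcor : p * (q - 1) < 2) :
    ¬ ∃ u v : Euc 5 → ℝ, IsPositiveEntireSolution p q u v := by
  have hq0 : 0 < q := by linarith
  have hp : 0 < p := by linarith
  have hpq : 1 < p * q := by nlinarith
  obtain ⟨E0⟩ := High.exists_expo hq hqp hcor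
  have E : High.Expo ((4 : ℕ) : ℝ) p q := by
    rw [show ((4 : ℕ) : ℝ) = (4 : ℝ) by norm_num]
    exact E0
  have hsub' : ((4 + 1 : ℕ) : ℝ) - 2 < (4 + 1 : ℕ) / (p + 1) + (4 + 1 : ℕ) / (q + 1) := by
    exact_mod_cast hsub
  obtain ⟨C, hC, hrec⟩ := High.recursion (m := 4) le_rfl hp hq hqp hpq hsub' E
  have he0 : 0 ≤ p / (p + 1) := div_nonneg hp.le (by linarith)
  obtain ⟨Bd, hBd⟩ := hole_filling hC (Nat.cast_nonneg (3 * 4 + 21))
    (le_max_of_le_left (mul_nonneg he0 E.B_nonneg))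
    (show max ((p / (p + 1)) * E.B) ((p / (p + 1)) * E.lam + (q - 1) / q) < 1 from
      max_lt (by linarith [E.B_cond]) (by linarith [E.lam_cond]))
  refine no_solution_of_unit_bound hp hq0 hpq hsub' ⟨Bd, fun u v hs => ?_⟩
  have hrec' := hrec u v hs
  obtain ⟨huc, hvc, -, -, hup, hvp, -⟩ := hs
  have hfc : Continuous fun x => v x ^ (p + 1) + u x ^ (q + 1) :=
    (hvc.rpow_const fun x => Or.inl (hvp x).ne').add
      (huc.rpow_const fun x => Or.inl (hup x).ne')
  have hf0 : ∀ x, 0 ≤ v x ^ (p + 1) + u x ^ (q + 1) := fun x =>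
    add_nonneg (Real.rpow_nonneg (hvp x).le _) (Real.rpow_nonneg (hup x).le _)
  have hint : ∀ r, IntegrableOn (fun x => v x ^ (p + 1) + u x ^ (q + 1)) (cube r) :=
    fun r => hfc.continuousOn.integrableOn_compact (isCompact_cube r)
  refine le_trans ?_ (hBd (mass p q u v) (fun a _ b _ hab => setIntegral_mono_set (hint b)
    (Eventually.of_forall hf0) (Eventually.of_forall (cube_mono hab)))
    (integral_nonneg hf0) hrec')
  have hsub'' : Metric.closedBall (0 : Euc (4 + 1)) 1 ⊆ cube 1 := fun x hx i =>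
    (abs_apply_le_norm x i).trans (mem_closedBall_zero_iff.1 hx)
  refine le_trans (setIntegral_mono_on
    ((hvc.rpow_const fun x => Or.inl (hvp x).ne').continuousOn.integrableOn_compact
      (isCompact_closedBall _ _)) ((hint 1).mono_set hsub'') measurableSet_closedBall
    fun x _ => le_add_of_nonneg_right (Real.rpow_nonneg (hup x).le _)) ?_
  exact setIntegral_mono_set (hint 1) (Eventually.of_forall hf0) (Eventually.of_forall hsub'')

end Vale.Agent.P100C
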