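import Vale.Agent.P100C.CornerHigh
import Vale.Agent.P100.Region
import Vale.Agent.P100T.Sublinear

/-!
Dimension five: nonexistence outside the thin strip `q > 1`, `p (q - 1) ≥ 2`, critical dimension
below `5.17`, obtained from the explicit region and the two corner lemmas.
-/

noncomputable section

namespace Vale.Agent.P100C.Five

open Vale.Agent.P100

lemma end_low {q : ℝ} (h1 : 317 / 200 ≤ q) (h2 : q ≤ 2) :
    0 < 350 * (3 * q - 2) * (q - 1) - (5 * (q - 1) + (9 - q) * (3 * q - 2)) ^ 2 := by
  nlinarith [mul_nonneg (sub_nonneg.2 h1) (sub_nonneg.2 h2), sq_nonneg (q - 2), sq_nonneg (q - 317 / 200)]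

lemma end_high {q : ℝ} (h1 : 317 / 200 ≤ q) (h2 : q ≤ 717 / 317) :
    0 < 175 * (200 * q + 717) * (3 * q - 2) * (317 * q - 200)
      - (5 * (317 * q - 200) + (483 * q + 3068) * (3 * q - 2)) ^ 2 := by
  nlinarith [mul_nonneg (sub_nonneg.2 h1) (sub_nonneg.2 h2), sq_nonneg (q - 2), sq_nonneg (q - 317 / 200), sq_nonneg (q - 717 / 317)]

lemma end_diag {q : ℝ} (h1 : 2 ≤ q) (h2 : q ≤ 717 / 317) :
    0 < 175 * q * (3 * q - 2) - (5 + (4 * q - 1) * (3 * q - 2)) ^ 2 := by
  nlinarith [mul_nonneg (sub_nonneg.2 h1) (sub_nonneg.2 h2), sq_nonneg (q - 2), sq_nonneg (q - 717 / 317)]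

/-- The explicit region of `Region.lean` contains everything above the strip. -/
theorem region {p q : ℝ} (hq : 1 < q) (hqp : q ≤ p) (hlow : 2 ≤ p * (q - 1))
    (hH : (317 * q - 200) * p ≤ 200 * q + 717) :
    (5 + (4 * p - 1) * (3 * q - 2)) ^ 2 < 5 ^ 2 * p * (5 + 2) * (3 * q - 2) := by
  set E := 317 * q - 200 with hE
  have hE0 : 0 < E := by linarith
  have hq2' : q ≤ 717 / 317 := by nlinarith [mul_le_mul_of_nonneg_left hqp hE0.le]
  have hq1' : 317 / 200 ≤ q := by
    nlinarith [mul_le_mul_of_nonneg_left hlow hE0.le, mul_le_mul_of_nonneg_left hH (show 0 ≤ q - 1 by linarith)]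
  set H2 := 200 * q + 717 - E * p with hH2
  have hH20 : 0 ≤ H2 := by linarith
  have hc : 0 ≤ 16 * (3 * q - 2) ^ 2 := by positivity
  have g2 := end_high hq1' hq2'
  set f := 175 * p * (3 * q - 2) - (5 + (4 * p - 1) * (3 * q - 2)) ^ 2 with hf
  suffices hf0 : 0 < f by linarith
  rcases le_total q 2 with h2 | h2
  · have g1 := end_low hq1' h2
    set H1 := p * (q - 1) - 2 with hH1
    have hH10 : 0 ≤ H1 := by linarith
    set G := E * H1 + (q - 1) * H2 with hG
    have hid : f * (G * ((q - 1) * E)) =
        (350 * (3 * q - 2) * (q - 1) - (5 * (q - 1) + (9 - q) * (3 * q - 2)) ^ 2) * E * H2 +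
        (175 * (200 * q + 717) * (3 * q - 2) * E
          - (5 * E + (483 * q + 3068) * (3 * q - 2)) ^ 2) * (q - 1) * H1 +
        16 * (3 * q - 2) ^ 2 * H1 * H2 * G := by
      rw [hf, hG, hH1, hH2, hE]; ring
    rcases (show 0 ≤ G by positivity).eq_or_lt' with hG0 | hG0
    · have : H1 = 0 := by
        have := mul_nonneg (show 0 ≤ q - 1 by linarith) hH20
        have : E * H1 = 0 := by linarith [mul_nonneg hE0.le hH10]
        exact (mul_eq_zero.1 this).resolve_left hE0.ne'
      have e : f * (q - 1) ^ 2 =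
          350 * (3 * q - 2) * (q - 1) - (5 * (q - 1) + (9 - q) * (3 * q - 2)) ^ 2 := by
        have hp : p * (q - 1) = 2 := by linarith
        have : f * (q - 1) ^ 2 = 175 * (p * (q - 1)) * (3 * q - 2) * (q - 1) -
            (5 * (q - 1) + (4 * (p * (q - 1)) - (q - 1)) * (3 * q - 2)) ^ 2 := by rw [hf]; ring
        rw [this, hp]; ring
      nlinarith [sq_nonneg (q - 1)]
    · have hr : 0 < f * (G * ((q - 1) * E)) := by
        rw [hid]
        have t3 : 0 ≤ 16 * (3 * q - 2) ^ 2 * H1 * H2 * G := by positivity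
        rcases hH10.eq_or_lt' with h0 | h0
        · have : 0 < H2 := by
            by_contra hcon
            have : H2 = 0 := by linarith
            simp [hG, h0, this] at hG0
          have := mul_pos (mul_pos g1 hE0) this
          rw [h0, mul_zero] at *
          linarith
        · have := mul_nonneg (mul_nonneg g1.le hE0.le) hH20
          have := mul_pos (mul_pos g2 (show 0 < q - 1 by linarith)) h0
          linarith
      have hq0 : 0 < q - 1 := by linarith
      exact pos_of_mul_pos_left hr (by positivity)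
  · have g1 := end_diag h2 hq2'
    set H3 := p - q with hH3
    have hH30 : 0 ≤ H3 := by linarith
    set G := E * H3 + H2 with hG
    have hid : f * (G * E) = (175 * q * (3 * q - 2) - (5 + (4 * q - 1) * (3 * q - 2)) ^ 2) * E * H2 +
        (175 * (200 * q + 717) * (3 * q - 2) * E
          - (5 * E + (483 * q + 3068) * (3 * q - 2)) ^ 2) * H3 +
        16 * (3 * q - 2) ^ 2 * H3 * H2 * G := by
      rw [hf, hG, hH3, hH2, hE]; ring
    rcases (show 0 ≤ G by positivity).eq_or_lt' with hG0 | hG0
    · have : H3 = 0 := by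
        have : E * H3 = 0 := by linarith [mul_nonneg hE0.le hH30]
        exact (mul_eq_zero.1 this).resolve_left hE0.ne'
      rw [hf, show p = q by linarith]
      exact g1
    · have hr : 0 < f * (G * E) := by
        rw [hid]
        have t3 : 0 ≤ 16 * (3 * q - 2) ^ 2 * H3 * H2 * G := by positivity
        rcases hH30.eq_or_lt' with h0 | h0
        · have : 0 < H2 := by simpa [hG, h0] using hG0
          have := mul_pos (mul_pos g1 hE0) this
          rw [h0, mul_zero] at *
          linarith
        · have := mul_nonneg (mul_nonneg g1.le hE0.le) hH20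
          have := mul_pos g2 h0
          linarith
      exact pos_of_mul_pos_left hr (by positivity)

theorem no_solution_ordered {p q : ℝ} (hq : 0 < q) (hqp : q ≤ p)
    (hsub : 3 / 5 < 1 / (p + 1) + 1 / (q + 1))
    (h : 317 / 517 ≤ 1 / (p + 1) + 1 / (q + 1) ∨ p * (q - 1) < 2) :
    ¬ ∃ u v : Euc 5 → ℝ, IsPositiveEntireSolution p q u v := by
  have hp : 0 < p := by linarith
  rcases le_or_gt (p * q) 1 with hpq | hpq
  · exact Vale.Agent.P100T.no_solution_sublinear (by norm_num) hp hq hpq
  have hsub' : (5 : ℝ) - 2 < 5 / (p + 1) + 5 / (q + 1) := by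
    have : 5 / (p + 1) + 5 / (q + 1) = 5 * (1 / (p + 1) + 1 / (q + 1)) := by ring
    linarith
  rcases le_or_gt q 1 with hq1 | hq1
  · refine no_solution_corner (n := 5) le_rfl hq hq1 hqp hpq (by exact_mod_cast hsub') ?_
    have := mul_nonneg (show 0 ≤ p + 1 by linarith) (show 0 ≤ 1 - q by linarith)
    norm_num
    nlinarith
  rcases lt_or_ge (p * (q - 1)) 2 with hcor | hcor
  · exact no_solution_corner_high hq1 hqp hsub' hcor
  have hH0 := h.resolve_right (not_lt.2 hcor)
  have hH : 317 * ((p + 1) * (q + 1)) ≤ 517 * (p + q + 2) := by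
    have e : 1 / (p + 1) + 1 / (q + 1) = (p + q + 2) / ((p + 1) * (q + 1)) := by field_simp; ring
    rw [e, div_le_div_iff₀ (by norm_num) (by positivity)] at hH0
    linarith
  have hA : Admissible (5 : ℕ) q p := by
    refine admissible_of_explicit (by norm_num) hq hp (by push_cast; linarith) ?_ ?_
    · have := region hq1 hqp hcor (by linarith)
      push_cast
      norm_num at this ⊢
      linarith
    · push_cast
      rw [lt_div_iff₀ (by nlinarith)]
      norm_num
      nlinarith
  exact no_solution_of_admissible le_rfl hpq (Or.inr hA)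

/-- Dimension five outside the strip. -/
theorem no_solution_five {p q : ℝ} (hp : 0 < p) (hq : 0 < q)
    (hsub : 3 / 5 < 1 / (p + 1) + 1 / (q + 1))
    (h : 317 / 517 ≤ 1 / (p + 1) + 1 / (q + 1) ∨ p * q - max p q < 2) :
    ¬ ∃ u v : Euc 5 → ℝ, IsPositiveEntireSolution p q u v := by
  rcases le_total q p with hle | hle
  · refine no_solution_ordered hq hle hsub (h.imp id fun hh => ?_)
    rw [max_eq_left hle] at hh
    linarith
  · rintro ⟨u, v, hs⟩
    refine no_solution_ordered hp hle (by linarith) (h.imp (fun hh => by linarith) fun hh => ?_)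
      ⟨v, u, hs.swap⟩
    rw [max_eq_right hle] at hh
    linarith

end Vale.Agent.P100C.Five
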