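import Vale.Agent.P100T.Comparison

/-! # Slices, cubes and shells in coordinates -/

open MeasureTheory Set Filter Topology Laplacian
open scoped ContDiff ENNReal

noncomputable section

namespace Vale.Agent.P100C

open Vale.Agent.P100

variable {m : ℕ}

/-- Insert the coordinate `r` at place `i`. -/
def ins (i : Fin (m + 1)) (r : ℝ) (z : Euc m) : Euc (m + 1) :=
  WithLp.toLp 2 (Fin.insertNth i r (fun j => z j))

@[simp] lemma ins_same (i : Fin (m + 1)) (r : ℝ) (z : Euc m) : ins i r z i = r := by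
  simp [ins]

@[simp] lemma ins_succAbove (i : Fin (m + 1)) (r : ℝ) (z : Euc m) (j : Fin m) :
    ins i r z (i.succAbove j) = z j := by
  simp [ins]

lemma continuous_ins (i : Fin (m + 1)) : Continuous fun rz : ℝ × Euc m => ins i rz.1 rz.2 :=
  (PiLp.continuous_toLp 2 _).comp (continuous_pi fun k => by
    rcases Fin.eq_self_or_eq_succAbove i k with rfl | ⟨j, rfl⟩
    · simpa using continuous_fst
    · simp only [Fin.insertNth_apply_succAbove]; fun_prop)

lemma norm_ins_sub_sq (i : Fin (m + 1)) (r t : ℝ) (z w : Euc m) :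
    ‖ins i r z - ins i t w‖ ^ 2 = (r - t) ^ 2 + ‖z - w‖ ^ 2 := by
  simp [EuclideanSpace.norm_sq_eq, Fin.sum_univ_succAbove _ i, sq_abs]

/-- The slicing map as an equivalence. -/
def insEquiv (i : Fin (m + 1)) : (ℝ × Euc m) ≃ᵐ Euc (m + 1) :=
  ((MeasurableEquiv.refl ℝ).prodCongr (MeasurableEquiv.toLp 2 (Fin m → ℝ)).symm).trans
    ((MeasurableEquiv.piFinSuccAbove (fun _ : Fin (m + 1) => ℝ) i).symm.trans
      (MeasurableEquiv.toLp 2 (Fin (m + 1) → ℝ)))

lemma coe_insEquiv (i : Fin (m + 1)) :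
    (insEquiv i : ℝ × Euc m → Euc (m + 1)) = fun rz => ins i rz.1 rz.2 := by
  funext rz; rfl

lemma measurePreserving_ins (i : Fin (m + 1)) :
    MeasurePreserving (fun rz : ℝ × Euc m => ins i rz.1 rz.2) volume volume := by
  have h1 : MeasurePreserving (Prod.map id (MeasurableEquiv.toLp 2 (Fin m → ℝ)).symm)
      (volume : Measure (ℝ × Euc m)) (volume : Measure (ℝ × (Fin m → ℝ))) :=
    (MeasurePreserving.id volume).prod
      (EuclideanSpace.volume_preserving_symm_measurableEquiv_toLp (Fin m))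
  have h2 := ((EuclideanSpace.volume_preserving_symm_measurableEquiv_toLp (Fin (m + 1))).symm).comp
    (((volume_preserving_piFinSuccAbove (fun _ : Fin (m + 1) => ℝ) i).symm _).comp h1)
  exact h2

lemma measurableEmbedding_ins (i : Fin (m + 1)) :
    MeasurableEmbedding fun rz : ℝ × Euc m => ins i rz.1 rz.2 :=
  coe_insEquiv i ▸ (insEquiv i).measurableEmbedding

lemma integrable_ins {f : Euc (m + 1) → ℝ} (i : Fin (m + 1)) :
    Integrable (fun rz : ℝ × Euc m => f (ins i rz.1 rz.2)) ↔ Integrable f :=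
  (measurePreserving_ins i).integrable_comp_emb (measurableEmbedding_ins i)

lemma integral_ins {f : Euc (m + 1) → ℝ} (i : Fin (m + 1)) (hf : Integrable f) :
    ∫ x, f x = ∫ r : ℝ, ∫ z : Euc m, f (ins i r z) := by
  rw [← (measurePreserving_ins i).integral_comp (measurableEmbedding_ins i) f,
    Measure.volume_eq_prod, integral_prod]
  exact (integrable_ins i).2 hf

lemma lintegral_ins {f : Euc (m + 1) → ℝ≥0∞} (i : Fin (m + 1)) (hf : Measurable f) :
    ∫⁻ x, f x = ∫⁻ r : ℝ, ∫⁻ z : Euc m, f (ins i r z) := by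
  rw [← (measurePreserving_ins i).lintegral_comp hf, Measure.volume_eq_prod,
    lintegral_prod (fun rz : ℝ × Euc m => f (ins i rz.1 rz.2))
      (hf.comp (continuous_ins i).measurable).aemeasurable]

variable {n : ℕ}

/-- The closed cube of radius `ρ`. -/
def cube (ρ : ℝ) : Set (Euc n) := {x | ∀ i, |x i| ≤ ρ}

/-- The cubic shell. -/
def shell (a b : ℝ) : Set (Euc n) := {x ∈ cube b | ∃ i, a ≤ |x i|}

lemma isClosed_cube (ρ : ℝ) : IsClosed (cube ρ : Set (Euc n)) := by
  rw [show (cube ρ : Set (Euc n)) = ⋂ i, {x | |x i| ≤ ρ} by ext; simp [cube]]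
  exact isClosed_iInter fun i => isClosed_le (by fun_prop) continuous_const

lemma cube_subset_closedBall (ρ : ℝ) :
    (cube ρ : Set (Euc n)) ⊆ Metric.closedBall 0 (Real.sqrt n * ρ) := by
  intro x hx
  rw [mem_closedBall_zero_iff]
  rcases Nat.eq_zero_or_pos n with h0 | h0
  · subst h0; simp [Subsingleton.elim x 0]
  have hρ : 0 ≤ ρ := (abs_nonneg _).trans (hx ⟨0, h0⟩)
  refine (pow_le_pow_iff_left₀ (norm_nonneg x) (by positivity) two_ne_zero).1 ?_
  rw [EuclideanSpace.norm_sq_eq, mul_pow, Real.sq_sqrt (Nat.cast_nonneg n)]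
  refine (Finset.sum_le_card_nsmul _ _ (ρ ^ 2) fun i _ => ?_).trans_eq (by simp)
  rw [Real.norm_eq_abs]
  exact pow_le_pow_left₀ (abs_nonneg _) (hx i) 2

lemma isCompact_cube (ρ : ℝ) : IsCompact (cube ρ : Set (Euc n)) :=
  (isCompact_closedBall (0 : Euc n) _).of_isClosed_subset (isClosed_cube ρ)
    (cube_subset_closedBall ρ)

lemma measurableSet_cube (ρ : ℝ) : MeasurableSet (cube ρ : Set (Euc n)) :=
  (isClosed_cube ρ).measurableSet

lemma isClosed_shell (a b : ℝ) : IsClosed (shell a b : Set (Euc n)) := by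
  rw [show (shell a b : Set (Euc n)) = cube b ∩ ⋃ i, {x | a ≤ |x i|} by ext; simp [shell]]
  exact (isClosed_cube b).inter
    (isClosed_iUnion_of_finite fun i => isClosed_le continuous_const (by fun_prop))

lemma shell_subset_cube (a b : ℝ) : (shell a b : Set (Euc n)) ⊆ cube b := fun _ h => h.1

lemma isCompact_shell (a b : ℝ) : IsCompact (shell a b : Set (Euc n)) :=
  (isCompact_cube b).of_isClosed_subset (isClosed_shell a b) (shell_subset_cube a b)

lemma measurableSet_shell (a b : ℝ) : MeasurableSet (shell a b : Set (Euc n)) :=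
  (isClosed_shell a b).measurableSet

lemma cube_mono {ρ ρ' : ℝ} (h : ρ ≤ ρ') : (cube ρ : Set (Euc n)) ⊆ cube ρ' :=
  fun _ hx i => (hx i).trans h

lemma shell_mono {a b a' b' : ℝ} (ha : a' ≤ a) (hb : b ≤ b') :
    (shell a b : Set (Euc n)) ⊆ shell a' b' :=
  fun _ hx => ⟨cube_mono hb hx.1, hx.2.choose, ha.trans hx.2.choose_spec⟩


/-- `C²`, values in `[0,1]`, derivatives bounded by `K` and `K²` in coordinates. -/
structure Bd (f : Euc n → ℝ) (K : ℝ) : Prop where
  smooth : ContDiff ℝ 2 f
  mem : ∀ x, 0 ≤ f x ∧ f x ≤ 1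
  first : ∀ x i, |pd i f x| ≤ K
  second : ∀ x i j, |pd i (pd j f) x| ≤ K ^ 2

lemma pd_eq_zero_of_const (c : ℝ) (i : Fin n) (x : Euc n) : pd i (fun _ => c) x = 0 := by
  simp [pd]

lemma Bd.one : Bd (fun _ : Euc n => (1 : ℝ)) 0 where
  smooth := contDiff_const
  mem := fun _ => ⟨zero_le_one, le_rfl⟩
  first := fun x i => by simp [pd]
  second := fun x i j => by
    rw [show pd j (fun _ : Euc n => (1 : ℝ)) = fun _ => 0 from funext fun y =>
      pd_eq_zero_of_const 1 j y, pd_eq_zero_of_const]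
    simp

lemma Bd.compl {f : Euc n → ℝ} {K : ℝ} (h : Bd f K) : Bd (fun x => 1 - f x) K := by
  have e : ∀ j : Fin n, pd j (fun x => 1 - f x) = fun x => -(pd j f x) := fun j => funext fun x => by
    simp [pd, fderiv_const_sub]
  exact
    { smooth := contDiff_const.sub h.smooth
      mem := fun x => ⟨by linarith [(h.mem x).2], by linarith [(h.mem x).1]⟩
      first := fun x i => by rw [e i, abs_neg]; exact h.first x i
      second := fun x i j => by
        rw [e j]
        have : pd i (fun y => -(pd j f y)) x = -(pd i (pd j f) x) := by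
          simp only [pd, fderiv_fun_neg, neg_apply]
          rfl
        rw [this, abs_neg]; exact h.second x i j }

lemma Bd.mul {f g : Euc n → ℝ} {K L : ℝ} (hf : Bd f K) (hg : Bd g L) :
    Bd (fun x => f x * g x) (K + L) := by
  have df := (hf.smooth.of_le one_le_two).differentiable one_ne_zero
  have dg := (hg.smooth.of_le one_le_two).differentiable one_ne_zero
  have d2f := fun i => (contDiff_pd hf.smooth i).differentiable one_ne_zero
  have d2g := fun i => (contDiff_pd hg.smooth i).differentiable one_ne_zero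
  have e : ∀ j, pd j (fun x => f x * g x) = fun x => pd j f x * g x + f x * pd j g x :=
    fun j => funext fun x => pd_mul' (df x) (dg x) j
  have hu : ∀ {a b c : ℝ}, |a| ≤ c → 0 ≤ b ∧ b ≤ 1 → |a * b| ≤ c ∧ |b * a| ≤ c :=
    fun {a b c} ha hb => by
      have h1 : |a * b| ≤ c := by
        rw [abs_mul, abs_of_nonneg hb.1]
        exact (mul_le_of_le_one_right (abs_nonneg a) hb.2).trans ha
      exact ⟨h1, by rwa [mul_comm]⟩
  refine ⟨hf.smooth.mul hg.smooth, fun x => ⟨mul_nonneg (hf.mem x).1 (hg.mem x).1,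
    mul_le_one₀ (hf.mem x).2 (hg.mem x).1 (hg.mem x).2⟩, fun x i => ?_, fun x i j => ?_⟩
  · rw [e i]
    exact (abs_add_le _ _).trans
      (add_le_add (hu (hf.first x i) (hg.mem x)).1 (hu (hg.first x i) (hf.mem x)).2)
  · rw [e j, pd_add' ((d2f j x).fun_mul (dg x)) ((df x).fun_mul (d2g j x)),
      pd_mul' (d2f j x) (dg x), pd_mul' (df x) (d2g j x)]
    have hK : 0 ≤ K := (abs_nonneg _).trans (hf.first x i)
    have hL : 0 ≤ L := (abs_nonneg _).trans (hg.first x i)
    refine (abs_add_le _ _).trans ((add_le_add (abs_add_le _ _) (abs_add_le _ _)).trans ?_)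
    have a1 := (hu (hf.second x i j) (hg.mem x)).1
    have a2 := (hu (hg.second x i j) (hf.mem x)).2
    have a3 : |pd j f x * pd i g x| ≤ K * L := by
      rw [abs_mul]; exact mul_le_mul (hf.first x j) (hg.first x i) (abs_nonneg _) hK
    have a4 : |pd i f x * pd j g x| ≤ K * L := by
      rw [abs_mul]; exact mul_le_mul (hf.first x i) (hg.first x j) (abs_nonneg _) hK
    nlinarith

lemma Bd.prod {ι : Type*} (s : Finset ι) {f : ι → Euc n → ℝ} {K : ℝ} (h : ∀ k ∈ s, Bd (f k) K) :
    Bd (fun x => ∏ k ∈ s, f k x) (s.card * K) := by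
  classical
  induction s using Finset.induction_on with
  | empty => simpa using (Bd.one : Bd (fun _ : Euc n => (1 : ℝ)) 0)
  | insert a s ha ih =>
    have := (h a (Finset.mem_insert_self a s)).mul
      (ih fun k hk => h k (Finset.mem_insert_of_mem hk))
    simp only [Finset.prod_insert ha, Finset.card_insert_of_notMem ha]
    convert this using 2
    push_cast; ring

lemma exists_atom_bound : ∃ D : ℝ, 1 ≤ D ∧ (∀ y, |deriv Real.smoothTransition y| ≤ D) ∧
    ∀ y, |deriv (deriv Real.smoothTransition) y| ≤ D ^ 2 := by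
  obtain ⟨L, hL0, hL, hz⟩ := exists_deriv_bound
  have hc : Continuous (deriv (deriv Real.smoothTransition)) := by
    have h2 : ContDiff ℝ 1 (deriv Real.smoothTransition) :=
      (contDiff_succ_iff_deriv (n := 1)).1 (Real.smoothTransition.contDiff (n := (2 : ℕ))) |>.2.2
    exact h2.continuous_deriv le_rfl
  obtain ⟨M, hM⟩ := (isCompact_Icc (a := (0:ℝ)) (b := 1)).exists_bound_of_continuousOn
    hc.continuousOn
  refine ⟨1 + L + |M|, by linarith [abs_nonneg M], fun y => (hL y).trans (by
    linarith [abs_nonneg M]), fun y => ?_⟩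
  have hD : |M| ≤ (1 + L + |M|) ^ 2 := by nlinarith [abs_nonneg M]
  by_cases hy : y ∈ Icc (0:ℝ) 1
  · exact ((hM y hy).trans (le_abs_self M)).trans hD
  · have hev : deriv Real.smoothTransition =ᶠ[𝓝 y] fun _ => 0 := by
      filter_upwards [isClosed_Icc.isOpen_compl.mem_nhds hy] with z hz'
      by_contra hne
      exact hz' ⟨(hz z hne).1, (hz z hne).2⟩
    rw [hev.deriv_eq, deriv_const, abs_zero]; positivity

lemma bd_atom {D : ℝ} (hD : ∀ y, |deriv Real.smoothTransition y| ≤ D)
    (hD2 : ∀ y, |deriv (deriv Real.smoothTransition) y| ≤ D ^ 2) (k : Fin n) (c d : ℝ) :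
    Bd (fun x : Euc n => Real.smoothTransition (c * x k + d)) (D * |c|) := by
  have hD0 : 0 ≤ D := (abs_nonneg _).trans (hD 0)
  have hS : ∀ y, HasDerivAt Real.smoothTransition (deriv Real.smoothTransition y) y := fun y =>
    ((Real.smoothTransition.contDiff (n := 1)).differentiable one_ne_zero y).hasDerivAt
  have hS2 : ∀ y, HasDerivAt (deriv Real.smoothTransition)
      (deriv (deriv Real.smoothTransition) y) y := fun y => by
    have h2 : ContDiff ℝ 1 (deriv Real.smoothTransition) :=
      (contDiff_succ_iff_deriv (n := 1)).1 (Real.smoothTransition.contDiff (n := (2 : ℕ))) |>.2.2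
    exact (h2.differentiable one_ne_zero y).hasDerivAt
  have hlin : ∀ x : Euc n, DifferentiableAt ℝ (fun y : Euc n => c * y k + d) x := fun x => by
    fun_prop
  have hpl : ∀ (i : Fin n) (x : Euc n),
      pd i (fun y : Euc n => c * y k + d) x = if i = k then c else 0 := by
    intro i x
    have h := ((EuclideanSpace.proj (𝕜 := ℝ) k).hasFDerivAt (x := x)).const_mul c |>.add_const d
    simp only [pd]
    rw [show fderiv ℝ (fun y : Euc n => c * y k + d) x = c • EuclideanSpace.proj (𝕜 := ℝ) k from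
      h.fderiv]
    simp [ev, eq_comm]
  have hite : ∀ i : Fin n, |if i = k then c else (0:ℝ)| ≤ |c| := fun i => by
    split_ifs <;> simp
  have e : ∀ j, pd j (fun x : Euc n => Real.smoothTransition (c * x k + d))
      = fun x => (if j = k then c else 0) * deriv Real.smoothTransition (c * x k + d) :=
    fun j => funext fun x => by rw [pd_comp (hlin x) (hS _), hpl, mul_comm]
  refine ⟨Real.smoothTransition.contDiff.comp (by fun_prop), fun x =>
    ⟨Real.smoothTransition.nonneg _, Real.smoothTransition.le_one _⟩, fun x i => ?_, fun x i j => ?_⟩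
  · rw [e i, abs_mul, mul_comm D]
    exact mul_le_mul (hite i) (hD _) (abs_nonneg _) (abs_nonneg _)
  · have hd2 : DifferentiableAt ℝ
        (fun y : Euc n => deriv Real.smoothTransition (c * y k + d)) x :=
      (hS2 _).differentiableAt.comp x (hlin x)
    rw [e j, pd_const_mul _ hd2, pd_comp (hlin x) (hS2 _), hpl, abs_mul, abs_mul,
      show (D * |c|) ^ 2 = |c| * (D ^ 2 * |c|) by ring]
    exact mul_le_mul (hite j) (mul_le_mul (hD2 _) (hite i) (abs_nonneg _) (sq_nonneg _))
      (by positivity) (abs_nonneg _)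

lemma norm_fderiv_le_sum (f : Euc n → ℝ) (x : Euc n) : ‖fderiv ℝ f x‖ ≤ ∑ i, |pd i f x| := by
  refine ContinuousLinearMap.opNorm_le_bound _ (Finset.sum_nonneg fun i _ => abs_nonneg _)
    fun v => ?_
  have hv : v = ∑ i, v i • ev i := by
    conv_lhs => rw [← (EuclideanSpace.basisFun (Fin n) ℝ).sum_repr v]
    simp [ev, EuclideanSpace.basisFun_apply]
  conv_lhs => rw [hv, map_sum]
  refine (norm_sum_le _ _).trans ?_
  rw [Finset.sum_mul]
  refine Finset.sum_le_sum fun i _ => ?_
  rw [map_smul, norm_smul, mul_comm, Real.norm_eq_abs]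
  exact mul_le_mul_of_nonneg_left (PiLp.norm_apply_le v i) (abs_nonneg _)

theorem exists_shell_cutoff (n : ℕ) :
    ∃ C : ℝ, 1 ≤ C ∧ ∀ a b h : ℝ, 0 < h → h ≤ 1 → h < a → a ≤ b → b ≤ 4 →
      ∃ χ : Euc n → ℝ, ContDiff ℝ 2 χ ∧ HasCompactSupport χ ∧ (∀ y, 0 ≤ χ y ∧ χ y ≤ 1) ∧
        tsupport χ ⊆ shell (a - h) (b + h) ∧ (∀ y ∈ shell a b, χ y = 1) ∧
        ∀ y, ‖fderiv ℝ χ y‖ ≤ C / h ∧ |Δ χ y| ≤ (C / h) ^ 2 := by
  obtain ⟨D, hD1, hD, hD2⟩ := exists_atom_bound
  set C := 4 * ((n:ℝ) + 1) ^ 2 * D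
  refine ⟨C, ?_, fun a b h hh _ hha hab _ => ?_⟩
  · have h1 : (1:ℝ) ≤ ((n:ℝ) + 1) ^ 2 := by nlinarith [(Nat.cast_nonneg n : (0:ℝ) ≤ n)]
    nlinarith
  set φ : ℝ → Euc n → ℝ := fun o x => ∏ k, Real.smoothTransition (-(1 / h) * x k + o / h)
    * Real.smoothTransition (1 / h * x k + o / h)
  have hφ : ∀ o, Bd (φ o) (n * (2 * (D / h))) := fun o => by
    have := Bd.prod (Finset.univ : Finset (Fin n))
      (f := fun k (x : Euc n) => Real.smoothTransition (-(1 / h) * x k + o / h)
        * Real.smoothTransition (1 / h * x k + o / h)) (K := 2 * (D / h)) fun k _ => by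
      have := (bd_atom hD hD2 k (-(1 / h)) (o / h)).mul (bd_atom hD hD2 k (1 / h) (o / h))
      convert this using 2
      rw [abs_neg, abs_of_pos (by positivity)]
      ring
    simpa [φ] using this
  have hone : ∀ o x, (∀ k, |x k| ≤ o - h) → φ o x = 1 := fun o x hx =>
    Finset.prod_eq_one fun k _ => by
      obtain ⟨k1, k2⟩ := abs_le.1 (hx k)
      rw [Real.smoothTransition.one_of_one_le, Real.smoothTransition.one_of_one_le, one_mul] <;>
        field_simp <;> linarith
  have hzero : ∀ o x k, o ≤ |x k| → φ o x = 0 := fun o x k hx => by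
    refine Finset.prod_eq_zero (Finset.mem_univ k) ?_
    rcases le_abs.1 hx with h1 | h1
    · rw [Real.smoothTransition.zero_of_nonpos, zero_mul]; field_simp; linarith
    · rw [Real.smoothTransition.zero_of_nonpos (x := 1 / h * x k + o / h), mul_zero]
      field_simp; linarith
  have hχ := (hφ (b + h)).mul (hφ a).compl
  set χ := fun x => φ (b + h) x * (1 - φ a x)
  have hts : tsupport χ ⊆ shell (a - h) (b + h) := by
    refine closure_minimal (fun x hx => ?_) (isClosed_shell _ _)
    obtain ⟨h1, h2⟩ := mul_ne_zero_iff.1 hx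
    refine ⟨fun k => le_of_not_gt fun hk => h1 (hzero _ x k hk.le), ?_⟩
    by_contra hcon
    push Not at hcon
    exact h2 (by rw [hone a x fun k => (hcon k).le, sub_self])
  refine ⟨χ, hχ.smooth, (isCompact_shell _ _).of_isClosed_subset (isClosed_tsupport χ) hts,
    hχ.mem, hts, fun y hy => ?_, fun y => ?_⟩
  · obtain ⟨k, hk⟩ := hy.2
    simp only [χ]
    rw [hone _ y fun k => by linarith [hy.1 k], hzero a y k hk, sub_zero, one_mul]
  · set K := (n:ℝ) * (2 * (D / h)) + n * (2 * (D / h))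
    have hK : 0 ≤ K := by positivity
    have hCh : C / h = ((n:ℝ) + 1) ^ 2 * (4 * (D / h)) := by simp only [C]; ring
    have hnK : (n:ℝ) * K ≤ C / h := by
      rw [hCh, show (n:ℝ) * K = (n:ℝ) ^ 2 * (4 * (D / h)) by simp only [K]; ring]
      exact mul_le_mul_of_nonneg_right (by nlinarith [(Nat.cast_nonneg n : (0:ℝ) ≤ n)]) (by positivity)
    refine ⟨((norm_fderiv_le_sum χ y).trans (Finset.sum_le_card_nsmul _ _ K fun i _ =>
      hχ.first y i)).trans ?_, ?_⟩
    · simpa using hnK
    · rw [laplacian_eq_sum hχ.smooth.contDiffAt]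
      refine ((Finset.abs_sum_le_sum_abs _ _).trans (Finset.sum_le_card_nsmul _ _ (K ^ 2)
        fun i _ => hχ.second y i i)).trans ?_
      rcases Nat.eq_zero_or_pos n with h0 | h0
      · subst h0; simp only [Finset.univ_eq_empty, Finset.card_empty, zero_smul]; positivity
      · rw [Finset.card_univ, Fintype.card_fin, nsmul_eq_mul]
        calc (n:ℝ) * K ^ 2 ≤ ((n:ℝ) * K) ^ 2 := by
              rw [mul_pow]
              exact mul_le_mul_of_nonneg_right
                (le_self_pow₀ (by exact_mod_cast h0) two_ne_zero) (sq_nonneg K)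
          _ ≤ (C / h) ^ 2 := pow_le_pow_left₀ (by positivity) hnK 2

end Vale.Agent.P100C
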