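import Vale.Agent.P100C.Slice
import Vale.Agent.P100C.Geometry

/-!
P100 corner lemma: mixed norms on the slices `{x | x i = r}` of functions on `ℝ^(m+1)`, and the
slice bound for Riesz potentials in this form.
-/

open MeasureTheory Set Filter
open scoped ENNReal

noncomputable section

namespace Vale.Agent.P100C

open Vale.Agent.P100 (Euc)

variable {m : ℕ}

/-- The `L^k` norm on the slice `x i = r`. -/
def sn (i : Fin (m + 1)) (k : ℝ) (g : Euc (m + 1) → ℝ≥0∞) (r : ℝ) : ℝ≥0∞ :=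
  (∫⁻ z, g (ins i r z) ^ k) ^ (1 / k)

/-- The Riesz potential of order `n - s`. -/
def pot {n : ℕ} (s : ℝ) (g : Euc n → ℝ≥0∞) (x : Euc n) : ℝ≥0∞ :=
  ∫⁻ y, ENNReal.ofReal (‖x - y‖ ^ (-s)) * g y

lemma measurable_pot {n : ℕ} (s : ℝ) {g : Euc n → ℝ≥0∞} (hg : Measurable g) :
    Measurable (pot s g) :=
  Measurable.lintegral_prod_right'
    (f := fun p : Euc n × Euc n => ENNReal.ofReal (‖p.1 - p.2‖ ^ (-s)) * g p.2) (by fun_prop)

lemma measurable_uncurry_slice {g : Euc (m + 1) → ℝ≥0∞} (hg : Measurable g) (i : Fin (m + 1)) :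
    Measurable (Function.uncurry fun r z => g (ins i r z)) :=
  hg.comp (continuous_ins i).measurable

lemma measurable_slice {g : Euc (m + 1) → ℝ≥0∞} (hg : Measurable g) (i : Fin (m + 1)) (r : ℝ) :
    Measurable fun z => g (ins i r z) :=
  (measurable_uncurry_slice hg i).of_uncurry_left

lemma measurable_sn {g : Euc (m + 1) → ℝ≥0∞} (hg : Measurable g) (i : Fin (m + 1)) (k : ℝ) :
    Measurable fun r => sn i k g r :=
  (Measurable.lintegral_prod_right' (f := fun p : ℝ × Euc m => g (ins i p.1 p.2) ^ k)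
    ((measurable_uncurry_slice hg i).pow_const k)).pow_const _

lemma abs_le_norm_ins (i : Fin (m + 1)) (r : ℝ) (z : Euc m) :
    |r| ≤ ‖ins i r z‖ ∧ ‖z‖ ≤ ‖ins i r z‖ := by
  have h : ‖ins i r z‖ ^ 2 = r ^ 2 + ‖z‖ ^ 2 := by
    simp [EuclideanSpace.norm_sq_eq, Fin.sum_univ_succAbove _ i, sq_abs]
  have h2 : 0 ≤ ‖ins i r z‖ := norm_nonneg _
  exact ⟨abs_le_of_sq_le_sq (by nlinarith [sq_nonneg ‖z‖]) h2,
    (pow_le_pow_iff_left₀ (norm_nonneg z) h2 two_ne_zero).1 (by nlinarith [sq_nonneg r])⟩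

lemma riesz_ins_le {s : ℝ} (hs0 : 0 ≤ s) (i : Fin (m + 1)) (r t : ℝ) (z w : Euc m) :
    ‖ins i r z - ins i t w‖ ^ (-s) ≤ max |r - t| ‖z - w‖ ^ (-s) := by
  have h2 := norm_ins_sub_sq i r t z w
  have hn := norm_nonneg (ins i r z - ins i t w)
  have hle : max |r - t| ‖z - w‖ ≤ ‖ins i r z - ins i t w‖ :=
    max_le (abs_le_of_sq_le_sq (by nlinarith [sq_nonneg ‖z - w‖]) hn)
      ((pow_le_pow_iff_left₀ (norm_nonneg _) hn two_ne_zero).1 (by nlinarith [sq_nonneg (r - t)]))
  rcases (le_max_of_le_left (abs_nonneg (r - t)) : 0 ≤ max |r - t| ‖z - w‖).eq_or_lt' with h0 | h0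
  · have h1 : r - t = 0 := abs_nonpos_iff.1 ((le_max_left _ _).trans h0.le)
    have h3 : ‖z - w‖ = 0 := le_antisymm ((le_max_right _ _).trans h0.le) (norm_nonneg _)
    rw [h1, h3] at h2
    have : ‖ins i r z - ins i t w‖ = 0 := by simpa using h2
    rw [this, h0]
  · exact Real.rpow_le_rpow_of_nonpos h0 hle (neg_nonpos.2 hs0)

/-- The slice bound for potentials. -/
theorem sn_pot_bound (hm : 2 ≤ m) {k l s : ℝ} (hk : 1 ≤ k) (hl : 1 ≤ l) (hs0 : 0 ≤ s)
    (hs : s < 1 + m * (1 + 1 / k - 1 / l)) (hs1 : s < 1 + m) (D : ℝ) :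
    ∃ C : ℝ≥0∞, C ≠ ⊤ ∧ ∀ g : Euc (m + 1) → ℝ≥0∞, Measurable g → (∀ y, g y ≠ 0 → ‖y‖ ≤ D) →
      ∀ i, ∫⁻ r in Set.Icc (-D) D,
          sn i k (fun x => (Metric.closedBall 0 D).indicator (pot s g) x) r
        ≤ C * ∫⁻ t, sn i l g t := by
  obtain ⟨C, hC, hb⟩ := slice_bound hm hk hl hs0 hs hs1 D
  refine ⟨C, hC, fun g hg hsupp i => le_trans ?_ (hb (fun t w => g (ins i t w))
    (measurable_uncurry_slice hg i) fun t w h => ?_)⟩
  · refine setLIntegral_mono' measurableSet_Icc fun r _ =>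
      ENNReal.rpow_le_rpow ?_ (div_nonneg zero_le_one (zero_le_one.trans hk))
    rw [← lintegral_indicator measurableSet_closedBall]
    refine lintegral_mono fun z => ?_
    dsimp only
    by_cases hx : ins i r z ∈ Metric.closedBall (0 : Euc (m + 1)) D
    · have hz : z ∈ Metric.closedBall (0 : Euc m) D := by
        rw [mem_closedBall_zero_iff] at hx ⊢
        exact (abs_le_norm_ins i r z).2.trans hx
      rw [indicator_of_mem hx, indicator_of_mem hz]
      refine ENNReal.rpow_le_rpow ?_ (zero_le_one.trans hk)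
      rw [pot, lintegral_ins i (by fun_prop)]
      exact lintegral_mono fun t => lintegral_mono fun w =>
        mul_le_mul_left (ENNReal.ofReal_le_ofReal (riesz_ins_le hs0 i r t z w)) _
    · rw [indicator_of_notMem hx, ENNReal.zero_rpow_of_pos (zero_lt_one.trans_le hk)]
      exact zero_le
  · exact ⟨(abs_le_norm_ins i t w).1.trans (hsupp _ h), (abs_le_norm_ins i t w).2.trans (hsupp _ h)⟩

/-- Hölder across slices. -/
theorem sn_holder_bound {l : ℝ} (hl : 1 ≤ l) (D : ℝ) :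
    ∃ C : ℝ≥0∞, C ≠ ⊤ ∧ ∀ g : Euc (m + 1) → ℝ≥0∞, Measurable g → (∀ y, g y ≠ 0 → ‖y‖ ≤ D) →
      ∀ i, ∫⁻ t, sn i l g t ≤ C * (∫⁻ y, g y ^ l) ^ (1 / l) := by
  obtain ⟨C, hC, hb⟩ := slice_holder (m := m) hl D
  refine ⟨C, hC, fun g hg hsupp i => ?_⟩
  rw [lintegral_ins i (hg.pow_const l)]
  exact hb (fun t w => g (ins i t w)) (measurable_uncurry_slice hg i) fun t w h =>
    (abs_le_norm_ins i t w).1.trans (hsupp _ h)

lemma sn_mono {k : ℝ} (hk : 0 ≤ k) {i : Fin (m + 1)} {r : ℝ} {g h : Euc (m + 1) → ℝ≥0∞}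
    (hgh : ∀ z, g (ins i r z) ≤ h (ins i r z)) : sn i k g r ≤ sn i k h r :=
  ENNReal.rpow_le_rpow (lintegral_mono fun z => ENNReal.rpow_le_rpow (hgh z) hk)
    (div_nonneg zero_le_one hk)

lemma sn_add_le {k : ℝ} (hk : 1 ≤ k) (i : Fin (m + 1)) (r : ℝ) {g h : Euc (m + 1) → ℝ≥0∞}
    (hg : Measurable g) (hh : Measurable h) :
    sn i k (fun x => g x + h x) r ≤ sn i k g r + sn i k h r :=
  ENNReal.lintegral_Lp_add_le (measurable_slice hg i r).aemeasurable
    (measurable_slice hh i r).aemeasurable hk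

lemma sn_const_mul {k : ℝ} (hk : 0 < k) (i : Fin (m + 1)) (r : ℝ) {g : Euc (m + 1) → ℝ≥0∞}
    (hg : Measurable g) (c : ℝ≥0∞) : sn i k (fun x => c * g x) r = c * sn i k g r := by
  simp only [sn, ENNReal.mul_rpow_of_nonneg _ _ hk.le]
  rw [lintegral_const_mul _ ((measurable_slice hg i r).pow_const k),
    ENNReal.mul_rpow_of_nonneg _ _ (by positivity), ← ENNReal.rpow_mul,
    mul_one_div_cancel hk.ne', ENNReal.rpow_one]

/-- A constant on a ball has bounded slice norms. -/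
theorem sn_indicator_const_le {k : ℝ} (hk : 0 < k) (D : ℝ) :
    ∃ C : ℝ≥0∞, C ≠ ⊤ ∧ ∀ (c : ℝ≥0∞) (i : Fin (m + 1)) (r : ℝ),
      sn i k ((Metric.closedBall 0 D).indicator fun _ => c) r ≤ C * c := by
  refine ⟨volume (Metric.closedBall (0 : Euc m) D) ^ (1 / k),
    ENNReal.rpow_ne_top_of_nonneg (by positivity) measure_closedBall_lt_top.ne, fun c i r => ?_⟩
  calc sn i k ((Metric.closedBall 0 D).indicator fun _ => c) r
      ≤ (∫⁻ z in Metric.closedBall (0 : Euc m) D, c ^ k) ^ (1 / k) := by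
        refine ENNReal.rpow_le_rpow ?_ (by positivity)
        rw [← lintegral_indicator measurableSet_closedBall]
        refine lintegral_mono fun z => ?_
        by_cases hx : ins i r z ∈ Metric.closedBall (0 : Euc (m + 1)) D
        · have hz : z ∈ Metric.closedBall (0 : Euc m) D := by
            rw [mem_closedBall_zero_iff] at hx ⊢
            exact (abs_le_norm_ins i r z).2.trans hx
          rw [indicator_of_mem hx, indicator_of_mem hz]
        · rw [indicator_of_notMem hx, ENNReal.zero_rpow_of_pos hk]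
          exact zero_le
    _ = _ := by
        rw [setLIntegral_const, ENNReal.mul_rpow_of_nonneg _ _ (by positivity), ← ENNReal.rpow_mul,
          mul_one_div_cancel hk.ne', ENNReal.rpow_one, mul_comm]

/-- Real slice norms of a continuous function over a compact set are continuous. -/
lemma continuous_slice_norm {k : ℝ} (hk : 0 ≤ k) {F : Euc (m + 1) → ℝ} (hF : Continuous F)
    {K : Set (Euc m)} (hK : IsCompact K) (i : Fin (m + 1)) :
    Continuous fun r => (∫ z in K, F (ins i r z) ^ k) ^ (1 / k) :=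
  (continuous_parametric_integral_of_continuous (f := fun r z => F (ins i r z) ^ k)
    ((hF.comp (continuous_ins i)).rpow_const fun _ => Or.inr hk) hK).rpow_const
    fun _ => Or.inr (div_nonneg zero_le_one hk)

/-- They are dominated by the slice norms of any majorant. -/
lemma ofReal_slice_norm_le {k : ℝ} (hk : 0 ≤ k) {F : Euc (m + 1) → ℝ} (hF : Continuous F)
    (hF0 : ∀ x, 0 ≤ F x) {K : Set (Euc m)} (hK : IsCompact K) (i : Fin (m + 1)) (r : ℝ)
    {g : Euc (m + 1) → ℝ≥0∞} (hle : ∀ z ∈ K, ENNReal.ofReal (F (ins i r z)) ≤ g (ins i r z)) :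
    ENNReal.ofReal ((∫ z in K, F (ins i r z) ^ k) ^ (1 / k)) ≤ sn i k g r := by
  have hc : Continuous fun z => F (ins i r z) ^ k :=
    ((hF.comp (continuous_ins i)).comp (Continuous.prodMk_right r)).rpow_const fun _ => Or.inr hk
  have h0 : ∀ z, 0 ≤ F (ins i r z) ^ k := fun z => Real.rpow_nonneg (hF0 _) k
  rw [← ENNReal.ofReal_rpow_of_nonneg (integral_nonneg h0) (div_nonneg zero_le_one hk)]
  refine ENNReal.rpow_le_rpow ?_ (div_nonneg zero_le_one hk)
  rw [ofReal_integral_eq_lintegral_ofReal (hc.continuousOn.integrableOn_compact hK)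
    (Eventually.of_forall h0)]
  refine (setLIntegral_mono' hK.measurableSet fun z hz => ?_).trans (setLIntegral_le_lintegral _ _)
  rw [← ENNReal.ofReal_rpow_of_nonneg (hF0 _) hk]
  exact ENNReal.rpow_le_rpow (hle z hz) hk

end Vale.Agent.P100C
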