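import Mathlib

/-!
Scalar tools for the large exponent corner: hole filling, the radial weight with its antiderivative,
and the choice of Lebesgue exponents.
-/

open MeasureTheory Filter Topology
open scoped Interval

noncomputable section

namespace Vale.Agent.P100C

/-- hole filling -/
theorem hole_filling {C e b : ℝ} (hC : 0 ≤ C) (he : 0 ≤ e) (hb0 : 0 ≤ b) (hb : b < 1) :
    ∃ B : ℝ, ∀ f : ℝ → ℝ, MonotoneOn f (Set.Icc 1 2) → 0 ≤ f 1 →
      (∀ ρ ∈ Set.Ico (1 : ℝ) 2,
        1 + f ρ ≤ C * ((2 - ρ) / 2) ^ (-e) * (1 + f (ρ + (2 - ρ) / 2)) ^ b) →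
      f 1 ≤ B := by
  set E := e / (1 - b) with hE
  have h1b : 0 < 1 - b := by linarith
  have hE0 : 0 ≤ E := div_nonneg he h1b.le
  set C' := C * 2 ^ e * (2 ^ E) ^ b with hC'
  have hC'0 : 0 ≤ C' := by positivity
  refine ⟨C' ^ (1 / (1 - b)), fun f hmono hf0 hrec => ?_⟩
  have hpos : ∀ ρ ∈ Set.Icc (1 : ℝ) 2, 1 ≤ 1 + f ρ := fun ρ hρ => by
    have := hmono ⟨le_rfl, by norm_num⟩ hρ hρ.1
    linarith
  set S := (fun ρ => (2 - ρ) ^ E * (1 + f ρ)) '' Set.Ico (1 : ℝ) 2 with hS
  have hbdd : BddAbove S := by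
    refine ⟨1 + f 2, ?_⟩
    rintro _ ⟨ρ, hρ, rfl⟩
    have h2 := hmono ⟨hρ.1, hρ.2.le⟩ ⟨by norm_num, le_rfl⟩ hρ.2.le
    have h3 := hpos ρ ⟨hρ.1, hρ.2.le⟩
    have h4 : (2 - ρ) ^ E ≤ 1 :=
      Real.rpow_le_one (by linarith [hρ.2]) (by linarith [hρ.1]) hE0
    calc (2 - ρ) ^ E * (1 + f ρ) ≤ 1 * (1 + f ρ) :=
          mul_le_mul_of_nonneg_right h4 (by linarith)
      _ ≤ 1 + f 2 := by linarith
  set M := sSup S with hM
  have hone : (1 : ℝ) + f 1 ≤ M := by
    refine le_csSup hbdd ⟨1, ⟨le_rfl, one_lt_two⟩, ?_⟩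
    norm_num
  have hM1 : 1 ≤ M := by linarith
  have hkey : ∀ x ∈ S, x ≤ C' * M ^ b := by
    rintro _ ⟨ρ, hρ, rfl⟩
    set φ := 2 - ρ with hφ
    have hφ0 : 0 < φ := by linarith [hρ.2]
    have hρ' : ρ + φ / 2 ∈ Set.Ico (1 : ℝ) 2 := ⟨by linarith [hρ.1], by linarith⟩
    have hnext : 1 + f (ρ + φ / 2) ≤ M * (φ / 2) ^ (-E) := by
      have := le_csSup hbdd ⟨ρ + φ / 2, hρ', rfl⟩
      rw [Real.rpow_neg (by linarith), ← div_eq_mul_inv, le_div_iff₀ (by positivity), mul_comm]
      convert this using 3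
      linarith
    have hp' := hpos _ ⟨hρ'.1, hρ'.2.le⟩
    calc φ ^ E * (1 + f ρ) ≤ φ ^ E * (C * (φ / 2) ^ (-e) * (M * (φ / 2) ^ (-E)) ^ b) := by
          refine mul_le_mul_of_nonneg_left ((hrec ρ hρ).trans ?_) (by positivity)
          exact mul_le_mul_of_nonneg_left (Real.rpow_le_rpow (by linarith) hnext hb0)
            (by positivity)
      _ = C' * M ^ b * (φ ^ E * φ ^ (-e) * (φ ^ (-E)) ^ b) := by
          rw [Real.div_rpow hφ0.le (by norm_num), Real.div_rpow hφ0.le (by norm_num),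
            Real.mul_rpow (by linarith) (by positivity),
            Real.div_rpow (by positivity) (by positivity), hC',
            Real.rpow_neg (by norm_num : (0:ℝ) ≤ 2), Real.rpow_neg (by norm_num : (0:ℝ) ≤ 2),
            Real.inv_rpow (by positivity)]
          field_simp
      _ = C' * M ^ b := by
          rw [← Real.rpow_mul hφ0.le, ← Real.rpow_add hφ0, ← Real.rpow_add hφ0]
          have : E + -e + -E * b = 0 := by rw [hE]; field_simp; ring
          rw [this, Real.rpow_zero, mul_one]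
  have hMb : M ≤ C' * M ^ b :=
    csSup_le ⟨_, ⟨1, ⟨le_rfl, one_lt_two⟩, rfl⟩⟩ hkey
  have hM0 : 0 < M := by linarith
  have h2 : M ^ (1 - b) ≤ C' := by
    rw [Real.rpow_sub hM0, Real.rpow_one, div_le_iff₀ (Real.rpow_pos_of_pos hM0 _)]
    exact hMb
  have h3 := Real.rpow_le_rpow (by positivity) h2 (show (0:ℝ) ≤ 1 / (1 - b) by positivity)
  rw [← Real.rpow_mul hM0.le, mul_one_div_cancel h1b.ne', Real.rpow_one] at h3
  linarith

/-- the clipped bump on `[ρ, ρ']` -/
def bump (ρ ρ' r : ℝ) : ℝ := max 0 ((r - ρ) * (ρ' - r))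

lemma bump_nonneg (ρ ρ' r : ℝ) : 0 ≤ bump ρ ρ' r := le_max_left _ _

lemma continuous_bump (ρ ρ' : ℝ) : Continuous (bump ρ ρ') := by
  unfold bump; fun_prop

lemma bump_eq_zero {ρ ρ' r : ℝ} (h : ρ ≤ ρ') (hr : r ≤ ρ ∨ ρ' ≤ r) : bump ρ ρ' r = 0 := by
  apply max_eq_left
  rcases hr with hr | hr
  · exact mul_nonpos_of_nonpos_of_nonneg (by linarith) (by linarith)
  · exact mul_nonpos_of_nonneg_of_nonpos (by linarith) (by linarith)

/-- A continuous probability weight on `[ρ, ρ']` damped by a given nonnegative density,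
with its cut-off. -/
theorem exists_weight {ρ ρ' M : ℝ} (hρ : 0 < ρ) (hlt : ρ < ρ') (hd : ρ' - ρ ≤ 1) (hM : 0 ≤ M)
    (K : ℕ) {S : ℝ → ℝ} (hS : Continuous S) (hS0 : ∀ r, 0 ≤ S r)
    (hSi : (∫ r in ρ..ρ', S r) ≤ M) :
    ∃ w χ : ℝ → ℝ, Continuous w ∧ (∀ r, 0 ≤ w r) ∧ (∀ r, r ∉ Set.Ioo ρ ρ' → w r = 0) ∧
      (∀ r, w r * (1 + S r) ^ K ≤ (1 + M) ^ K * (6 / (ρ' - ρ) ^ 3) ^ (K + 1)) ∧
      ContDiff ℝ 1 χ ∧ (∀ s, 0 ≤ χ s ∧ χ s ≤ 1) ∧ (∀ s, |s| ≤ ρ → χ s = 1) ∧
      (∀ s, ρ' ≤ |s| → χ s = 0) ∧ ∀ s, |deriv χ s| ≤ w |s| := by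
  set g : ℝ → ℝ := fun r => bump ρ ρ' r / (1 + S r) ^ K with hg
  have hgc : Continuous g := (continuous_bump ρ ρ').div ((continuous_const.add hS).pow K)
    fun r => (pow_pos (by linarith [hS0 r]) K).ne'
  have hg0 : ∀ r, 0 ≤ g r := fun r => div_nonneg (bump_nonneg _ _ _)
    (pow_nonneg (by linarith [hS0 r]) K)
  have hgz : ∀ r, r ∉ Set.Ioo ρ ρ' → g r = 0 := fun r hr => by
    rw [Set.mem_Ioo, not_and_or, not_lt, not_lt] at hr
    simp [hg, bump_eq_zero hlt.le hr]
  set Δ := ρ' - ρ with hΔ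
  have hΔ0 : 0 < Δ := by linarith
  set Z := ∫ r in ρ..ρ', g r with hZ
  -- lower bound on the mass
  have hib : IntervalIntegrable (bump ρ ρ') volume ρ ρ' :=
    (continuous_bump ρ ρ').intervalIntegrable _ _
  have hbump : ∫ r in ρ..ρ', bump ρ ρ' r = Δ ^ 3 / 6 := by
    have e : Set.EqOn (bump ρ ρ') (fun r => (r - ρ) * (ρ' - r)) (Set.uIcc ρ ρ') := fun r hr => by
      rw [Set.uIcc_of_le hlt.le] at hr
      exact max_eq_right (mul_nonneg (by linarith [hr.1]) (by linarith [hr.2]))
    rw [intervalIntegral.integral_congr e]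
    have he : ∀ r ∈ Set.uIcc ρ ρ', HasDerivAt
        (fun r => Δ * (r - ρ) ^ 2 / 2 - (r - ρ) ^ 3 / 3) ((r - ρ) * (ρ' - r)) r := by
      intro r _
      refine ((((hasDerivAt_id r).sub_const ρ).pow 2).const_mul Δ |>.div_const 2).fun_sub
        ((((hasDerivAt_id r).sub_const ρ).pow 3).div_const 3) |>.congr_deriv ?_
      simp [hΔ]; ring
    rw [intervalIntegral.integral_eq_sub_of_hasDerivAt he
      ((by fun_prop : Continuous fun r : ℝ => (r - ρ) * (ρ' - r)).intervalIntegrable _ _)]
    simp [hΔ]; ring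
  set L := 6 / Δ ^ 3 * (1 + M) with hL
  have hL0 : 0 < L := by positivity
  -- `bump ≤ g * L ^ K + bump * (1 + S) / L`
  have hpt : ∀ r ∈ Set.Icc ρ ρ', bump ρ ρ' r ≤ L ^ K * g r + (1 / (2 * L)) * (1 + S r) := by
    intro r hr
    have h0 := hS0 r
    have hb1 : bump ρ ρ' r ≤ 1 / 2 := by
      refine max_le (by norm_num) ?_
      nlinarith [hr.1, hr.2, sq_nonneg (r - ρ - (ρ' - r))]
    by_cases hle : 1 + S r ≤ L
    · have : bump ρ ρ' r ≤ L ^ K * g r := by
        rw [hg]; simp only
        rw [mul_div_assoc', le_div_iff₀ (by positivity), mul_comm]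
        exact mul_le_mul_of_nonneg_right (pow_le_pow_left₀ (by linarith) hle K) (bump_nonneg _ _ _)
      have : 0 ≤ 1 / (2 * L) * (1 + S r) := by positivity
      linarith
    · rw [not_le] at hle
      have : 1 / 2 ≤ 1 / (2 * L) * (1 + S r) := by
        rw [div_mul_eq_mul_div, one_mul, le_div_iff₀ (by positivity)]; linarith
      have := mul_nonneg (pow_nonneg hL0.le K) (hg0 r)
      linarith
  have hgi : IntervalIntegrable g volume ρ ρ' := hgc.intervalIntegrable _ _
  have hSi' : IntervalIntegrable (fun r => 1 + S r) volume ρ ρ' :=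
    (continuous_const.add hS).intervalIntegrable _ _
  have hZlow : Δ ^ 3 / 12 ≤ L ^ K * Z := by
    have := intervalIntegral.integral_mono_on hlt.le hib
      ((hgi.const_mul _).add (hSi'.const_mul _)) hpt
    rw [intervalIntegral.integral_add (hgi.const_mul _) (hSi'.const_mul _),
      intervalIntegral.integral_const_mul, intervalIntegral.integral_const_mul,
      intervalIntegral.integral_add intervalIntegrable_const (hS.intervalIntegrable _ _),
      intervalIntegral.integral_const, hbump] at this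
    simp only [smul_eq_mul, mul_one] at this
    have h2 : 1 / (2 * L) * (Δ + ∫ r in ρ..ρ', S r) ≤ Δ ^ 3 / 12 := by
      calc 1 / (2 * L) * (Δ + ∫ r in ρ..ρ', S r) ≤ 1 / (2 * L) * (1 + M) :=
            mul_le_mul_of_nonneg_left (by linarith) (by positivity)
        _ = _ := by rw [hL]; field_simp; ring
    rw [← hΔ] at this
    linarith
  have hZ0 : 0 < Z := pos_of_mul_pos_right ((by positivity : (0:ℝ) < Δ ^ 3 / 12).trans_le hZlow)
    (by positivity)
  set w : ℝ → ℝ := fun r => g r / Z with hw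
  have hwc : Continuous w := hgc.div_const Z
  set G : ℝ → ℝ := fun s => 1 - ∫ r in ρ..s, w r with hG
  have hGd : ∀ s, HasDerivAt G (-(w s)) s := fun s =>
    (intervalIntegral.integral_hasDerivAt_right (hwc.intervalIntegrable _ _)
      (hwc.stronglyMeasurableAtFilter _ _) hwc.continuousAt).const_sub 1
  have hw0 : ∀ r, 0 ≤ w r := fun r => div_nonneg (hg0 r) hZ0.le
  have hwz : ∀ r, r ∉ Set.Ioo ρ ρ' → w r = 0 := fun r hr => by simp [hw, hgz r hr]
  have hGanti : Antitone G := antitone_of_hasDerivAt_nonpos hGd fun s => by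
    have := hw0 s
    simp only [Pi.zero_apply]
    linarith
  have hGlo : ∀ s, s ≤ ρ → G s = 1 := fun s hs => by
    have : ∫ r in ρ..s, w r = 0 := by
      have e : Set.EqOn w (fun _ => (0:ℝ)) (Set.uIcc ρ s) := fun r hr => by
        rw [Set.uIcc_of_ge hs] at hr
        exact hwz r fun h => by linarith [h.1, hr.2]
      rw [intervalIntegral.integral_congr e]
      simp
    simp [hG, this]
  have hGhi : ∀ s, ρ' ≤ s → G s = 0 := fun s hs => by
    have h1 : ∫ r in ρ..ρ', w r = 1 := by
      simp only [hw]; rw [intervalIntegral.integral_div, ← hZ, div_self hZ0.ne']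
    have h2 : ∫ r in ρ'..s, w r = 0 := by
      have e : Set.EqOn w (fun _ => (0:ℝ)) (Set.uIcc ρ' s) := fun r hr => by
        rw [Set.uIcc_of_le hs] at hr
        exact hwz r fun h => by linarith [h.2, hr.1]
      rw [intervalIntegral.integral_congr e]
      simp
    have h3 := intervalIntegral.integral_add_adjacent_intervals
      (hwc.intervalIntegrable ρ ρ' (μ := volume)) (hwc.intervalIntegrable ρ' s)
    simp only [hG]; linarith
  have hG01 : ∀ s, 0 ≤ G s ∧ G s ≤ 1 := fun s => by
    constructor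
    · have := hGanti (le_max_left s ρ'); rw [hGhi _ (le_max_right _ _)] at this; exact this
    · have := hGanti (min_le_left s ρ); rw [hGlo _ (min_le_right _ _)] at this; exact this
  set χ : ℝ → ℝ := fun s => G s + G (-s) - 1 with hχ
  have hχd : ∀ s, HasDerivAt χ (-(w s) + w (-s)) s := fun s => by
    refine (((hGd s).fun_add ((hGd (-s)).comp s (hasDerivAt_neg s))).sub_const 1).congr_deriv ?_
    ring
  have hχpos : ∀ s, 0 ≤ s → χ s = G s := fun s hs => by
    have := hGlo (-s) (by linarith); simp [hχ, this]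
  have hχneg : ∀ s, s ≤ 0 → χ s = G (-s) := fun s hs => by
    have := hGlo s (by linarith); simp [hχ, this]
  have hχabs : ∀ s, χ s = G |s| := fun s => by
    rcases le_total 0 s with h | h
    · rw [abs_of_nonneg h, hχpos s h]
    · rw [abs_of_nonpos h, hχneg s h]
  refine ⟨w, χ, hwc, hw0, hwz, fun r => ?_, ?_, fun s => by rw [hχabs]; exact hG01 _,
    fun s hs => by rw [hχabs]; exact hGlo _ hs, fun s hs => by rw [hχabs]; exact hGhi _ hs,
    fun s => ?_⟩
  · have hq : 0 < (1 + S r) ^ K := pow_pos (by linarith [hS0 r]) K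
    have hb1 : bump ρ ρ' r ≤ 1 / 2 := by
      refine max_le (by norm_num) ?_
      nlinarith [sq_nonneg (r - ρ - (ρ' - r)), mul_le_mul hd hd hΔ0.le zero_le_one]
    calc w r * (1 + S r) ^ K = bump ρ ρ' r / Z := by
          simp only [hw, hg]; field_simp
      _ ≤ (1 / 2) / Z := div_le_div_of_nonneg_right hb1 hZ0.le
      _ ≤ (1 + M) ^ K * (6 / Δ ^ 3) ^ (K + 1) := by
          rw [div_le_iff₀ hZ0]
          calc (1 / 2 : ℝ) = 6 / Δ ^ 3 * (Δ ^ 3 / 12) := by field_simp; ring
            _ ≤ 6 / Δ ^ 3 * (L ^ K * Z) := mul_le_mul_of_nonneg_left hZlow (by positivity)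
            _ = _ := by rw [hL, mul_pow, pow_succ]; ring
  · rw [contDiff_one_iff_deriv]
    refine ⟨fun s => (hχd s).differentiableAt, ?_⟩
    rw [funext fun s => (hχd s).deriv]
    fun_prop
  · rw [(hχd s).deriv]
    rcases le_total 0 s with h | h
    · have : w (-s) = 0 := hwz _ fun hh => by linarith [hh.1]
      rw [this, abs_of_nonneg h, add_zero, abs_neg, abs_of_nonneg (hw0 s)]
    · have : w s = 0 := hwz _ fun hh => by linarith [hh.1]
      rw [this, abs_of_nonpos h, neg_zero, zero_add, abs_of_nonneg (hw0 _)]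

/-- The Lebesgue exponents used on slices. -/
structure Expo (m p q : ℝ) where
  k0 : ℝ
  k1 : ℝ
  a : ℝ
  a' : ℝ
  A : ℝ
  B : ℝ
  k0_ge : 1 ≤ k0
  k1_ge : 1 ≤ k1
  a_ge : 1 ≤ a
  a'_ge : 1 ≤ a'
  A_nonneg : 0 ≤ A
  B_nonneg : 0 ≤ B
  sum_eq : A + B = q + 1
  holder : A / k0 + B / k1 = 1
  conj : a.HolderConjugate a'
  k0_cond : 1 - 2 / m < 1 / k0
  k1_cond : p / (p + 1) - 2 / m < 1 / k1
  a_cond : p / (p + 1) - 1 / m < 1 / a
  a'_cond : q / k0 - 1 / m < 1 / a'
  B_cond : B * (p / (p + 1)) < 1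

theorem exists_expo {m p q : ℝ} (hm : 4 ≤ m) (hq : 0 < q) (hq1 : q ≤ 1)
    (hpq : 1 < p * q) (h : (p + 1) * (q * (m - 2) - 2) < m) :
    Nonempty (Expo m p q) := by
  have hp1 : 1 < p := by
    by_contra hh
    rw [not_lt] at hh
    have := mul_le_mul hh hq1 hq.le zero_le_one
    linarith
  have hp : 0 < p + 1 := by linarith
  set l := p / (p + 1) with hl
  have hl1 : l < 1 := (div_lt_one hp).2 (by linarith)
  have hl12 : 1 / 2 < l := by rw [hl, div_lt_div_iff₀ two_pos hp]; linarith
  have hm0 : 0 < m := by linarith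
  have hm1 : 0 < 1 / m := by positivity
  have hm4 : 1 / m ≤ 1 / 4 := one_div_le_one_div_of_le (by norm_num) hm
  -- the conjugate pair, from the strict gap
  have hpair : ∀ c : ℝ, 0 ≤ c → c ≤ 1 → (l - 1 / m) + (c - 1 / m) < 1 →
      ∃ a a' : ℝ, a.HolderConjugate a' ∧ 1 ≤ a ∧ 1 ≤ a' ∧ l - 1 / m < 1 / a ∧ c - 1 / m < 1 / a' := by
    intro c hc0 hc1 hgap
    set lo := max (l - 1 / m) 0
    set hi := min (1 - (c - 1 / m)) 1
    have hlt : lo < hi := max_lt (lt_min (by linarith) (by linarith)) (lt_min (by linarith) one_pos)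
    set x := (lo + hi) / 2 with hx
    have hx0 : 0 < x := by linarith [le_max_right (l - 1 / m) 0]
    have hx1 : x < 1 := by linarith [min_le_right (1 - (c - 1 / m)) 1]
    have hxa : l - 1 / m < x := by linarith [le_max_left (l - 1 / m) 0]
    have hxb : c - 1 / m < 1 - x := by linarith [min_le_left (1 - (c - 1 / m)) 1]
    have h1x : 0 < 1 - x := by linarith
    refine ⟨1 / x, 1 / (1 - x), ?_, ?_, ?_, by rwa [one_div_one_div], by rwa [one_div_one_div]⟩
    · rw [Real.holderConjugate_iff]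
      exact ⟨(one_lt_div hx0).2 hx1, by simp⟩
    · exact ((one_lt_div hx0).2 hx1).le
    · exact ((one_lt_div h1x).2 (by linarith)).le
  rcases lt_or_ge (q * (m - 2)) 2 with hcase | hcase
  · have hk : 1 - 2 / m < 1 / (q + 1) := by
      rw [one_sub_div hm0.ne', div_lt_div_iff₀ hm0 (by linarith)]; linarith
    have hqk : q / (q + 1) < 2 / m := by
      have : q / (q + 1) = 1 - 1 / (q + 1) := by field_simp; ring
      linarith
    obtain ⟨a, a', hc, ha, ha', h1, h2⟩ := hpair (q / (q + 1)) (by positivity)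
      ((div_le_one (by linarith)).2 (by linarith))
      (by linarith [(show 2 / m = 2 * (1 / m) by ring)])
    exact ⟨{ k0 := q + 1, k1 := q + 1, a := a, a' := a', A := q + 1, B := 0
             k0_ge := by linarith, k1_ge := by linarith, a_ge := ha, a'_ge := ha'
             A_nonneg := by linarith, B_nonneg := le_rfl, sum_eq := by ring
             holder := by field_simp; ring
             conj := hc, k0_cond := hk
             k1_cond := by linarith
             a_cond := h1, a'_cond := h2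
             B_cond := by simp }⟩
  · set X := q * (m - 2) - 2 with hX
    have hX0 : 0 ≤ X := by linarith
    set δ := m / (p + 1) - X with hδ
    have hδ0 : 0 < δ := by
      have : X < m / (p + 1) := by rw [lt_div_iff₀ hp]; linarith
      linarith
    set ε := min (1 / m) (min (1 / (2 * (p + 1) ^ 2 * (q + 1))) (δ / (2 * m))) with hε
    have he1 : ε ≤ 1 / m := min_le_left _ _
    have he2 : ε ≤ 1 / (2 * (p + 1) ^ 2 * (q + 1)) := (min_le_right _ _).trans (min_le_left _ _)
    have he3 : ε ≤ δ / (2 * m) := (min_le_right _ _).trans (min_le_right _ _)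
    have he0 : 0 < ε := lt_min hm1 (lt_min (by positivity) (by positivity))
    have h2m : 2 / m = 2 * (1 / m) := by ring
    set y0 := 1 - 2 / m + ε with hy0
    set y1 := l - 2 / m + ε with hy1
    have hy0p : 0 < y0 := by linarith
    have hy1p : 0 < y1 := by linarith
    set B := ((q + 1) * y0 - 1) * (p + 1) with hB
    have hB0 : 0 ≤ B := by
      refine mul_nonneg ?_ hp.le
      have : (q + 1) * (1 - 2 / m) - 1 = X / m := by rw [hX]; field_simp; ring
      have := mul_nonneg (by linarith : (0:ℝ) ≤ q + 1) he0.le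
      have := div_nonneg hX0 hm0.le
      linarith [(show (q + 1) * y0 = (q + 1) * (1 - 2 / m) + (q + 1) * ε by rw [hy0]; ring)]
    have hBl : B * l < 1 := by
      have e : B * l = p * X / m + p * (q + 1) * ε := by
        rw [hB, hy0, hl, hX]; field_simp; ring
      have h1 : p * X / m ≤ l := by
        rw [hl, div_le_div_iff₀ hm0 hp]
        have := mul_le_mul_of_nonneg_left h.le (by linarith : (0:ℝ) ≤ p)
        linarith [show p * X * (p + 1) = p * ((p + 1) * X) by ring]
      have h2 : p * (q + 1) * ε < 1 / (p + 1) := by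
        calc p * (q + 1) * ε ≤ p * (q + 1) * (1 / (2 * (p + 1) ^ 2 * (q + 1))) :=
              mul_le_mul_of_nonneg_left he2 (by positivity)
          _ = p / (p + 1) * (1 / (2 * (p + 1))) := by field_simp
          _ < 1 * (1 / (p + 1)) := by
              refine mul_lt_mul hl1 ?_ (by positivity) zero_le_one
              exact one_div_le_one_div_of_le hp (by linarith)
          _ = 1 / (p + 1) := one_mul _
      have : l + 1 / (p + 1) = 1 := by rw [hl]; field_simp
      linarith
    have hBq : B ≤ q + 1 := by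
      have h1 : B < (p + 1) / p := by
        rw [lt_div_iff₀ (by linarith)]
        rw [hl, mul_div_assoc', div_lt_one hp] at hBl
        exact hBl
      have : (p + 1) / p ≤ q + 1 := by rw [div_le_iff₀ (by linarith)]; linarith
      linarith
    have hq0 : q * y0 ≤ 1 := by
      have h1 := mul_le_mul hq1 (show y0 ≤ 1 by linarith) hy0p.le zero_le_one
      linarith
    obtain ⟨a, a', hc, ha, ha', h1, h2⟩ := hpair (q * y0) (by positivity) hq0 (by
      have e : q * (1 - 2 / m) = (X + 2) / m := by rw [hX]; field_simp; ring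
      have : q * ε ≤ δ / (2 * m) := le_trans (mul_le_of_le_one_left he0.le hq1) he3
      have e2 : (X + 2) / m + δ / (2 * m) + l = (X + δ + X) / (2 * m) + 2 / m + (1 - 1 / (p+1)) + (δ - δ) := by
        rw [hl]; field_simp; ring
      have e3 : (X + δ) / m = 1 / (p + 1) := by rw [hδ]; field_simp; ring
      have e4 : (X + δ + X) / (2 * m) = (X + δ) / m - δ / (2 * m) := by field_simp; ring
      have : 0 < δ / (2 * m) := by positivity
      linarith [show q * y0 = q * (1 - 2 / m) + q * ε by rw [hy0]; ring])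
    exact ⟨{ k0 := 1 / y0, k1 := 1 / y1, a := a, a' := a', A := q + 1 - B, B := B
             k0_ge := by rw [le_div_iff₀ hy0p]; linarith
             k1_ge := by rw [le_div_iff₀ hy1p]; linarith
             a_ge := ha, a'_ge := ha'
             A_nonneg := by linarith, B_nonneg := hB0, sum_eq := by ring
             holder := by
               rw [div_div_eq_mul_div, div_div_eq_mul_div, div_one, div_one, hB, hy1, hy0, hl]
               field_simp
               ring
             conj := hc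
             k0_cond := by rw [one_div_one_div]; linarith
             k1_cond := by rw [one_div_one_div, ← hl]; linarith
             a_cond := h1
             a'_cond := by rwa [div_div_eq_mul_div, div_one]
             B_cond := hBl }⟩

end Vale.Agent.P100C
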