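import Vale.Agent.P100C.Potential
import Vale.Agent.P100C.Pohozaev
import Vale.Agent.P100C.Apriori
import Vale.Agent.P100C.SliceNorm
import Vale.Agent.P100C.Tools
import Vale.Agent.P100C.Scale

/-!
The large exponent corner of the Lane-Emden conjecture.
-/

open MeasureTheory Filter Topology Laplacian Set
open scoped ContDiff ENNReal

noncomputable section

namespace Vale.Agent.P100C

open Vale.Agent.P100 Vale.Agent.P100T

section Basics

variable {n : ℕ}

lemma abs_apply_le_norm (x : Euc n) (i : Fin n) : |x i| ≤ ‖x‖ := by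
  simpa [Real.norm_eq_abs] using PiLp.norm_apply_le x i

lemma shell_le_norm {a b : ℝ} {x : Euc n} (hx : x ∈ shell a b) : a ≤ ‖x‖ := by
  obtain ⟨i, hi⟩ := hx.2
  exact hi.trans (abs_apply_le_norm x i)

lemma cube_norm_le {b : ℝ} (hb0 : 0 ≤ b) (hb : b ≤ 4) {x : Euc n} (hx : x ∈ cube b) :
    ‖x‖ ≤ 4 * n := by
  have h1 : ‖x‖ ≤ Real.sqrt n * b := by simpa using cube_subset_closedBall b hx
  have h2 : Real.sqrt n ≤ n := by
    rcases Nat.eq_zero_or_pos n with h | h
    · simp [h]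
    · rw [Real.sqrt_le_left (by positivity)]
      have : (1:ℝ) ≤ n := by exact_mod_cast h
      nlinarith
  calc ‖x‖ ≤ Real.sqrt n * b := h1
    _ ≤ n * 4 := mul_le_mul h2 hb hb0 (by positivity)
    _ = 4 * n := by ring

/-- The global replacement of a component. -/
def ext (u : Euc n → ℝ) : Euc n → ℝ := glue (1 / 4) u

lemma ext_eventually {u : Euc n → ℝ} {x : Euc n} (hx : 1 / 4 < ‖x‖) : ext u =ᶠ[𝓝 x] u := by
  filter_upwards [(isOpen_lt continuous_const continuous_norm).mem_nhds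
    (show 3 / 4 * (1 / 4 : ℝ) < ‖x‖ by linarith)] with y hy
  exact glue_eq (by norm_num) u (le_of_lt hy)

lemma ext_pos {u : Euc n → ℝ} (hu : ∀ x, 0 < u x) (x : Euc n) : 0 < ext u x := glue_pos hu x

lemma contDiff_ext {u : Euc n → ℝ} (hu : ContDiffOn ℝ 2 u {x | x ≠ 0}) : ContDiff ℝ 2 (ext u) :=
  contDiff_glue (by norm_num) hu

lemma ext_eq {u : Euc n → ℝ} {x : Euc n} (hx : 1 / 4 < ‖x‖) : ext u x = u x :=
  (ext_eventually hx).eq_of_nhds

lemma fderiv_ext {u : Euc n → ℝ} {x : Euc n} (hx : 1 / 4 < ‖x‖) :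
    fderiv ℝ (ext u) x = fderiv ℝ u x :=
  (ext_eventually hx).fderiv_eq

lemma laplacian_ext {u : Euc n → ℝ} {x : Euc n} (hx : 1 / 4 < ‖x‖) :
    Δ (ext u) x = Δ u x :=
  (InnerProductSpace.laplacian_congr_nhds (ext_eventually hx)).eq_of_nhds

/-- value plus size of the gradient -/
def jet (f : Euc n → ℝ) (x : Euc n) : ℝ := f x + ‖fderiv ℝ f x‖

lemma continuous_jet {f : Euc n → ℝ} (hf : ContDiff ℝ 2 f) : Continuous (jet f) :=
  hf.continuous.add (hf.continuous_fderiv (by norm_num)).norm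

lemma jet_nonneg {f : Euc n → ℝ} (hf : ∀ x, 0 ≤ f x) (x : Euc n) : 0 ≤ jet f x :=
  add_nonneg (hf x) (norm_nonneg _)

lemma ofReal_setIntegral_le {f : Euc n → ℝ} {s : Set (Euc n)} (hf : ∀ x, 0 ≤ f x) :
    ENNReal.ofReal (∫ x in s, f x) ≤ ∫⁻ x in s, ENNReal.ofReal (f x) := by
  by_cases h : Integrable f (volume.restrict s)
  · rw [ofReal_integral_eq_lintegral_ofReal h (Eventually.of_forall hf)]
  · simp [integral_undef h]

lemma inv_pow_eq_rpow (a : ℝ) (ha : 0 ≤ a) (j : ℕ) : (a ^ j)⁻¹ = a ^ (-(j : ℝ)) := by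
  rw [Real.rpow_neg ha, Real.rpow_natCast]

end Basics

section Pointwise

/-- The local potential bound, on a shell. -/
theorem shell_potential (m : ℕ) (hm : 2 ≤ m) : ∃ C : ℝ, 0 ≤ C ∧ ∀ (f : Euc (m + 1) → ℝ)
    (φ : Euc (m + 1) → ℝ), ContDiff ℝ 2 f → (∀ x, 0 ≤ f x) →
    ∀ a b δ : ℝ, 0 < δ → δ ≤ 1 → 1 / 4 < a - 2 * δ → a ≤ b → b + 2 * δ ≤ 4 →
      (∀ y ∈ shell (a - 2 * δ) (b + 2 * δ), |Δ f y| ≤ φ y) →
      ∀ L : ℝ, (∫ y in shell (a - 2 * δ) (b + 2 * δ), f y) ≤ L →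
      ∀ x ∈ shell a b,
        ENNReal.ofReal (f x) ≤ ENNReal.ofReal (C * L * (δ ^ (m + 3))⁻¹) +
          ENNReal.ofReal C * pot ((m : ℝ) - 1)
            ((shell (a - 2 * δ) (b + 2 * δ)).indicator fun y => ENNReal.ofReal (φ y)) x ∧
        ENNReal.ofReal (jet f x) ≤ ENNReal.ofReal (C * L * (δ ^ (m + 3))⁻¹) +
          ENNReal.ofReal C * pot (m : ℝ)
            ((shell (a - 2 * δ) (b + 2 * δ)).indicator fun y => ENNReal.ofReal (φ y)) x := by
  obtain ⟨C, hC, hpot⟩ := local_potential (n := m + 1) (by omega)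
  obtain ⟨Cc, hCc, hcut⟩ := exists_shell_cutoff (m + 1)
  set C2 := C * (8 * (m + 1 : ℝ) + 1) + 2 * C * Cc ^ 2 + C with hC2
  have hC20 : 0 ≤ C2 := by positivity
  refine ⟨C2, hC20, fun f φ hf hf0 a b δ hδ hδ1 ha hab hb hφ L hL x hx => ?_⟩
  obtain ⟨χ, hχ, hχc, hχ01, hsupp, hone, hbd⟩ :=
    hcut (a - δ) (b + δ) δ hδ hδ1 (by linarith) (by linarith) (by linarith)
  set S := shell (n := m + 1) (a - 2 * δ) (b + 2 * δ) with hS
  have hsS : tsupport χ ⊆ S := hsupp.trans (shell_mono (by linarith) (by linarith))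
  have hball : ∀ y ∈ Metric.ball x δ, χ y = 1 := by
    intro y hy
    refine hone y ?_
    rw [Metric.mem_ball, dist_eq_norm] at hy
    have hd : ∀ i, |y i - x i| ≤ δ := fun i => by
      have := abs_apply_le_norm (y - x) i
      simp only [PiLp.sub_apply] at this
      linarith
    obtain ⟨hxc, i, hi⟩ := hx
    refine ⟨fun j => ?_, i, ?_⟩
    · linarith [hxc j, hd j, abs_add_le (x j) (y j - x j), show x j + (y j - x j) = y j by ring,
        le_of_eq (congrArg abs (show x j + (y j - x j) = y j by ring)).symm]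
    · linarith [hd i, abs_sub_abs_le_abs_sub (x i) (y i), abs_sub_comm (x i) (y i)]
  have hMge : 1 ≤ Cc / δ := by rw [le_div_iff₀ hδ]; linarith
  obtain ⟨h1, h2⟩ := hpot f χ hf hχ hχc hχ01 x δ (Cc / δ) hδ hδ1 hMge hbd hball
  have hScpt : IsCompact S := isCompact_shell _ _
  have hfS : IntegrableOn f S := hf.continuous.continuousOn.integrableOn_compact hScpt
  have hI : ∫ y in tsupport χ, |f y| ≤ L := by
    rw [setIntegral_congr_fun (isClosed_tsupport χ).measurableSet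
      (fun y _ => abs_of_nonneg (hf0 y))]
    exact (setIntegral_mono_set hfS (Eventually.of_forall hf0)
      (Eventually.of_forall hsS)).trans hL
  have hI0 : 0 ≤ ∫ y in tsupport χ, |f y| := integral_nonneg fun y => abs_nonneg _
  have hδpow : (Cc / δ) ^ 2 / δ ^ (m + 1) = Cc ^ 2 * (δ ^ (m + 3))⁻¹ := by
    rw [div_pow, div_div, ← pow_add, show 2 + (m + 1) = m + 3 by omega, div_eq_mul_inv]
  rw [hδpow] at h1 h2
  have hrem : C * (Cc ^ 2 * (δ ^ (m + 3))⁻¹) * ∫ y in tsupport χ, |f y|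
      ≤ C * Cc ^ 2 * L * (δ ^ (m + 3))⁻¹ := by
    calc _ ≤ C * (Cc ^ 2 * (δ ^ (m + 3))⁻¹) * L := mul_le_mul_of_nonneg_left hI (by positivity)
      _ = _ := by ring
  have hxS : x ∈ cube (n := m + 1) b := hx.1
  have hxn : ‖x‖ ≤ 4 * (m + 1 : ℝ) := by
    obtain ⟨i, hi⟩ := hx.2
    have := cube_norm_le (by linarith [abs_nonneg (x i), hxS i]) (by linarith) hxS
    exact_mod_cast this
  -- the potential parts
  have hpart : ∀ j : ℕ, 1 ≤ j →
      ENNReal.ofReal (∫ y in tsupport χ, (‖x - y‖ ^ j)⁻¹ * |Δ f y|) ≤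
        pot (j : ℝ) (S.indicator fun y => ENNReal.ofReal (φ y)) x := by
    intro j _
    refine (ofReal_setIntegral_le fun y => by positivity).trans ?_
    rw [← lintegral_indicator (isClosed_tsupport χ).measurableSet, pot]
    refine lintegral_mono fun y => ?_
    by_cases hy : y ∈ tsupport χ
    · rw [indicator_of_mem hy, indicator_of_mem (hsS hy),
        ← ENNReal.ofReal_mul (Real.rpow_nonneg (norm_nonneg _) _), inv_pow_eq_rpow _ (norm_nonneg _)]
      exact ENNReal.ofReal_le_ofReal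
        (mul_le_mul_of_nonneg_left (hφ y (hsS hy)) (Real.rpow_nonneg (norm_nonneg _) _))
    · simp [indicator_of_notMem hy]
  have hdom : pot ((m : ℝ) - 1) (S.indicator fun y => ENNReal.ofReal (φ y)) x ≤
      ENNReal.ofReal (8 * (m + 1 : ℝ)) * pot (m : ℝ) (S.indicator fun y => ENNReal.ofReal (φ y)) x := by
    rw [pot, pot, ← lintegral_const_mul' _ _ ENNReal.ofReal_ne_top]
    refine lintegral_mono fun y => ?_
    by_cases hy : y ∈ S
    · rw [← mul_assoc, ← ENNReal.ofReal_mul (by positivity)]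
      gcongr
      rcases eq_or_lt_of_le (norm_nonneg (x - y)) with h | h
      · rw [← h, Real.zero_rpow, Real.zero_rpow]
        · simp
        · simp; omega
        · have : (2:ℝ) ≤ m := by exact_mod_cast hm
          intro hh; linarith
      · rw [show -((m : ℝ) - 1) = 1 + -(m : ℝ) by ring, Real.rpow_add h, Real.rpow_one]
        refine mul_le_mul_of_nonneg_right ?_ (Real.rpow_nonneg h.le _)
        have hyn : ‖y‖ ≤ 4 * (m + 1 : ℝ) := by
          have := cube_norm_le (n := m + 1) (by linarith [abs_nonneg (x 0), hxS 0]) hb hy.1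
          exact_mod_cast this
        linarith [norm_sub_le x y]
    · simp [indicator_of_notMem hy]
  have hm1 : ((m + 1 - 2 : ℕ) : ℝ) = (m : ℝ) - 1 := by
    rw [show m + 1 - 2 = m - 1 by omega, Nat.cast_sub (by omega)]; simp
  have p1 := hpart (m + 1 - 2) (by omega)
  rw [hm1] at p1
  have p2 := hpart (m + 1 - 1) (by omega)
  rw [show ((m + 1 - 1 : ℕ) : ℝ) = (m : ℝ) by simp] at p2
  set P1 := pot ((m : ℝ) - 1) (S.indicator fun y => ENNReal.ofReal (φ y)) x
  set P2 := pot (m : ℝ) (S.indicator fun y => ENNReal.ofReal (φ y)) x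
  have hL0 : 0 ≤ L := le_trans (integral_nonneg fun y => hf0 y) hL
  have hrem0 : 0 ≤ L * (δ ^ (m + 3))⁻¹ := by positivity
  have e1 : ENNReal.ofReal (f x) ≤ ENNReal.ofReal (C * Cc ^ 2 * L * (δ ^ (m + 3))⁻¹) +
      ENNReal.ofReal C * P1 := by
    refine (ENNReal.ofReal_le_ofReal ((le_abs_self _).trans (h1.trans
      (add_le_add le_rfl hrem)))).trans ?_
    refine ENNReal.ofReal_add_le.trans ?_
    rw [add_comm]
    gcongr
    rw [ENNReal.ofReal_mul hC]
    gcongr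
  have e2 : ENNReal.ofReal (‖fderiv ℝ f x‖) ≤ ENNReal.ofReal (C * Cc ^ 2 * L * (δ ^ (m + 3))⁻¹) +
      ENNReal.ofReal C * P2 := by
    refine (ENNReal.ofReal_le_ofReal (h2.trans (add_le_add le_rfl hrem))).trans ?_
    refine ENNReal.ofReal_add_le.trans ?_
    rw [add_comm]
    gcongr
    rw [ENNReal.ofReal_mul hC]
    gcongr
  have hc1 : C * Cc ^ 2 ≤ C2 := by
    have : 0 ≤ C * (8 * (m + 1 : ℝ) + 1) := by positivity
    have : 0 ≤ C * Cc ^ 2 := by positivity
    linarith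
  refine ⟨e1.trans (add_le_add (ENNReal.ofReal_le_ofReal ?_) ?_), ?_⟩
  · have := mul_le_mul_of_nonneg_right hc1 hrem0
    linarith
  · gcongr
    linarith [show 0 ≤ C * (8 * (m + 1 : ℝ) + 1) by positivity, show 0 ≤ 2 * C * Cc ^ 2 by positivity]
  · refine ENNReal.ofReal_add_le.trans ((add_le_add e1 e2).trans ?_)
    rw [add_add_add_comm, ← ENNReal.ofReal_add (by positivity) (by positivity)]
    refine add_le_add (ENNReal.ofReal_le_ofReal ?_) ?_
    · have : 2 * C * Cc ^ 2 ≤ C2 := by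
        have : 0 ≤ C * (8 * (m + 1 : ℝ) + 1) := by positivity
        linarith
      have := mul_le_mul_of_nonneg_right this hrem0
      linarith
    · calc ENNReal.ofReal C * P1 + ENNReal.ofReal C * P2
          ≤ ENNReal.ofReal C * (ENNReal.ofReal (8 * (m + 1 : ℝ)) * P2) + ENNReal.ofReal C * P2 := by
            gcongr
        _ = ENNReal.ofReal (C * (8 * (m + 1 : ℝ)) + C) * P2 := by
            rw [ENNReal.ofReal_add (by positivity) hC, ENNReal.ofReal_mul hC]; ring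
        _ ≤ ENNReal.ofReal C2 * P2 := by
            gcongr
            linarith [show 0 ≤ 2 * C * Cc ^ 2 by positivity]

/-- `L¹` in the normal variable of the slice norms of a function dominated by a potential. -/
theorem norm_bound {m : ℕ} (hm : 2 ≤ m) {k l s : ℝ} (hk : 1 ≤ k) (hl : 1 ≤ l) (hs0 : 0 ≤ s)
    (hs : s < 1 + m * (1 + 1 / k - 1 / l)) (hs1 : s < 1 + m) (D : ℝ) :
    ∃ C : ℝ≥0∞, C ≠ ⊤ ∧ ∀ (F g : Euc (m + 1) → ℝ≥0∞) (c C0 : ℝ≥0∞), Measurable g →
      (∀ y, g y ≠ 0 → ‖y‖ ≤ D) → C0 ≠ ⊤ →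
      (∀ x, F x ≤ (Metric.closedBall 0 D).indicator (fun x => c + C0 * pot s g x) x) →
      ∀ i, ∫⁻ r in Set.Icc (-D) D, sn i k F r ≤ C * (c + C0 * ∫⁻ t, sn i l g t) := by
  obtain ⟨C1, hC1, hpot⟩ := sn_pot_bound hm hk hl hs0 hs hs1 D
  obtain ⟨C2, hC2, hind⟩ := sn_indicator_const_le (m := m) (show 0 < k by linarith) D
  set V := volume (Set.Icc (-D) D) with hV
  refine ⟨C2 * V + C1, ENNReal.add_ne_top.2 ⟨ENNReal.mul_ne_top hC2 measure_Icc_lt_top.ne, hC1⟩,
    fun F g c C0 hg hsup hC0 hF i => ?_⟩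
  set B := Metric.closedBall (0 : Euc (m + 1)) D
  have hpt : ∀ r, sn i k F r ≤ C2 * c + C0 * sn i k (fun x => B.indicator (pot s g) x) r := by
    intro r
    refine (sn_mono (k := k) (i := i) (r := r) (by linarith) (h := fun x => B.indicator (fun _ => c) x +
      C0 * B.indicator (pot s g) x) (fun z => (hF _).trans (le_of_eq ?_))).trans ?_
    · by_cases hx : ins i r z ∈ B <;> simp [hx]
    · refine (sn_add_le hk i r (measurable_const.indicator measurableSet_closedBall)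
        (measurable_const.mul ((measurable_pot s hg).indicator measurableSet_closedBall))).trans ?_
      have hk0 : 0 < k := by linarith
      have he : ((fun _ : Euc (m + 1) => C0) * B.indicator (pot s g)) = fun x => C0 * B.indicator (pot s g) x := rfl
      rw [he, sn_const_mul hk0 i r ((measurable_pot s hg).indicator measurableSet_closedBall) C0]
      gcongr
      exact hind c i r
  calc ∫⁻ r in Set.Icc (-D) D, sn i k F r
      ≤ ∫⁻ r in Set.Icc (-D) D, (C2 * c + C0 * sn i k (fun x => B.indicator (pot s g) x) r) :=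
        lintegral_mono hpt
    _ = C2 * c * V + C0 * ∫⁻ r in Set.Icc (-D) D, sn i k (fun x => B.indicator (pot s g) x) r := by
        rw [lintegral_add_left measurable_const, setLIntegral_const, lintegral_const_mul' _ _ hC0]
    _ ≤ C2 * c * V + C0 * (C1 * ∫⁻ t, sn i l g t) := by
        gcongr
        exact hpot g hg hsup i
    _ = C2 * V * c + C1 * (C0 * ∫⁻ t, sn i l g t) := by ring
    _ ≤ (C2 * V + C1) * c + (C2 * V + C1) * (C0 * ∫⁻ t, sn i l g t) :=
        add_le_add (mul_le_mul_left le_self_add _) (mul_le_mul_left le_add_self _)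
    _ = _ := by ring

end Pointwise

section Norms

/-- restriction to a set, as an `ℝ≥0∞` function -/
def cut {n : ℕ} (S : Set (Euc n)) (F : Euc n → ℝ) : Euc n → ℝ≥0∞ :=
  S.indicator fun y => ENNReal.ofReal (F y)

lemma measurable_cut {n : ℕ} {S : Set (Euc n)} (hS : MeasurableSet S) {F : Euc n → ℝ}
    (hF : Measurable F) : Measurable (cut S F) :=
  (ENNReal.measurable_ofReal.comp hF).indicator hS

lemma cut_support {n : ℕ} {a b : ℝ} (hb0 : 0 ≤ b) (hb : b ≤ 4) (F : Euc n → ℝ) (y : Euc n)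
    (hy : cut (shell a b) F y ≠ 0) : ‖y‖ ≤ 4 * n :=
  cube_norm_le hb0 hb (Set.mem_of_indicator_ne_zero hy).1

/-- The four families of slice norms. -/
theorem slice_norms {m : ℕ} (hm : 4 ≤ m) {p q : ℝ} (hp : 0 < p) (hq : 0 < q) (hq1 : q ≤ 1)
    (hpq : 1 < p * q) (E : Expo m p q) :
    ∃ C : ℝ≥0∞, C ≠ ⊤ ∧ ∀ u v : Euc (m + 1) → ℝ, IsPositiveEntireSolution p q u v →
      ∀ ρ δ : ℝ, 1 ≤ ρ → 0 < δ → δ ≤ 1 / 16 → ρ + 8 * δ ≤ 2 → ∀ i,
        let Φ := ∫⁻ y, cut (shell (ρ - 4 * δ) (ρ + 8 * δ)) (fun y => v y ^ (p + 1)) y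
        let I := Set.Icc (-(4 * (m + 1 : ℝ))) (4 * (m + 1 : ℝ))
        let c := ENNReal.ofReal ((δ ^ (m + 3))⁻¹)
        (∫⁻ r in I, sn i E.k0 (cut (shell ρ (ρ + 4 * δ)) (ext u)) r) ≤ C * c ∧
        (∫⁻ r in I, sn i E.k1 (cut (shell ρ (ρ + 4 * δ)) (ext u)) r) ≤ C * (c + Φ ^ (p / (p + 1))) ∧
        (∫⁻ r in I, sn i E.a (cut (shell ρ (ρ + 4 * δ)) (jet (ext u))) r) ≤ C * (c + Φ ^ (p / (p + 1))) ∧
        (∫⁻ r in I, sn i E.a' (cut (shell ρ (ρ + 4 * δ)) (jet (ext v))) r) ≤ C * c := by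
  have hn3 : 3 ≤ m + 1 := by omega
  set D : ℝ := 4 * (m + 1 : ℝ) with hD
  have hDcast : (4 * ((m + 1 : ℕ) : ℝ)) = D := by push_cast; ring
  obtain ⟨L, hL⟩ := apriori hn3 hp hq hpq D (by positivity)
  obtain ⟨Cp, hCp0, hpot⟩ := shell_potential m (by omega)
  set l : ℝ := (p + 1) / p with hl
  have hl1 : 1 ≤ l := by rw [le_div_iff₀ hp]; linarith
  have hinv : 1 / l = p / (p + 1) := one_div_div _ _
  have hk0q : 1 ≤ E.k0 / q := by rw [le_div_iff₀ hq]; linarith [E.k0_ge]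
  have hm' : (4 : ℝ) ≤ m := by exact_mod_cast hm
  have hm0 : (0 : ℝ) < m := by linarith
  have cond1 : ∀ {k l : ℝ}, 1 / l - 2 / m < 1 / k →
      (m : ℝ) - 1 < 1 + m * (1 + 1 / k - 1 / l) := fun {k l} h => by
    have h2 := mul_lt_mul_of_pos_left h hm0
    rw [mul_sub, mul_div_cancel₀ _ hm0.ne'] at h2
    linarith
  have cond2 : ∀ {k l : ℝ}, 1 / l - 1 / m < 1 / k →
      (m : ℝ) < 1 + m * (1 + 1 / k - 1 / l) := fun {k l} h => by
    have h2 := mul_lt_mul_of_pos_left h hm0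
    rw [mul_sub, mul_one_div_cancel hm0.ne'] at h2
    linarith
  obtain ⟨B0, hB0, nb0⟩ := norm_bound (m := m) (by omega) E.k0_ge le_rfl (by linarith)
    (cond1 (l := 1) (by linarith [E.k0_cond, (one_div_one : (1:ℝ) / 1 = 1)])) (by linarith) D
  obtain ⟨B1, hB1, nb1⟩ := norm_bound (m := m) (by omega) E.k1_ge hl1 (by linarith)
    (cond1 (by rw [hinv]; exact E.k1_cond)) (by linarith) D
  obtain ⟨B2, hB2, nb2⟩ := norm_bound (m := m) (by omega) E.a_ge hl1 hm0.le
    (cond2 (by rw [hinv]; exact E.a_cond)) (by linarith) D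
  obtain ⟨B3, hB3, nb3⟩ := norm_bound (m := m) (by omega) E.a'_ge hk0q hm0.le
    (cond2 (by rw [one_div_div]; exact E.a'_cond)) (by linarith) D
  obtain ⟨H1, hH1, hold1⟩ := sn_holder_bound (m := m) (l := (1 : ℝ)) le_rfl D
  obtain ⟨Hl, hHl, holdl⟩ := sn_holder_bound (m := m) (l := l) hl1 D
  set Lp := max L 0
  set A := ENNReal.ofReal (Cp * Lp) with hA
  set Cq := ENNReal.ofReal Cp
  set Lv := ENNReal.ofReal Lp
  set V := volume (Set.Icc (-D) D)
  -- the four constants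
  set K0 := B0 * (A + Cq * H1 * Lv) with hK0
  set K1 := B1 * (A + Cq * Hl) with hK1
  set K2 := B2 * (A + Cq * Hl) with hK2
  set K3 := B3 * (A + Cq * (V + K0)) with hK3
  have hVt : V ≠ ⊤ := measure_Icc_lt_top.ne
  have hAt : A ≠ ⊤ := ENNReal.ofReal_ne_top
  have hCqt : Cq ≠ ⊤ := ENNReal.ofReal_ne_top
  have hK0t : K0 ≠ ⊤ := ENNReal.mul_ne_top hB0
    (ENNReal.add_ne_top.2 ⟨hAt, ENNReal.mul_ne_top (ENNReal.mul_ne_top hCqt hH1) ENNReal.ofReal_ne_top⟩)
  have hK1t : K1 ≠ ⊤ := ENNReal.mul_ne_top hB1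
    (ENNReal.add_ne_top.2 ⟨hAt, ENNReal.mul_ne_top hCqt hHl⟩)
  have hK2t : K2 ≠ ⊤ := ENNReal.mul_ne_top hB2
    (ENNReal.add_ne_top.2 ⟨hAt, ENNReal.mul_ne_top hCqt hHl⟩)
  have hK3t : K3 ≠ ⊤ := ENNReal.mul_ne_top hB3
    (ENNReal.add_ne_top.2 ⟨hAt, ENNReal.mul_ne_top hCqt (ENNReal.add_ne_top.2 ⟨hVt, hK0t⟩)⟩)
  refine ⟨K0 + K1 + K2 + K3, by simp [hK0t, hK1t, hK2t, hK3t], fun u v hs ρ δ hρ hδ hδ1 hρδ i => ?_⟩
  obtain ⟨hLu, hLv, hLvp⟩ := hL u v hs
  obtain ⟨huc, hvc, hu2, hv2, hup, hvp, heq⟩ := hs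
  intro Φ I c
  have hU := contDiff_ext hu2
  have hV' := contDiff_ext hv2
  have hUp : ∀ x, 0 ≤ ext u x := fun x => (ext_pos hup x).le
  have hVp : ∀ x, 0 ≤ ext v x := fun x => (ext_pos hvp x).le
  have hc1 : (1 : ℝ≥0∞) ≤ c := by
    rw [← ENNReal.ofReal_one]
    exact ENNReal.ofReal_le_ofReal ((one_le_inv₀ (by positivity)).2 (pow_le_one₀ hδ.le (by linarith)))
  set S0 := shell (n := m + 1) ρ (ρ + 4 * δ) with hS0
  set S1 := shell (n := m + 1) (ρ - 2 * δ) (ρ + 6 * δ) with hS1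
  set S2 := shell (n := m + 1) (ρ - 4 * δ) (ρ + 8 * δ) with hS2
  have hn : ∀ a b : ℝ, 3 / 4 ≤ a → ∀ y ∈ shell (n := m + 1) a b, 1 / 4 < ‖y‖ := fun a b ha y hy => by
    linarith [shell_le_norm hy]
  have hlap : ∀ y ∈ S2, Δ (ext u) y = -(v y ^ p) ∧ Δ (ext v) y = -(u y ^ q) := fun y hy => by
    have h4 := hn _ _ (by linarith) y hy
    have hy0 : y ≠ 0 := by rintro rfl; simp at h4; linarith
    rw [laplacian_ext h4, laplacian_ext h4]
    obtain ⟨e1, e2⟩ := heq y hy0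
    constructor <;> linarith
  -- bound of the local masses
  have hmass : ∀ (f : Euc (m + 1) → ℝ), Continuous f → (∀ x, 0 ≤ f x) → ∀ a b : ℝ, b ≤ 4 → 0 ≤ b →
      (∫ x in shell a b, f x) ≤ ∫ x in Metric.closedBall (0 : Euc (m + 1)) D, f x := by
    intro f hf hf0 a b hb hb0
    refine setIntegral_mono_set (hf.continuousOn.integrableOn_compact (isCompact_closedBall _ _))
      (Eventually.of_forall hf0) (Eventually.of_forall fun x hx => ?_)
    show x ∈ Metric.closedBall (0 : Euc (m + 1)) D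
    rw [mem_closedBall_zero_iff, ← hDcast]
    exact cube_norm_le hb0 hb (hx : x ∈ shell a b).1
  have hmU : ∀ a b : ℝ, 3 / 4 ≤ a → b ≤ 4 → 0 ≤ b → (∫ x in shell a b, ext u x) ≤ Lp := by
    intro a b ha hb hb0
    rw [setIntegral_congr_fun (measurableSet_shell a b) fun y hy => ext_eq (hn a b ha y hy)]
    exact ((hmass u huc (fun x => (hup x).le) a b hb hb0).trans hLu).trans (le_max_left _ _)
  have hmV : ∀ a b : ℝ, 3 / 4 ≤ a → b ≤ 4 → 0 ≤ b → (∫ x in shell a b, ext v x) ≤ Lp := by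
    intro a b ha hb hb0
    rw [setIntegral_congr_fun (measurableSet_shell a b) fun y hy => ext_eq (hn a b ha y hy)]
    exact ((hmass v hvc (fun x => (hvp x).le) a b hb hb0).trans hLv).trans (le_max_left _ _)
  -- sources
  have hvpc : Continuous fun y => v y ^ p := hvc.rpow_const fun x => Or.inl (hvp x).ne'
  have huqc : Continuous fun y => u y ^ q := huc.rpow_const fun x => Or.inl (hup x).ne'
  set gP := cut S2 fun y => v y ^ p with hgP
  set gQ := cut S1 fun y => u y ^ q with hgQ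
  have hgPm : Measurable gP := measurable_cut (measurableSet_shell _ _) hvpc.measurable
  have hgQm : Measurable gQ := measurable_cut (measurableSet_shell _ _) huqc.measurable
  have hgPs : ∀ y, gP y ≠ 0 → ‖y‖ ≤ D := fun y hy =>
    hDcast ▸ cut_support (by linarith) (by linarith) _ y hy
  have hgQs : ∀ y, gQ y ≠ 0 → ‖y‖ ≤ D := fun y hy =>
    hDcast ▸ cut_support (by linarith) (by linarith) _ y hy
  have hB : ∀ a b : ℝ, 0 ≤ b → b ≤ 4 → shell a b ⊆ Metric.closedBall (0 : Euc (m + 1)) D :=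
    fun a b hb0 hb x hx => by simpa [← hDcast] using cube_norm_le hb0 hb hx.1
  have hcA : ENNReal.ofReal (Cp * Lp * (δ ^ (m + 3))⁻¹) = A * c := by
    rw [ENNReal.ofReal_mul (by positivity)]
  -- pointwise domination on the enlarged shell
  have dU : ∀ x ∈ S1, ENNReal.ofReal (ext u x) ≤ A * c + Cq * pot ((m : ℝ) - 1) gP x ∧
      ENNReal.ofReal (jet (ext u) x) ≤ A * c + Cq * pot (m : ℝ) gP x := by
    intro x hx
    have h := hpot (ext u) (fun y => v y ^ p) hU hUp (ρ - 2 * δ) (ρ + 6 * δ) δ hδ (by linarith)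
      (by linarith) (by linarith) (by linarith)
      (fun y hy => by
        have hy' : y ∈ S2 := shell_mono (by linarith) (by linarith) hy
        rw [(hlap y hy').1, abs_neg, abs_of_pos (Real.rpow_pos_of_pos (hvp y) _)])
      Lp (hmU _ _ (by linarith) (by linarith) (by linarith)) x hx
    rw [show ρ - 2 * δ - 2 * δ = ρ - 4 * δ by ring, show ρ + 6 * δ + 2 * δ = ρ + 8 * δ by ring,
      hcA] at h
    exact h
  have dV : ∀ x ∈ S0, ENNReal.ofReal (jet (ext v) x) ≤ A * c + Cq * pot (m : ℝ) gQ x := by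
    intro x hx
    have h := (hpot (ext v) (fun y => u y ^ q) hV' hVp ρ (ρ + 4 * δ) δ hδ (by linarith)
      (by linarith) (by linarith) (by linarith)
      (fun y hy => by
        have hy' : y ∈ S2 := shell_mono (by linarith) (by linarith) hy
        rw [(hlap y hy').2, abs_neg, abs_of_pos (Real.rpow_pos_of_pos (hup y) _)])
      Lp (hmV _ _ (by linarith) (by linarith) (by linarith)) x hx).2
    rw [show ρ + 4 * δ + 2 * δ = ρ + 6 * δ by ring, hcA] at h
    exact h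
  have hS01 : S0 ⊆ S1 := shell_mono (by linarith) (by linarith)
  have dom : ∀ (S : Set (Euc (m + 1))) (F : Euc (m + 1) → ℝ) (P : Euc (m + 1) → ℝ≥0∞),
      S ⊆ Metric.closedBall 0 D → (∀ x ∈ S, ENNReal.ofReal (F x) ≤ P x) →
      ∀ x, cut S F x ≤ (Metric.closedBall (0 : Euc (m + 1)) D).indicator P x := by
    intro S F P hS h x
    by_cases hx : x ∈ S
    · rw [cut, indicator_of_mem hx, indicator_of_mem (hS hx)]; exact h x hx
    · simp [cut, indicator_of_notMem hx]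
  -- integrals of the sources
  have hP1 : ∫⁻ t, sn i 1 gP t ≤ H1 * Lv := by
    refine (hold1 gP hgPm hgPs i).trans ?_
    gcongr
    simp only [ENNReal.rpow_one, div_one, hgP, cut]
    rw [lintegral_indicator (measurableSet_shell _ _),
      ← ofReal_integral_eq_lintegral_ofReal
        (hvpc.continuousOn.integrableOn_compact (isCompact_shell _ _))
        (Eventually.of_forall fun y => (Real.rpow_pos_of_pos (hvp y) _).le)]
    exact ENNReal.ofReal_le_ofReal (((hmass _ hvpc (fun x => (Real.rpow_pos_of_pos (hvp x) _).le)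
      _ _ (by linarith) (by linarith)).trans hLvp).trans (le_max_left _ _))
  have hPl : ∫⁻ t, sn i l gP t ≤ Hl * Φ ^ (p / (p + 1)) := by
    refine (holdl gP hgPm hgPs i).trans (le_of_eq ?_)
    rw [hinv]
    congr 2
    refine lintegral_congr fun y => ?_
    by_cases hy : y ∈ S2
    · simp only [hgP, cut, indicator_of_mem hy]
      rw [ENNReal.ofReal_rpow_of_nonneg (Real.rpow_pos_of_pos (hvp y) _).le (by linarith),
        ← Real.rpow_mul (hvp y).le, hl, mul_div_cancel₀ _ hp.ne']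
      exact (indicator_of_mem (show y ∈ shell (ρ - 4 * δ) (ρ + 8 * δ) from hy)
        (fun y => ENNReal.ofReal (v y ^ (p + 1)))).symm
    · simp only [hgP, hS2, cut] at hy ⊢
      simp [indicator_of_notMem hy, show (0:ℝ) < l by linarith]
  -- the slice norms of `u`
  have nU0 : ∀ S, S ⊆ S1 → ∫⁻ r in I, sn i E.k0 (cut S (ext u)) r ≤ K0 * c := by
    intro S hS
    refine (nb0 (cut S (ext u)) gP (A * c) Cq hgPm hgPs hCqt
      (dom S _ _ (hS.trans (hB _ _ (by linarith) (by linarith))) fun x hx => (dU x (hS hx)).1) i).trans ?_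
    rw [hK0, mul_assoc]
    gcongr
    rw [add_mul]
    refine add_le_add le_rfl ?_
    refine (mul_le_mul' le_rfl hP1).trans ?_
    rw [mul_assoc Cq, mul_assoc Cq]
    exact mul_le_mul' le_rfl (le_mul_of_one_le_right' hc1)
  have hsum : ∀ B : ℝ≥0∞, ∀ x : ℝ≥0∞, x ≤ Φ ^ (p / (p + 1)) * Hl →
      B * (A * c + Cq * x) ≤ B * (A + Cq * Hl) * (c + Φ ^ (p / (p + 1))) := by
    intro B x hx
    rw [mul_assoc]
    gcongr
    calc A * c + Cq * x ≤ A * c + Cq * Hl * Φ ^ (p / (p + 1)) := by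
          refine add_le_add le_rfl ?_
          rw [mul_assoc, mul_comm Hl]
          exact mul_le_mul' le_rfl hx
      _ ≤ (A + Cq * Hl) * c + (A + Cq * Hl) * Φ ^ (p / (p + 1)) :=
          add_le_add (mul_le_mul_left le_self_add _) (mul_le_mul_left le_add_self _)
      _ = _ := by ring
  have nU1 : ∫⁻ r in I, sn i E.k1 (cut S0 (ext u)) r ≤ K1 * (c + Φ ^ (p / (p + 1))) :=
    (nb1 (cut S0 (ext u)) gP (A * c) Cq hgPm hgPs hCqt
      (dom S0 _ _ (hB _ _ (by linarith) (by linarith)) fun x hx => (dU x (hS01 hx)).1) i).trans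
      (hsum B1 _ (hPl.trans (le_of_eq (mul_comm _ _))))
  have nU2 : ∫⁻ r in I, sn i E.a (cut S0 (jet (ext u))) r ≤ K2 * (c + Φ ^ (p / (p + 1))) :=
    (nb2 (cut S0 (jet (ext u))) gP (A * c) Cq hgPm hgPs hCqt
      (dom S0 _ _ (hB _ _ (by linarith) (by linarith)) fun x hx => (dU x (hS01 hx)).2) i).trans
      (hsum B2 _ (hPl.trans (le_of_eq (mul_comm _ _))))
  -- the slice norms of `v`
  have hQ : ∀ t, sn i (E.k0 / q) gQ t = sn i E.k0 (cut S1 (ext u)) t ^ q := by
    intro t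
    simp only [sn]
    rw [← ENNReal.rpow_mul, show 1 / (E.k0 / q) = 1 / E.k0 * q by rw [one_div_div]; ring]
    congr 1
    refine lintegral_congr fun z => ?_
    by_cases hy : ins i t z ∈ S1
    · simp only [hgQ, cut, indicator_of_mem hy, ext_eq (hn _ _ (by linarith) _ hy)]
      rw [← ENNReal.ofReal_rpow_of_nonneg (hup _).le hq.le, ← ENNReal.rpow_mul,
        mul_div_cancel₀ _ hq.ne']
    · simp [hgQ, cut, indicator_of_notMem hy, show 0 < E.k0 / q by linarith,
        show 0 < E.k0 by linarith [E.k0_ge]]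
  have hQint : ∫⁻ t, sn i (E.k0 / q) gQ t ≤ V + K0 * c := by
    have hout : ∀ t, t ∉ I → sn i (E.k0 / q) gQ t = 0 := by
      intro t ht
      have hz : ∀ z, gQ (ins i t z) = 0 := fun z => by
        by_contra hne
        apply ht
        have h1 := hgQs _ hne
        have h2 := abs_apply_le_norm (ins i t z) i
        rw [ins_same] at h2
        exact abs_le.1 (by linarith)
      simp [sn, hz, show 0 < E.k0 / q by linarith,
        show 0 < q / E.k0 from div_pos hq (by linarith [E.k0_ge])]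
    calc ∫⁻ t, sn i (E.k0 / q) gQ t = ∫⁻ t in I, sn i (E.k0 / q) gQ t :=
          (setLIntegral_eq_of_support_subset fun t ht => by_contra fun h => ht (hout t h)).symm
      _ ≤ ∫⁻ t in I, (1 + sn i E.k0 (cut S1 (ext u)) t) := by
          refine lintegral_mono fun t => ?_
          rw [hQ]
          rcases le_total (sn i E.k0 (cut S1 (ext u)) t) 1 with h | h
          · exact (ENNReal.rpow_le_one h hq.le).trans le_self_add
          · exact ((ENNReal.rpow_le_rpow_of_exponent_le h hq1).trans_eq (ENNReal.rpow_one _)).trans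
              le_add_self
      _ ≤ V + K0 * c := by
          rw [lintegral_add_left measurable_const, setLIntegral_one]
          gcongr
          exact nU0 S1 subset_rfl
  have nV : ∫⁻ r in I, sn i E.a' (cut S0 (jet (ext v))) r ≤ K3 * c := by
    refine (nb3 (cut S0 (jet (ext v))) gQ (A * c) Cq hgQm hgQs hCqt
      (dom S0 _ _ (hB _ _ (by linarith) (by linarith)) fun x hx => dV x hx) i).trans ?_
    rw [hK3, mul_assoc]
    gcongr
    calc A * c + Cq * ∫⁻ t, sn i (E.k0 / q) gQ t ≤ A * c + Cq * (V * c + K0 * c) := by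
          gcongr
          exact hQint.trans (add_le_add (le_mul_of_one_le_right' hc1) le_rfl)
      _ = _ := by ring
  set K := K0 + K1 + K2 + K3
  have k0 : K0 ≤ K := le_self_add.trans (le_self_add.trans le_self_add)
  have k1 : K1 ≤ K := le_add_self.trans (le_self_add.trans le_self_add)
  have k2 : K2 ≤ K := le_add_self.trans le_self_add
  have k3 : K3 ≤ K := le_add_self
  exact ⟨(nU0 S0 hS01).trans (mul_le_mul' k0 le_rfl), nU1.trans (mul_le_mul' k1 le_rfl),
    nU2.trans (mul_le_mul' k2 le_rfl), nV.trans (mul_le_mul' k3 le_rfl)⟩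

end Norms

section Slices

variable {m : ℕ}

/-- A continuous slice norm. -/
def slN (i : Fin (m + 1)) (k ρ : ℝ) (F : Euc (m + 1) → ℝ) (r : ℝ) : ℝ :=
  (∫ z in (cube ρ : Set (Euc m)), F (ins i r z) ^ k) ^ (1 / k)

lemma ins_mem_cube {i : Fin (m + 1)} {r ρ : ℝ} {z : Euc m} :
    ins i r z ∈ cube ρ ↔ |r| ≤ ρ ∧ z ∈ cube ρ := by
  refine ⟨fun h => ⟨by simpa using h i, fun j => by simpa using h (i.succAbove j)⟩,
    fun h j => ?_⟩
  rcases Fin.eq_self_or_eq_succAbove i j with rfl | ⟨k, rfl⟩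
  · simpa using h.1
  · simpa using h.2 k

lemma continuous_slice (i : Fin (m + 1)) {F : Euc (m + 1) → ℝ} (hF : Continuous F) (r : ℝ) :
    Continuous fun z : Euc m => F (ins i r z) :=
  hF.comp ((continuous_ins i).comp (Continuous.prodMk_right r))

lemma continuous_slN (i : Fin (m + 1)) {k : ℝ} (hk : 1 ≤ k) (ρ : ℝ) {F : Euc (m + 1) → ℝ}
    (hF : Continuous F) : Continuous (slN i k ρ F) := by
  refine Continuous.rpow_const ?_ fun r => Or.inr (by positivity)
  refine continuous_parametric_integral_of_continuous ?_ (isCompact_cube ρ)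
  exact (hF.comp (continuous_ins i)).rpow_const fun r => Or.inr (by linarith)

lemma slN_nonneg (i : Fin (m + 1)) (k ρ : ℝ) {F : Euc (m + 1) → ℝ} (hF : ∀ x, 0 ≤ F x) (r : ℝ) :
    0 ≤ slN i k ρ F r :=
  Real.rpow_nonneg (integral_nonneg fun _ => Real.rpow_nonneg (hF _) _) _

lemma ofReal_slN_le (i : Fin (m + 1)) {k ρ ρ' : ℝ} (hk : 1 ≤ k) {F : Euc (m + 1) → ℝ}
    (hFc : Continuous F) (hF : ∀ x, 0 ≤ F x) {r : ℝ} (h1 : ρ ≤ |r|) (h2 : |r| ≤ ρ') :
    ENNReal.ofReal (slN i k ρ' F r) ≤ sn i k (cut (shell ρ ρ') F) r := by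
  rw [slN, sn, ← ENNReal.ofReal_rpow_of_nonneg
    (integral_nonneg fun _ => Real.rpow_nonneg (hF _) _) (by positivity)]
  refine ENNReal.rpow_le_rpow ?_ (by positivity)
  have hc : Continuous fun z : Euc m => F (ins i r z) ^ k :=
    (continuous_slice i hFc r).rpow_const fun _ => Or.inr (by linarith)
  rw [ofReal_integral_eq_lintegral_ofReal (hc.continuousOn.integrableOn_compact (isCompact_cube _))
    (Eventually.of_forall fun _ => Real.rpow_nonneg (hF _) _),
    ← lintegral_indicator (measurableSet_cube _)]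
  refine lintegral_mono fun z => ?_
  by_cases hz : z ∈ cube ρ'
  · have hmem : ins i r z ∈ shell ρ ρ' := ⟨ins_mem_cube.2 ⟨h2, hz⟩, i, by simpa using h1⟩
    rw [indicator_of_mem hz, cut, indicator_of_mem hmem,
      ENNReal.ofReal_rpow_of_nonneg (hF _) (by linarith)]
  · simp [indicator_of_notMem hz]

lemma integral_slN_le (i : Fin (m + 1)) {k ρ ρ' D : ℝ} (hk : 1 ≤ k) {F : Euc (m + 1) → ℝ}
    (hFc : Continuous F) (hF : ∀ x, 0 ≤ F x) (hρ : 0 ≤ ρ) (hlt : ρ ≤ ρ') (hD : ρ' ≤ D)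
    {X : ℝ≥0∞} (hX : X ≠ ⊤) (h : ∫⁻ r in Icc (-D) D, sn i k (cut (shell ρ ρ') F) r ≤ X) :
    (∫ r in ρ..ρ', (slN i k ρ' F r + slN i k ρ' F (-r))) ≤ 2 * X.toReal := by
  have hc := continuous_slN i hk ρ' hFc
  have key : ∀ a b : ℝ, a ≤ b → Icc a b ⊆ Icc (-D) D → (∀ r ∈ Icc a b, ρ ≤ |r| ∧ |r| ≤ ρ') →
      (∫ r in a..b, slN i k ρ' F r) ≤ X.toReal := by
    intro a b hab hsub hr
    rw [intervalIntegral.integral_of_le hab, ← integral_Icc_eq_integral_Ioc,
      ← ENNReal.ofReal_le_iff_le_toReal hX, ofReal_integral_eq_lintegral_ofReal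
        (hc.continuousOn.integrableOn_compact isCompact_Icc)
        (Eventually.of_forall (slN_nonneg i k ρ' hF))]
    exact ((setLIntegral_mono' measurableSet_Icc fun r hr' =>
      ofReal_slN_le i hk hFc hF (hr r hr').1 (hr r hr').2).trans
        (lintegral_mono_set hsub)).trans h
  rw [intervalIntegral.integral_add (hc.intervalIntegrable _ _)
    ((show Continuous fun r => slN i k ρ' F (-r) from hc.comp continuous_neg).intervalIntegrable _ _),
    intervalIntegral.integral_comp_neg]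
  have e1 := key ρ ρ' hlt (Icc_subset_Icc (by linarith) hD) fun r hr => by
    rw [abs_of_nonneg (hρ.trans hr.1)]; exact hr
  have e2 := key (-ρ') (-ρ) (by linarith) (Icc_subset_Icc (by linarith) (by linarith)) fun r hr => by
    rw [abs_of_nonpos (by linarith [hr.2])]; exact ⟨by linarith [hr.2], by linarith [hr.1]⟩
  linarith

lemma integral_rpow_mul_rpow_le {n : ℕ} {F G : Euc n → ℝ} (hFc : Continuous F) (hGc : Continuous G)
    (hF : ∀ x, 0 ≤ F x) (hG : ∀ x, 0 ≤ G x) {s : Set (Euc n)} (hs : IsCompact s) {α β : ℝ}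
    (hα : 0 ≤ α) (hβ : 0 ≤ β) (hab : α + β = 1) :
    ∫ x in s, F x ^ α * G x ^ β ≤ (∫ x in s, F x) ^ α * (∫ x in s, G x) ^ β := by
  have hc : Continuous fun x => F x ^ α * G x ^ β :=
    (hFc.rpow_const fun _ => Or.inr hα).mul (hGc.rpow_const fun _ => Or.inr hβ)
  have h0 : ∀ x, 0 ≤ F x ^ α * G x ^ β := fun x =>
    mul_nonneg (Real.rpow_nonneg (hF x) _) (Real.rpow_nonneg (hG x) _)
  have i1 : 0 ≤ ∫ x in s, F x := integral_nonneg hF
  have i2 : 0 ≤ ∫ x in s, G x := integral_nonneg hG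
  rw [← ENNReal.ofReal_le_ofReal_iff (by positivity),
    ENNReal.ofReal_mul (Real.rpow_nonneg i1 _), ← ENNReal.ofReal_rpow_of_nonneg i1 hα,
    ← ENNReal.ofReal_rpow_of_nonneg i2 hβ,
    ofReal_integral_eq_lintegral_ofReal (hc.continuousOn.integrableOn_compact hs)
      (Eventually.of_forall h0),
    ofReal_integral_eq_lintegral_ofReal (hFc.continuousOn.integrableOn_compact hs)
      (Eventually.of_forall hF),
    ofReal_integral_eq_lintegral_ofReal (hGc.continuousOn.integrableOn_compact hs)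
      (Eventually.of_forall hG)]
  refine le_trans (le_of_eq (lintegral_congr fun x => ?_))
    (ENNReal.lintegral_mul_norm_pow_le hFc.measurable.ennreal_ofReal.aemeasurable
      hGc.measurable.ennreal_ofReal.aemeasurable hα hβ hab)
  rw [ENNReal.ofReal_mul (Real.rpow_nonneg (hF x) _), ← ENNReal.ofReal_rpow_of_nonneg (hF x) hα,
    ← ENNReal.ofReal_rpow_of_nonneg (hG x) hβ]

/-- The energy on one slice. -/
lemma slice_energy {p q : ℝ} (hq : 0 < q) (hq1 : q ≤ 1) (E : Expo m p q) {K : ℝ} (hK : 0 ≤ K)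
    (i : Fin (m + 1)) {ρ r S P : ℝ} {U J1 J2 : Euc (m + 1) → ℝ}
    (hUc : Continuous U) (h1c : Continuous J1) (h2c : Continuous J2)
    (hU : ∀ x, 0 ≤ U x) (h1 : ∀ x, 0 ≤ J1 x) (h2 : ∀ x, 0 ≤ J2 x) (hS : 0 ≤ S) (hP : 1 ≤ P)
    (b0 : slN i E.k0 ρ U r ≤ S) (b1 : slN i E.k1 ρ U r ≤ P * S)
    (b2 : slN i E.a ρ J1 r ≤ P * S) (b3 : slN i E.a' ρ J2 r ≤ S) :
    ∫ z in (cube ρ : Set (Euc m)),
        ((1 + K) * U (ins i r z) ^ (q + 1) + J1 (ins i r z) * J2 (ins i r z))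
      ≤ (2 + K) * P ^ (max E.B 1) * (1 + S) ^ 2 := by
  set s : Set (Euc m) := cube ρ
  have hs : IsCompact s := isCompact_cube ρ
  set g := fun z => U (ins i r z)
  set g1 := fun z => J1 (ins i r z)
  set g2 := fun z => J2 (ins i r z)
  have hgc : Continuous g := continuous_slice i hUc r
  have hg1c : Continuous g1 := continuous_slice i h1c r
  have hg2c : Continuous g2 := continuous_slice i h2c r
  have hk0 : (0 : ℝ) < E.k0 := by linarith [E.k0_ge]
  have hk1 : (0 : ℝ) < E.k1 := by linarith [E.k1_ge]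
  have ha : (0 : ℝ) < E.a := by linarith [E.a_ge]
  have ha' : (0 : ℝ) < E.a' := by linarith [E.a'_ge]
  have hA := E.A_nonneg
  have hB := E.B_nonneg
  have hP0 : 0 ≤ P := by linarith
  have cu : Continuous fun z => g z ^ (q + 1) := hgc.rpow_const fun _ => Or.inr (by linarith)
  have hu : ∫ z in s, g z ^ (q + 1) ≤ P ^ (max E.B 1) * (1 + S) ^ 2 := by
    have e := integral_rpow_mul_rpow_le (F := fun z => g z ^ E.k0) (G := fun z => g z ^ E.k1)
      (hgc.rpow_const fun _ => Or.inr hk0.le) (hgc.rpow_const fun _ => Or.inr hk1.le)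
      (fun z => Real.rpow_nonneg (hU _) _) (fun z => Real.rpow_nonneg (hU _) _) hs
      (div_nonneg hA hk0.le) (div_nonneg hB hk1.le) E.holder
    have e' : ∀ z, (g z ^ E.k0) ^ (E.A / E.k0) * (g z ^ E.k1) ^ (E.B / E.k1) = g z ^ (q + 1) := by
      intro z
      rw [← Real.rpow_mul (hU _), ← Real.rpow_mul (hU _), mul_div_cancel₀ _ hk0.ne',
        mul_div_cancel₀ _ hk1.ne', ← Real.rpow_add_of_nonneg (hU _) hA hB, E.sum_eq]
    simp only [e'] at e
    have n0 : (∫ z in s, g z ^ E.k0) ^ (E.A / E.k0) = slN i E.k0 ρ U r ^ E.A := by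
      rw [slN, ← Real.rpow_mul (integral_nonneg fun _ => Real.rpow_nonneg (hU _) _), one_div_mul_eq_div]
    have n1 : (∫ z in s, g z ^ E.k1) ^ (E.B / E.k1) = slN i E.k1 ρ U r ^ E.B := by
      rw [slN, ← Real.rpow_mul (integral_nonneg fun _ => Real.rpow_nonneg (hU _) _), one_div_mul_eq_div]
    rw [n0, n1] at e
    refine e.trans ?_
    calc slN i E.k0 ρ U r ^ E.A * slN i E.k1 ρ U r ^ E.B
        ≤ (1 + S) ^ E.A * (P * (1 + S)) ^ E.B := by
          refine mul_le_mul (Real.rpow_le_rpow (slN_nonneg _ _ _ hU _) (by linarith) hA)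
            (Real.rpow_le_rpow (slN_nonneg _ _ _ hU _) ?_ hB)
            (Real.rpow_nonneg (slN_nonneg _ _ _ hU _) _) (Real.rpow_nonneg (by linarith) _)
          exact b1.trans (mul_le_mul_of_nonneg_left (by linarith) hP0)
      _ = P ^ E.B * (1 + S) ^ (q + 1) := by
          rw [Real.mul_rpow hP0 (by linarith), ← E.sum_eq,
            Real.rpow_add (show 0 < 1 + S by linarith)]
          ring
      _ ≤ P ^ (max E.B 1) * (1 + S) ^ (2 : ℝ) :=
          mul_le_mul (Real.rpow_le_rpow_of_exponent_le hP (le_max_left _ _))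
            (Real.rpow_le_rpow_of_exponent_le (by linarith) (by linarith))
            (Real.rpow_nonneg (by linarith) _) (Real.rpow_nonneg hP0 _)
      _ = _ := by rw [Real.rpow_two]
  have hj : ∫ z in s, g1 z * g2 z ≤ P ^ (max E.B 1) * (1 + S) ^ 2 := by
    have e := integral_rpow_mul_rpow_le (F := fun z => g1 z ^ E.a) (G := fun z => g2 z ^ E.a')
      (hg1c.rpow_const fun _ => Or.inr ha.le) (hg2c.rpow_const fun _ => Or.inr ha'.le)
      (fun z => Real.rpow_nonneg (h1 _) _) (fun z => Real.rpow_nonneg (h2 _) _) hs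
      (one_div_nonneg.2 ha.le) (one_div_nonneg.2 ha'.le)
      (by simpa [one_div] using E.conj.inv_add_inv_eq_one)
    have e' : ∀ z, (g1 z ^ E.a) ^ (1 / E.a) * (g2 z ^ E.a') ^ (1 / E.a') = g1 z * g2 z := by
      intro z
      rw [← Real.rpow_mul (h1 _), ← Real.rpow_mul (h2 _), mul_one_div_cancel ha.ne',
        mul_one_div_cancel ha'.ne', Real.rpow_one, Real.rpow_one]
    simp only [e'] at e
    refine e.trans ?_
    calc slN i E.a ρ J1 r * slN i E.a' ρ J2 r ≤ (P * S) * S :=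
          mul_le_mul b2 b3 (slN_nonneg _ _ _ h2 _) (by positivity)
      _ ≤ P ^ (max E.B 1) * (1 + S) ^ 2 := by
          rw [mul_assoc]
          refine mul_le_mul ?_ (by nlinarith) (by positivity) (Real.rpow_nonneg hP0 _)
          exact Real.self_le_rpow_of_one_le hP (le_max_right _ _)
  show ∫ z in s, ((1 + K) * g z ^ (q + 1) + g1 z * g2 z) ≤ _
  rw [integral_add ((cu.continuousOn.integrableOn_compact hs).const_mul (1 + K))
    ((show Continuous fun z => g1 z * g2 z from hg1c.mul hg2c).continuousOn.integrableOn_compact hs),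
    integral_const_mul]
  have := mul_le_mul_of_nonneg_left hu (show 0 ≤ 1 + K by linarith)
  linarith

/-- The sum of the normalised slice norms on the two opposite faces. -/
def slS {p q : ℝ} (E : Expo m p q) (ρ P : ℝ) (U J1 J2 : Euc (m + 1) → ℝ) (r : ℝ) : ℝ :=
  ∑ i : Fin (m + 1),
    ((slN i E.k0 ρ U r + slN i E.k0 ρ U (-r)) +
    (slN i E.k1 ρ U r + slN i E.k1 ρ U (-r)) / P +
    (slN i E.a ρ J1 r + slN i E.a ρ J1 (-r)) / P +
    (slN i E.a' ρ J2 r + slN i E.a' ρ J2 (-r)))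

lemma slS_term_nonneg {p q : ℝ} (E : Expo m p q) {ρ P : ℝ} (hP : 0 ≤ P)
    {U J1 J2 : Euc (m + 1) → ℝ} (hU : ∀ x, 0 ≤ U x) (h1 : ∀ x, 0 ≤ J1 x) (h2 : ∀ x, 0 ≤ J2 x)
    (i : Fin (m + 1)) (r : ℝ) :
    0 ≤ (slN i E.k0 ρ U r + slN i E.k0 ρ U (-r)) +
    (slN i E.k1 ρ U r + slN i E.k1 ρ U (-r)) / P +
    (slN i E.a ρ J1 r + slN i E.a ρ J1 (-r)) / P +
    (slN i E.a' ρ J2 r + slN i E.a' ρ J2 (-r)) :=
  add_nonneg (add_nonneg (add_nonneg
    (add_nonneg (slN_nonneg _ _ _ hU _) (slN_nonneg _ _ _ hU _))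
    (div_nonneg (add_nonneg (slN_nonneg _ _ _ hU _) (slN_nonneg _ _ _ hU _)) hP))
    (div_nonneg (add_nonneg (slN_nonneg _ _ _ h1 _) (slN_nonneg _ _ _ h1 _)) hP))
    (add_nonneg (slN_nonneg _ _ _ h2 _) (slN_nonneg _ _ _ h2 _))

lemma slS_nonneg {p q : ℝ} (E : Expo m p q) {ρ P : ℝ} (hP : 0 ≤ P)
    {U J1 J2 : Euc (m + 1) → ℝ} (hU : ∀ x, 0 ≤ U x) (h1 : ∀ x, 0 ≤ J1 x) (h2 : ∀ x, 0 ≤ J2 x)
    (r : ℝ) : 0 ≤ slS E ρ P U J1 J2 r :=
  Finset.sum_nonneg fun i _ => slS_term_nonneg E hP hU h1 h2 i r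

lemma continuous_slS {p q : ℝ} (E : Expo m p q) (ρ P : ℝ) {U J1 J2 : Euc (m + 1) → ℝ}
    (hU : Continuous U) (h1 : Continuous J1) (h2 : Continuous J2) :
    Continuous (slS E ρ P U J1 J2) :=
  continuous_finsetSum _ fun i _ => by
    have c0 := continuous_slN i E.k0_ge ρ hU
    have c1 := continuous_slN i E.k1_ge ρ hU
    have c2 := continuous_slN i E.a_ge ρ h1
    have c3 := continuous_slN i E.a'_ge ρ h2
    fun_prop

lemma integral_slS_le {p q : ℝ} (E : Expo m p q) {ρ ρ' D P A B : ℝ} (hρ : 0 ≤ ρ) (hlt : ρ ≤ ρ')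
    (hD : ρ' ≤ D) (hP : 0 < P) {U J1 J2 : Euc (m + 1) → ℝ}
    (hUc : Continuous U) (h1c : Continuous J1) (h2c : Continuous J2)
    (hU : ∀ x, 0 ≤ U x) (h1 : ∀ x, 0 ≤ J1 x) (h2 : ∀ x, 0 ≤ J2 x)
    {X Y : ℝ≥0∞} (hX : X ≠ ⊤) (hY : Y ≠ ⊤) (hA : X.toReal ≤ A) (hB : Y.toReal ≤ P * B)
    (b0 : ∀ i, ∫⁻ r in Icc (-D) D, sn i E.k0 (cut (shell ρ ρ') U) r ≤ X)
    (b1 : ∀ i, ∫⁻ r in Icc (-D) D, sn i E.k1 (cut (shell ρ ρ') U) r ≤ Y)
    (b2 : ∀ i, ∫⁻ r in Icc (-D) D, sn i E.a (cut (shell ρ ρ') J1) r ≤ Y)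
    (b3 : ∀ i, ∫⁻ r in Icc (-D) D, sn i E.a' (cut (shell ρ ρ') J2) r ≤ X) :
    (∫ r in ρ..ρ', slS E ρ' P U J1 J2 r) ≤ (m + 1 : ℝ) * (4 * A + 4 * B) := by
  have hcont : ∀ i, ∀ k : ℝ, 1 ≤ k → ∀ F : Euc (m + 1) → ℝ, Continuous F →
      Continuous fun r => slN i k ρ' F r + slN i k ρ' F (-r) := fun i k hk F hF => by
    have := continuous_slN i hk ρ' hF
    fun_prop
  unfold slS
  rw [intervalIntegral.integral_finsetSum fun i _ => ?_]
  · refine (Finset.sum_le_card_nsmul _ _ (4 * A + 4 * B) fun i _ => ?_).trans (le_of_eq (by simp; ring))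
    have x0 := integral_slN_le i E.k0_ge hUc hU hρ hlt hD hX (b0 i)
    have x1 := integral_slN_le i E.k1_ge hUc hU hρ hlt hD hY (b1 i)
    have x2 := integral_slN_le i E.a_ge h1c h1 hρ hlt hD hY (b2 i)
    have x3 := integral_slN_le i E.a'_ge h2c h2 hρ hlt hD hX (b3 i)
    have c0 := (hcont i _ E.k0_ge U hUc).intervalIntegrable (μ := volume) ρ ρ'
    have c1 := ((hcont i _ E.k1_ge U hUc).intervalIntegrable (μ := volume) ρ ρ').div_const P
    have c2 := ((hcont i _ E.a_ge J1 h1c).intervalIntegrable (μ := volume) ρ ρ').div_const P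
    have c3 := (hcont i _ E.a'_ge J2 h2c).intervalIntegrable (μ := volume) ρ ρ'
    rw [intervalIntegral.integral_add ((c0.add c1).add c2) c3,
      intervalIntegral.integral_add (c0.add c1) c2, intervalIntegral.integral_add c0 c1,
      intervalIntegral.integral_div, intervalIntegral.integral_div]
    have hb : ∀ y, y ≤ 2 * Y.toReal → y / P ≤ 2 * B := fun y hy => by
      rw [div_le_iff₀ hP]; linarith
    have := hb _ x1
    have := hb _ x2
    linarith
  · exact ((((hcont i _ E.k0_ge U hUc).add ((hcont i _ E.k1_ge U hUc).div_const P)).add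
      ((hcont i _ E.a_ge J1 h1c).div_const P)).add (hcont i _ E.a'_ge J2 h2c)).intervalIntegrable _ _

lemma slN_le_slS {p q : ℝ} (E : Expo m p q) {ρ P : ℝ} (hP : 0 < P)
    {U J1 J2 : Euc (m + 1) → ℝ} (hU : ∀ x, 0 ≤ U x) (h1 : ∀ x, 0 ≤ J1 x) (h2 : ∀ x, 0 ≤ J2 x)
    (i : Fin (m + 1)) (r : ℝ) :
    slN i E.k0 ρ U r ≤ slS E ρ P U J1 J2 |r| ∧ slN i E.k1 ρ U r ≤ P * slS E ρ P U J1 J2 |r| ∧
    slN i E.a ρ J1 r ≤ P * slS E ρ P U J1 J2 |r| ∧ slN i E.a' ρ J2 r ≤ slS E ρ P U J1 J2 |r| := by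
  have hle : ∀ f : ℝ → ℝ, (∀ t, 0 ≤ f t) → f r ≤ f |r| + f (-|r|) := fun f hf => by
    rcases abs_choice r with h | h <;> rw [h]
    · linarith [hf (-r)]
    · rw [neg_neg]; linarith [hf (-r)]
  have hS := Finset.single_le_sum
    (fun j _ => slS_term_nonneg E (ρ := ρ) hP.le hU h1 h2 j |r|) (Finset.mem_univ i)
  change _ ≤ slS E ρ P U J1 J2 |r| at hS
  have a0 : ∀ t, 0 ≤ slN i E.k0 ρ U t := slN_nonneg _ _ _ hU
  have a1 : ∀ t, 0 ≤ slN i E.k1 ρ U t := slN_nonneg _ _ _ hU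
  have a2 : ∀ t, 0 ≤ slN i E.a ρ J1 t := slN_nonneg _ _ _ h1
  have a3 : ∀ t, 0 ≤ slN i E.a' ρ J2 t := slN_nonneg _ _ _ h2
  have e0 := hle _ a0
  have e1 := div_le_div_of_nonneg_right (hle _ a1) hP.le
  have e2 := div_le_div_of_nonneg_right (hle _ a2) hP.le
  have e3 := hle _ a3
  have g1 := div_nonneg (a1 r) hP.le
  have g2 := div_nonneg (a2 r) hP.le
  have := a0 r
  have := a3 r
  refine ⟨by linarith, ?_, ?_, by linarith⟩ <;> rw [← div_le_iff₀' hP] <;> linarith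

lemma slice_decomp (i : Fin (m + 1)) {ρ' : ℝ} (hρ' : 0 ≤ ρ') {w : ℝ → ℝ} (hwc : Continuous w)
    (hw0 : ∀ r, 0 ≤ w r) {G : Euc (m + 1) → ℝ} (hGc : Continuous G) (hG : ∀ x, 0 ≤ G x)
    {W : ℝ} (hW : ∀ r, |r| ≤ ρ' → w |r| * (∫ z in (cube ρ' : Set (Euc m)), G (ins i r z)) ≤ W) :
    (∫ x, (cube ρ' : Set (Euc (m + 1))).indicator (fun x => w |x i| * G x) x) ≤ 2 * ρ' * W := by
  have hci : Continuous fun x : Euc (m + 1) => w |x i| * G x :=
    (hwc.comp (continuous_abs.comp (EuclideanSpace.proj (𝕜 := ℝ) i).continuous)).mul hGc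
  rw [integral_ins i ((hci.continuousOn.integrableOn_compact (isCompact_cube ρ')).integrable_indicator
    (measurableSet_cube ρ'))]
  have hW' : ∀ r, (∫ z : Euc m, (cube ρ' : Set (Euc (m + 1))).indicator
      (fun x => w |x i| * G x) (ins i r z)) ≤ (Icc (-ρ') ρ').indicator (fun _ => W) r := by
    intro r
    by_cases hr : |r| ≤ ρ'
    · rw [indicator_of_mem (show r ∈ Icc (-ρ') ρ' from abs_le.1 hr)]
      refine le_of_eq_of_le ?_ (hW r hr)
      rw [← integral_indicator (measurableSet_cube ρ'), ← integral_const_mul]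
      refine integral_congr_ae (Eventually.of_forall fun z => ?_)
      by_cases hz : z ∈ cube ρ'
      · simp [indicator_of_mem hz, indicator_of_mem (ins_mem_cube.2 ⟨hr, hz⟩)]
      · simp [indicator_of_notMem hz,
          indicator_of_notMem (fun h => hz (ins_mem_cube (i := i) (r := r).1 h).2)]
    · rw [indicator_of_notMem (fun h : r ∈ Icc (-ρ') ρ' => hr (abs_le.2 h))]
      exact le_of_eq (integral_eq_zero_of_ae (Eventually.of_forall fun z =>
        indicator_of_notMem (fun h => hr (ins_mem_cube.1 h).1) _))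
  refine (integral_mono_of_nonneg (Eventually.of_forall fun r => integral_nonneg fun z =>
    indicator_nonneg (fun x _ => mul_nonneg (hw0 _) (hG x)) _)
    ((integrable_indicator_iff measurableSet_Icc).2 (integrableOn_const (by simp)))
    (Eventually.of_forall hW')).trans (le_of_eq ?_)
  rw [integral_indicator_const W measurableSet_Icc]
  simp [Real.volume_real_Icc, show (0:ℝ) ≤ 2 * ρ' by linarith, two_mul, hρ']

end Slices

section Final

variable {n : ℕ}

lemma souplet (hn : 3 ≤ n) {p q : ℝ} (hq : 0 < q) (hqp : q ≤ p) (hpq : 1 < p * q)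
    {u v : Euc n → ℝ} (hs : IsPositiveEntireSolution p q u v) {x : Euc n} (hx : x ≠ 0) :
    v x ^ (p + 1) ≤ (p + 1) / (q + 1) * u x ^ (q + 1) := by
  have h := tauf_le hn hq hqp hpq hs hx
  obtain ⟨-, -, -, -, hup, hvp, -⟩ := hs
  have hK : 0 < (p + 1) / (q + 1) := div_pos (by linarith) (by linarith)
  rw [← Real.log_le_log_iff (Real.rpow_pos_of_pos (hvp x) _)
    (mul_pos hK (Real.rpow_pos_of_pos (hup x) _)),
    Real.log_mul hK.ne' (Real.rpow_pos_of_pos (hup x) _).ne', Real.log_rpow (hvp x),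
    Real.log_rpow (hup x)]
  simp only [tauf] at h
  linarith

/-- The product cut-off attached to a profile. -/
lemma box_cutoff {χ : ℝ → ℝ} {w : ℝ → ℝ} {ρ ρ' : ℝ} (hρ : 0 < ρ) (hχ : ContDiff ℝ 1 χ)
    (h01 : ∀ s, 0 ≤ χ s ∧ χ s ≤ 1) (hone : ∀ s, |s| ≤ ρ → χ s = 1)
    (hzero : ∀ s, ρ' ≤ |s| → χ s = 0) (hd : ∀ s, |deriv χ s| ≤ w |s|) :
    ContDiff ℝ 1 (fun x : Euc n => ∏ i, χ (x i)) ∧
    HasCompactSupport (fun x : Euc n => ∏ i, χ (x i)) ∧
    (∀ x : Euc n, 0 ≤ ∏ i, χ (x i)) ∧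
    (∀ x ∈ (cube ρ : Set (Euc n)), ∏ i, χ (x i) = 1) ∧
    (∀ᶠ x in 𝓝 (0 : Euc n), fderiv ℝ (fun x : Euc n => ∏ i, χ (x i)) x = 0) ∧
    (∀ x : Euc n, fderiv ℝ (fun x : Euc n => ∏ i, χ (x i)) x ≠ 0 → x ∈ cube ρ') ∧
    ∀ x : Euc n, ‖fderiv ℝ (fun x : Euc n => ∏ i, χ (x i)) x‖ ≤ ∑ i, w |x i| := by
  set ζ := fun x : Euc n => ∏ i, χ (x i) with hζ
  have hone' : ∀ x ∈ (cube ρ : Set (Euc n)), ζ x = 1 := fun x hx =>
    Finset.prod_eq_one fun i _ => hone _ (hx i)
  have hts : tsupport ζ ⊆ cube ρ' := by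
    refine closure_minimal (fun x hx j => ?_) (isClosed_cube ρ')
    by_contra hc
    exact hx (Finset.prod_eq_zero (Finset.mem_univ j) (hzero _ (le_of_lt (not_le.1 hc))))
  refine ⟨?_, (isCompact_cube ρ').of_isClosed_subset (isClosed_tsupport _) hts,
    fun x => Finset.prod_nonneg fun i _ => (h01 _).1, hone', ?_,
    fun x hx => hts (support_fderiv_subset ℝ hx), fun x => ?_⟩
  · exact contDiff_prod fun i _ => hχ.comp (EuclideanSpace.proj (𝕜 := ℝ) i).contDiff
  · filter_upwards [Metric.ball_mem_nhds (0 : Euc n) hρ] with y hy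
    have he : ζ =ᶠ[𝓝 y] fun _ => (1 : ℝ) := by
      filter_upwards [Metric.isOpen_ball.mem_nhds hy] with z hz
      exact hone' z fun i => (abs_apply_le_norm z i).trans (mem_ball_zero_iff.1 hz).le
    rw [he.fderiv_eq]; simp
  · have hder : HasFDerivAt ζ (∑ i, (∏ j ∈ Finset.univ.erase i, χ (x j)) •
        (deriv χ (x i) • (EuclideanSpace.proj (𝕜 := ℝ) i : Euc n →L[ℝ] ℝ))) x :=
      HasFDerivAt.finsetProd fun i _ =>
        ((hχ.differentiable one_ne_zero).differentiableAt.hasDerivAt).comp_hasFDerivAt x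
          ((EuclideanSpace.proj (𝕜 := ℝ) i).hasFDerivAt)
    rw [hder.fderiv]
    refine (norm_sum_le _ _).trans (Finset.sum_le_sum fun i _ => ?_)
    rw [norm_smul, norm_smul, Real.norm_eq_abs, Real.norm_eq_abs,
      abs_of_nonneg (Finset.prod_nonneg fun j _ => (h01 _).1)]
    have h1 : ‖(EuclideanSpace.proj (𝕜 := ℝ) i : Euc n →L[ℝ] ℝ)‖ ≤ 1 :=
      ContinuousLinearMap.opNorm_le_bound _ zero_le_one fun y => by
        simpa using abs_apply_le_norm y i
    calc _ ≤ 1 * (w |x i| * 1) :=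
          mul_le_mul (Finset.prod_le_one (fun j _ => (h01 _).1) fun j _ => (h01 _).2)
            (mul_le_mul (hd _) h1 (norm_nonneg _) ((abs_nonneg _).trans (hd _)))
            (by positivity) zero_le_one
      _ = _ := by ring

/-- The boundary term of the Pohozaev inequality. -/
lemma boundary_term {m : ℕ} {ρ ρ' : ℝ} (hρ : 1 ≤ ρ) (hρ' : ρ ≤ ρ') (hρ'2 : ρ' ≤ 2) {K q p : ℝ}
    (hK : 0 ≤ K) (hq : 0 ≤ q) {u v : Euc (m + 1) → ℝ} (hu2 : ContDiffOn ℝ 2 u {x | x ≠ 0})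
    (hv2 : ContDiffOn ℝ 2 v {x | x ≠ 0}) (hup : ∀ x, 0 < u x) (hvp : ∀ x, 0 < v x)
    (hsoup : ∀ x, x ≠ 0 → v x ^ (p + 1) ≤ K * u x ^ (q + 1))
    {w : ℝ → ℝ} (hwc : Continuous w) (hw0 : ∀ r, 0 ≤ w r)
    (hwz : ∀ r, r ∉ Set.Ioo ρ ρ' → w r = 0) {ζ : Euc (m + 1) → ℝ}
    (hsupp : ∀ x, fderiv ℝ ζ x ≠ 0 → x ∈ cube ρ')
    (hζd : ∀ x, ‖fderiv ℝ ζ x‖ ≤ ∑ i, w |x i|) {W : ℝ} (hW0 : 0 ≤ W)
    (hW : ∀ i r, w |r| * (∫ z in (cube ρ' : Set (Euc m)),
      ((1 + K) * ext u (ins i r z) ^ (q + 1) + jet (ext u) (ins i r z) * jet (ext v) (ins i r z))) ≤ W) :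
    ∫ x, ‖fderiv ℝ ζ x‖ * (u x ^ (q + 1) + v x ^ (p + 1) +
      (u x + ‖fderiv ℝ u x‖) * (v x + ‖fderiv ℝ v x‖)) ≤ (m + 1 : ℝ) * (4 * W) := by
  set G := fun x => u x ^ (q + 1) + v x ^ (p + 1) +
    (u x + ‖fderiv ℝ u x‖) * (v x + ‖fderiv ℝ v x‖) with hG
  set G1 := fun x => (1 + K) * ext u x ^ (q + 1) + jet (ext u) x * jet (ext v) x with hG1
  have hG0 : ∀ x, 0 ≤ G x := fun x =>
    add_nonneg (add_nonneg (Real.rpow_nonneg (hup x).le _) (Real.rpow_nonneg (hvp x).le _))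
      (mul_nonneg (add_nonneg (hup x).le (norm_nonneg _)) (add_nonneg (hvp x).le (norm_nonneg _)))
  have hG1c : Continuous G1 :=
    (((contDiff_ext hu2).continuous.rpow_const fun x => Or.inr (by linarith)).const_mul _).add
      ((continuous_jet (contDiff_ext hu2)).mul (continuous_jet (contDiff_ext hv2)))
  have hG10 : ∀ x, 0 ≤ G1 x := fun x =>
    add_nonneg (mul_nonneg (by linarith) (Real.rpow_nonneg (ext_pos hup x).le _))
      (mul_nonneg (jet_nonneg (fun y => (ext_pos hup y).le) x)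
        (jet_nonneg (fun y => (ext_pos hvp y).le) x))
  have hci : ∀ i, Integrable ((cube ρ' : Set (Euc (m + 1))).indicator fun x => w |x i| * G1 x) :=
    fun i => (((hwc.comp (continuous_abs.comp (EuclideanSpace.proj (𝕜 := ℝ) i).continuous)).mul
      hG1c).continuousOn.integrableOn_compact (isCompact_cube ρ')).integrable_indicator
      (measurableSet_cube ρ')
  refine (integral_mono_of_nonneg (Eventually.of_forall fun x => mul_nonneg (norm_nonneg _) (hG0 x))
    (integrable_finsetSum Finset.univ fun i _ => hci i) (Eventually.of_forall fun x => ?_)).trans ?_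
  · show ‖fderiv ℝ ζ x‖ * G x ≤ ∑ i, _
    by_cases hx : fderiv ℝ ζ x = 0
    · rw [hx, norm_zero, zero_mul]
      exact Finset.sum_nonneg fun i _ => indicator_nonneg (fun y _ => mul_nonneg (hw0 _) (hG10 y)) _
    · have hxc := hsupp x hx
      refine (mul_le_mul_of_nonneg_right (hζd x) (hG0 x)).trans ?_
      rw [Finset.sum_mul]
      refine Finset.sum_le_sum fun i _ => ?_
      rw [indicator_of_mem hxc]
      by_cases hwi : w |x i| = 0
      · simp [hwi]
      · have hi : ρ < |x i| := by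
          by_contra hc
          exact hwi (hwz _ fun hmem => hc hmem.1)
        have hx4 : 1 / 4 < ‖x‖ := by linarith [abs_apply_le_norm x i]
        have hx0 : x ≠ 0 := by rintro rfl; simp at hx4; linarith
        refine mul_le_mul_of_nonneg_left ?_ (hw0 _)
        simp only [hG, hG1, jet, ext_eq hx4, fderiv_ext hx4]
        linarith [hsoup x hx0]
  · rw [integral_finsetSum _ fun i _ => hci i]
    refine (Finset.sum_le_card_nsmul _ _ (4 * W) fun i _ => ?_).trans (le_of_eq (by simp))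
    exact (slice_decomp i (by linarith) hwc hw0 hG1c hG10 fun r _ => hW i r).trans
      (mul_le_mul_of_nonneg_right (by linarith) hW0)

/-- Total mass on a cube. -/
def mass (p q : ℝ) (u v : Euc n → ℝ) (ρ : ℝ) : ℝ :=
  ∫ x in (cube ρ : Set (Euc n)), (v x ^ (p + 1) + u x ^ (q + 1))

theorem recursion {m : ℕ} (hm : 4 ≤ m) {p q : ℝ} (hp : 0 < p) (hq : 0 < q) (hq1 : q ≤ 1)
    (hqp : q ≤ p) (hpq : 1 < p * q)
    (hsub : ((m + 1 : ℕ) : ℝ) - 2 < (m + 1 : ℕ) / (p + 1) + (m + 1 : ℕ) / (q + 1))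
    (E : Expo m p q) :
    ∃ C : ℝ, 0 ≤ C ∧ ∀ u v : Euc (m + 1) → ℝ, IsPositiveEntireSolution p q u v →
      ∀ ρ ∈ Ico (1 : ℝ) 2, 1 + mass p q u v ρ ≤ C * ((2 - ρ) / 2) ^ (-((2 * m + 15 : ℕ) : ℝ)) *
        (1 + mass p q u v (ρ + (2 - ρ) / 2)) ^ ((p / (p + 1)) * max E.B 1) := by
  obtain ⟨C1, hC1, hsn⟩ := slice_norms hm hp hq hq1 hpq E
  obtain ⟨CP, hPoh⟩ := pohozaev (n := m + 1) (by omega) hp hq
  set κ : ℝ := ((m + 1 : ℕ) : ℝ) / (p + 1) + (m + 1 : ℕ) / (q + 1) - (((m + 1 : ℕ) : ℝ) - 2)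
    with hκd
  have hκ : 0 < κ := by rw [hκd]; linarith
  set D : ℝ := 4 * (m + 1 : ℝ) with hD
  set K : ℝ := (p + 1) / (q + 1) with hK
  have hK0 : 0 ≤ K := div_nonneg (by linarith) (by linarith)
  set C1' := C1.toReal with hC1'
  have hC10 : 0 ≤ C1' := ENNReal.toReal_nonneg
  set γ := max E.B 1
  set e := p / (p + 1) with he
  have he0 : 0 ≤ e := div_nonneg hp.le (by linarith)
  have hγ0 : 0 ≤ γ := le_trans zero_le_one (le_max_right _ _)
  set Q : ℝ := |CP| * (1 + D) * ((m + 1 : ℝ) * (4 * ((2 + K) *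
    ((1 + 12 * (m + 1 : ℝ) * C1') ^ 2 * (6 / 4 ^ 3) ^ 3)))) * 8 ^ (2 * m + 15) with hQ
  have hQ0 : 0 ≤ Q := by positivity
  refine ⟨1 + Q / κ, by positivity, fun u v hs ρ hρ => ?_⟩
  set h := (2 - ρ) / 2 with hh
  have hh0 : 0 < h := by linarith [hρ.2]
  have hh1 : h ≤ 1 / 2 := by linarith [hρ.1]
  set δ := h / 8 with hδd
  have hδ0 : 0 < δ := by linarith
  have hδ1 : δ ≤ 1 := by linarith
  have hρ1 := hρ.1
  set ρ' := ρ + 4 * δ with hρ'
  have hn3 : 3 ≤ m + 1 := by omega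
  have hsoup : ∀ x : Euc (m + 1), x ≠ 0 → v x ^ (p + 1) ≤ K * u x ^ (q + 1) :=
    fun x hx => souplet hn3 hq hqp hpq hs hx
  have hns := hsn u v hs ρ δ hρ1 hδ0 (by linarith) (by linarith)
  have hs' := hs
  obtain ⟨huc, hvc, hu2, hv2, hup, hvp, -⟩ := hs'
  set f := fun x => v x ^ (p + 1) + u x ^ (q + 1) with hf
  have hfc : Continuous f := (hvc.rpow_const fun x => Or.inl (hvp x).ne').add
    (huc.rpow_const fun x => Or.inl (hup x).ne')
  have hf0 : ∀ x, 0 ≤ f x := fun x =>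
    add_nonneg (Real.rpow_nonneg (hvp x).le _) (Real.rpow_nonneg (hup x).le _)
  set M1 := mass p q u v (ρ + h) with hM1
  have hM10 : 0 ≤ M1 := integral_nonneg hf0
  set P := (1 + M1) ^ e with hPd
  have hP1 : 1 ≤ P := Real.one_le_rpow (by linarith) he0
  have hP0 : 0 < P := by linarith
  set U := ext u
  set J1 := jet (ext u)
  set J2 := jet (ext v)
  have hUc : Continuous U := (contDiff_ext hu2).continuous
  have h1c : Continuous J1 := continuous_jet (contDiff_ext hu2)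
  have h2c : Continuous J2 := continuous_jet (contDiff_ext hv2)
  have hU0 : ∀ x, 0 ≤ U x := fun x => (ext_pos hup x).le
  have h10 : ∀ x, 0 ≤ J1 x := jet_nonneg hU0
  have h20 : ∀ x, 0 ≤ J2 x := jet_nonneg fun x => (ext_pos hvp x).le
  set d := (δ ^ (m + 3))⁻¹ with hd
  have hd1 : 1 ≤ d := (one_le_inv₀ (by positivity)).2 (pow_le_one₀ hδ0.le hδ1)
  set S := slS E ρ' P U J1 J2 with hSd
  have hSc : Continuous S := continuous_slS E ρ' P hUc h1c h2c
  have hS0 : ∀ r, 0 ≤ S r := slS_nonneg E hP0.le hU0 h10 h20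
  have hΦ : ∫⁻ y, cut (shell (ρ - 4 * δ) (ρ + 8 * δ)) (fun y => v y ^ (p + 1)) y
      ≤ ENNReal.ofReal M1 := by
    rw [hM1, mass, ofReal_integral_eq_lintegral_ofReal
      (hfc.continuousOn.integrableOn_compact (isCompact_cube _)) (Eventually.of_forall hf0),
      ← lintegral_indicator (measurableSet_cube _)]
    refine lintegral_mono fun y => ?_
    rw [show ρ + 8 * δ = ρ + h by rw [hδd]; ring, cut]
    by_cases hy : y ∈ shell (ρ - 4 * δ) (ρ + h)
    · rw [indicator_of_mem hy, indicator_of_mem (shell_subset_cube _ _ hy)]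
      exact ENNReal.ofReal_le_ofReal (le_add_of_nonneg_right (Real.rpow_nonneg (hup y).le _))
    · simp [indicator_of_notMem hy]
  set cc := ENNReal.ofReal d
  have hXt : C1 * (cc + ENNReal.ofReal P) ≠ ⊤ :=
    ENNReal.mul_ne_top hC1 (ENNReal.add_ne_top.2 ⟨ENNReal.ofReal_ne_top, ENNReal.ofReal_ne_top⟩)
  have hΦP : ∀ X : ℝ≥0∞, X ≤ ENNReal.ofReal M1 → C1 * (cc + X ^ e) ≤ C1 * (cc + ENNReal.ofReal P) :=
    fun X hX => by
      gcongr
      refine (ENNReal.rpow_le_rpow hX he0).trans ?_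
      rw [ENNReal.ofReal_rpow_of_nonneg hM10 he0]
      exact ENNReal.ofReal_le_ofReal (Real.rpow_le_rpow hM10 (by linarith) he0)
  have hρD : ρ' ≤ D := by
    have : (4 : ℝ) ≤ m := by exact_mod_cast hm
    rw [hD]; linarith
  have hSi : (∫ r in ρ..ρ', S r) ≤ 12 * (m + 1 : ℝ) * C1' * d := by
    refine (integral_slS_le E (A := C1' * d) (B := 2 * C1' * d) (by linarith) (by linarith) hρD hP0
      hUc h1c h2c hU0 h10 h20 (ENNReal.mul_ne_top hC1 ENNReal.ofReal_ne_top) hXt ?_ ?_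
      (fun i => (hns i).1) (fun i => (hns i).2.1.trans (hΦP _ hΦ))
      (fun i => (hns i).2.2.1.trans (hΦP _ hΦ)) (fun i => (hns i).2.2.2)).trans (le_of_eq (by ring))
    · rw [ENNReal.toReal_mul, ENNReal.toReal_ofReal (by positivity)]
    · rw [ENNReal.toReal_mul, ENNReal.toReal_add ENNReal.ofReal_ne_top ENNReal.ofReal_ne_top,
        ENNReal.toReal_ofReal (by positivity), ENNReal.toReal_ofReal hP0.le]
      have := mul_nonneg hC10 (mul_nonneg (sub_nonneg.2 hd1) hP0.le)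
      have := mul_nonneg hC10 (mul_nonneg (sub_nonneg.2 hP1) (zero_le_one.trans hd1))
      linarith
  obtain ⟨w, χ, hwc, hw0, hwz, hwb, hχ, h01, hone, hzero, hderiv⟩ :=
    exists_weight (M := 12 * (m + 1 : ℝ) * C1' * d) (show 0 < ρ by linarith)
      (show ρ < ρ' by linarith) (by linarith) (by positivity) 2 hSc hS0 hSi
  obtain ⟨hζ1, hζc, hζ0, hζone, hζnhd, hζsupp, hζd⟩ :=
    box_cutoff (n := m + 1) (show 0 < ρ by linarith) hχ h01 hone hzero hderiv
  set ζ := fun x : Euc (m + 1) => ∏ i, χ (x i)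
  set W := (2 + K) * P ^ γ * ((1 + 12 * (m + 1 : ℝ) * C1' * d) ^ 2 * (6 / (ρ' - ρ) ^ 3) ^ 3)
  have hW0 : 0 ≤ W := by
    have := sub_pos.2 (show ρ < ρ' by linarith)
    positivity
  have hZ := boundary_term (p := p) hρ1 (show ρ ≤ ρ' by linarith) (by linarith) hK0 hq.le hu2 hv2
    hup hvp hsoup hwc hw0 hwz hζsupp hζd hW0 fun i r => by
      obtain ⟨c0, c1, c2, c3⟩ := slN_le_slS E (ρ := ρ') hP0 hU0 h10 h20 i r
      refine (mul_le_mul_of_nonneg_left (slice_energy hq hq1 E hK0 i hUc h1c h2c hU0 h10 h20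
        (hS0 |r|) hP1 c0 c1 c2 c3) (hw0 _)).trans ?_
      calc w |r| * ((2 + K) * P ^ γ * (1 + S |r|) ^ 2)
          = (2 + K) * P ^ γ * (w |r| * (1 + S |r|) ^ 2) := by ring
        _ ≤ W := mul_le_mul_of_nonneg_left (hwb _) (by positivity)
  have hI0 : 0 ≤ ∫ x, ‖fderiv ℝ ζ x‖ * (u x ^ (q + 1) + v x ^ (p + 1) +
      (u x + ‖fderiv ℝ u x‖) * (v x + ‖fderiv ℝ v x‖)) := integral_nonneg fun x => by
    have := hup x; have := hvp x
    have := Real.rpow_nonneg (hup x).le (q + 1)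
    have := Real.rpow_nonneg (hvp x).le (p + 1)
    positivity
  have hmain := hPoh u v hs ζ D hζ1 hζc hζ0 hζnhd (by positivity) fun x hx => by
    rw [hD]
    exact_mod_cast cube_norm_le (show 0 ≤ ρ' by linarith) (by linarith) (hζsupp x hx)
  have hleft : κ * mass p q u v ρ ≤ |CP| * (1 + D) * ((m + 1 : ℝ) * (4 * W)) := by
    have hint : Integrable fun x => ζ x * f x :=
      (hζ1.continuous.mul hfc).integrable_of_hasCompactSupport hζc.mul_right
    have h1 : mass p q u v ρ ≤ ∫ x, ζ x * f x := by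
      rw [mass, ← integral_indicator (measurableSet_cube ρ)]
      refine integral_mono_of_nonneg (Eventually.of_forall fun x =>
        indicator_nonneg (fun y _ => hf0 y) x) hint (Eventually.of_forall fun x => ?_)
      by_cases hx : x ∈ cube ρ
      · simp [indicator_of_mem hx, ζ, hζone x hx, hf]
      · simpa [indicator_of_notMem hx] using mul_nonneg (hζ0 x) (hf0 x)
    refine ((mul_le_mul_of_nonneg_left h1 hκ.le).trans hmain).trans ?_
    refine mul_le_mul (mul_le_mul_of_nonneg_right (le_abs_self CP) (by positivity)) hZ hI0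
      (by positivity)
  have hW : W ≤ (2 + K) * P ^ γ * ((1 + 12 * (m + 1 : ℝ) * C1') ^ 2 * (6 / 4 ^ 3) ^ 3 *
      (δ ^ (2 * m + 15))⁻¹) := by
    refine mul_le_mul_of_nonneg_left ?_ (by positivity)
    have h1 : (1 + 12 * (m + 1 : ℝ) * C1' * d) ^ 2 ≤ ((1 + 12 * (m + 1 : ℝ) * C1') * d) ^ 2 := by
      gcongr; linarith
    have h2 : (6 / (ρ' - ρ) ^ 3) ^ 3 = (6 / 4 ^ 3) ^ 3 * (δ ^ 9)⁻¹ := by
      rw [show ρ' - ρ = 4 * δ by rw [hρ']; ring]
      field_simp
    rw [h2]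
    calc _ ≤ ((1 + 12 * (m + 1 : ℝ) * C1') * d) ^ 2 * ((6 / 4 ^ 3) ^ 3 * (δ ^ 9)⁻¹) :=
          mul_le_mul_of_nonneg_right h1 (by positivity)
      _ = _ := by
          rw [hd, show 2 * m + 15 = (m + 3) + (m + 3) + 9 by omega, pow_add, pow_add]
          field_simp
          ring
  have hδh : (δ ^ (2 * m + 15))⁻¹ = 8 ^ (2 * m + 15) * h ^ (-((2 * m + 15 : ℕ) : ℝ)) := by
    rw [Real.rpow_neg hh0.le, Real.rpow_natCast, hδd, div_pow]
    field_simp
  have hPγ : P ^ γ = (1 + M1) ^ (e * γ) := (Real.rpow_mul (by linarith) _ _).symm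
  set Z := h ^ (-((2 * m + 15 : ℕ) : ℝ)) * (1 + M1) ^ (e * γ) with hZd
  have hZ1 : 1 ≤ Z := one_le_mul_of_one_le_of_one_le
    (Real.one_le_rpow_of_pos_of_le_one_of_nonpos hh0 (by linarith) (neg_nonpos.2 (Nat.cast_nonneg _)))
    (Real.one_le_rpow (by linarith) (mul_nonneg he0 hγ0))
  have hfin : κ * mass p q u v ρ ≤ Q * Z := by
    refine (hleft.trans (mul_le_mul_of_nonneg_left (mul_le_mul_of_nonneg_left
      (mul_le_mul_of_nonneg_left hW (by norm_num)) (by positivity)) (by positivity))).trans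
      (le_of_eq ?_)
    rw [hZd, hQ, hδh, hPγ]; ring
  calc 1 + mass p q u v ρ ≤ Z + Q / κ * Z := by
        refine add_le_add hZ1 ?_
        rw [div_mul_eq_mul_div, le_div_iff₀ hκ]
        linarith
    _ = _ := by rw [hZd]; ring

/-- No positive entire solution in the corner. -/
theorem no_solution_corner {n : ℕ} (hn : 5 ≤ n) {p q : ℝ} (hq : 0 < q) (hq1 : q ≤ 1)
    (hqp : q ≤ p) (hpq : 1 < p * q) (hsub : (n : ℝ) - 2 < n / (p + 1) + n / (q + 1))
    (hcor : (p + 1) * (q * ((n : ℝ) - 3) - 2) < (n : ℝ) - 1) :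
    ¬ ∃ u v : Euc n → ℝ, IsPositiveEntireSolution p q u v := by
  obtain ⟨m, rfl⟩ : ∃ m, n = m + 1 := ⟨n - 1, by omega⟩
  have hm : 4 ≤ m := by omega
  have hp : 0 < p := lt_of_lt_of_le hq hqp
  have hcor' : (p + 1) * (q * ((m : ℝ) - 2) - 2) < m := by
    push_cast at hcor
    rw [show (m : ℝ) + 1 - 3 = m - 2 by ring, show (m : ℝ) + 1 - 1 = m by ring] at hcor
    exact hcor
  obtain ⟨E⟩ := exists_expo (m := (m : ℝ)) (by exact_mod_cast hm) hq hq1 hpq hcor'
  obtain ⟨C, hC, hrec⟩ := recursion hm hp hq hq1 hqp hpq hsub E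
  have he0 : 0 ≤ p / (p + 1) := div_nonneg hp.le (by linarith)
  have hb : p / (p + 1) * max E.B 1 < 1 := by
    rcases max_cases E.B 1 with ⟨h, -⟩ | ⟨h, -⟩ <;> rw [h]
    · rw [mul_comm]; exact E.B_cond
    · rw [mul_one, div_lt_one (by linarith)]; linarith
  obtain ⟨Bd, hBd⟩ := hole_filling hC (Nat.cast_nonneg (2 * m + 15))
    (mul_nonneg he0 (zero_le_one.trans (le_max_right _ _))) hb
  refine no_solution_of_unit_bound hp hq hpq hsub ⟨Bd, fun u v hs => ?_⟩
  have hrec' := hrec u v hs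
  obtain ⟨huc, hvc, -, -, hup, hvp, -⟩ := hs
  have hfc : Continuous fun x => v x ^ (p + 1) + u x ^ (q + 1) :=
    (hvc.rpow_const fun x => Or.inl (hvp x).ne').add
      (huc.rpow_const fun x => Or.inl (hup x).ne')
  have hf0 : ∀ x, 0 ≤ v x ^ (p + 1) + u x ^ (q + 1) := fun x =>
    add_nonneg (Real.rpow_nonneg (hvp x).le _) (Real.rpow_nonneg (hup x).le _)
  have hint : ∀ r, IntegrableOn (fun x => v x ^ (p + 1) + u x ^ (q + 1)) (cube r) :=
    fun r => hfc.continuousOn.integrableOn_compact (isCompact_cube r)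
  refine le_trans ?_ (hBd (mass p q u v) (fun a _ b _ hab => setIntegral_mono_set (hint b)
    (Eventually.of_forall hf0) (Eventually.of_forall (cube_mono hab)))
    (integral_nonneg hf0) hrec')
  have hsub' : Metric.closedBall (0 : Euc (m + 1)) 1 ⊆ cube 1 := fun x hx i =>
    (abs_apply_le_norm x i).trans (mem_closedBall_zero_iff.1 hx)
  refine le_trans (setIntegral_mono_on
    ((hvc.rpow_const fun x => Or.inl (hvp x).ne').continuousOn.integrableOn_compact
      (isCompact_closedBall _ _)) ((hint 1).mono_set hsub') measurableSet_closedBall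
    fun x _ => le_add_of_nonneg_right (Real.rpow_nonneg (hup x).le _)) ?_
  exact setIntegral_mono_set (hint 1) (Eventually.of_forall hf0) (Eventually.of_forall hsub')

end Final

end Vale.Agent.P100C
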