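import Vale.Agent.P100T.Comparison

/-!
A local potential bound: a `C^2` function and its gradient are controlled by the Riesz
potentials of its Laplacian and by its mean. The Newton kernel is regularised, so only
integrations by parts of smooth functions are needed.
-/

open MeasureTheory Filter Topology Laplacian Set
open scoped ContDiff

noncomputable section

namespace Vale.Agent.P100C

open Vale.Agent.P100

variable {n : ℕ}

/-- The regularised radial power `(‖y - x‖² + ε²)^a`. -/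
def reg (a ε : ℝ) (x y : Euc n) : ℝ := (‖y - x‖ ^ 2 + ε ^ 2) ^ a

variable {ε : ℝ}

lemma rho_pos (hε : 0 < ε) (x y : Euc n) : 0 < ‖y - x‖ ^ 2 + ε ^ 2 := by positivity

lemma contDiff_reg (a : ℝ) (hε : 0 < ε) (x : Euc n) : ContDiff ℝ 2 (reg a ε x) :=
  ((((contDiff_id.sub contDiff_const).norm_sq ℝ).add contDiff_const).rpow_const_of_ne
    fun y => (rho_pos hε x y).ne')

lemma pd_reg (a : ℝ) (hε : 0 < ε) (x y : Euc n) (i : Fin n) :
    pd i (reg a ε x) y = 2 * a * (y i - x i) * reg (a - 1) ε x y := by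
  have h0 : HasFDerivAt (fun z : Euc n => ‖z - x‖ ^ 2) _ y :=
    ((hasFDerivAt_id y).sub_const x).norm_sq
  have h := ((h0.add_const (ε ^ 2)).rpow_const (p := a) (Or.inl (rho_pos hε x y).ne')).fderiv
  change fderiv ℝ (fun z : Euc n => (‖z - x‖ ^ 2 + ε ^ 2) ^ a) y (ev i) = _
  rw [h]
  simp [ev, reg, EuclideanSpace.inner_single_right]
  ring

lemma pd_pd_reg (a : ℝ) (hε : 0 < ε) (x y : Euc n) (i j : Fin n) :
    pd i (pd j (reg a ε x)) y = 2 * a * ((if i = j then 1 else 0) * reg (a - 1) ε x y +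
      (y j - x j) * (2 * (a - 1) * (y i - x i) * reg (a - 1 - 1) ε x y)) := by
  have e : pd j (reg a ε x) = fun z => 2 * a * ((z j - x j) * reg (a - 1) ε x z) :=
    funext fun z => by rw [pd_reg a hε]; ring
  have hc : HasFDerivAt (fun z : Euc n => z j - x j)
      (EuclideanSpace.proj j : Euc n →L[ℝ] ℝ) y :=
    (EuclideanSpace.proj (𝕜 := ℝ) j).hasFDerivAt.sub_const (x j)
  have hd : DifferentiableAt ℝ (reg (a - 1) ε x) y :=
    (contDiff_reg (a - 1) hε x).differentiable (by norm_num) y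
  have hl : pd i (fun z : Euc n => z j - x j) y = if i = j then 1 else 0 := by
    rw [pd, hc.fderiv]
    simp [ev, eq_comm]
  rw [e, pd_const_mul (f := fun z => (z j - x j) * reg (a - 1) ε x z) (2 * a)
      (hc.differentiableAt.fun_mul hd) i,
    pd_mul' hc.differentiableAt hd i, hl, pd_reg (a - 1) hε]

lemma sum_pd_pd_reg (hε : 0 < ε) (x y : Euc n) :
    ∑ i, pd i (pd i (reg (-((n : ℝ) - 2) / 2) ε x)) y =
      -((n : ℝ) * ((n : ℝ) - 2)) * (ε ^ 2 * reg (-((n : ℝ) + 2) / 2) ε x y) := by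
  simp only [pd_pd_reg _ hε, if_true, one_mul]
  rw [← Finset.mul_sum, Finset.sum_add_distrib, Finset.sum_const, Finset.card_univ,
    Fintype.card_fin, nsmul_eq_mul]
  have e : ‖y - x‖ ^ 2 = ∑ i, (y i - x i) * (y i - x i) := by
    rw [EuclideanSpace.norm_sq_eq]
    exact Finset.sum_congr rfl fun i _ => by simp [pow_two]
  have hr : reg (-((n : ℝ) - 2) / 2 - 1) ε x y =
      (‖y - x‖ ^ 2 + ε ^ 2) * reg (-((n : ℝ) + 2) / 2) ε x y := by
    simp only [reg]
    rw [show -((n : ℝ) - 2) / 2 - 1 = 1 + -((n : ℝ) + 2) / 2 by ring,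
      Real.rpow_add (rho_pos hε x y), Real.rpow_one]
  have hs : ∑ i, (y i - x i) * (2 * (-((n : ℝ) - 2) / 2 - 1) * (y i - x i) *
      reg (-((n : ℝ) - 2) / 2 - 1 - 1) ε x y) =
      -(n : ℝ) * ‖y - x‖ ^ 2 * reg (-((n : ℝ) + 2) / 2) ε x y := by
    rw [e, Finset.mul_sum, Finset.sum_mul]
    refine Finset.sum_congr rfl fun i _ => ?_
    rw [show -((n : ℝ) - 2) / 2 - 1 - 1 = -((n : ℝ) + 2) / 2 by ring]
    ring
  rw [hs, hr]
  ring

/-- Real power of a squared norm. -/
lemma sq_rpow_eq (m : ℕ) {r : ℝ} (hr : 0 ≤ r) : (r ^ 2) ^ ((m : ℝ) / 2) = r ^ m := by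
  rw [← Real.rpow_natCast r 2, ← Real.rpow_mul hr, ← Real.rpow_natCast r m]
  congr 1
  push_cast
  ring

lemma reg_le (m : ℕ) (hε : 0 < ε) {x y : Euc n} (hxy : y ≠ x) :
    reg (-(m : ℝ) / 2) ε x y ≤ (‖x - y‖ ^ m)⁻¹ := by
  have h0 : 0 < ‖y - x‖ := norm_pos_iff.mpr (sub_ne_zero.mpr hxy)
  rw [reg, neg_div, Real.rpow_neg (rho_pos hε x y).le, norm_sub_rev x y,
    ← sq_rpow_eq m h0.le]
  exact inv_anti₀ (Real.rpow_pos_of_pos (by positivity) _)
    (Real.rpow_le_rpow (sq_nonneg _) (le_add_of_nonneg_right (sq_nonneg ε)) (by positivity))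

lemma reg_nonneg (a : ℝ) (x y : Euc n) : 0 ≤ reg a ε x y :=
  Real.rpow_nonneg (by positivity) _

lemma abs_coord_le (x y : Euc n) (i : Fin n) : |y i - x i| ≤ ‖x - y‖ := by
  rw [norm_sub_rev]
  simpa using PiLp.norm_apply_le (y - x) i

/-- First derivatives of the regularised kernel. -/
lemma abs_pd_ker (hn : 3 ≤ n) (hε : 0 < ε) {x y : Euc n} (hxy : y ≠ x) (i : Fin n) :
    |pd i (reg (-((n : ℝ) - 2) / 2) ε x) y| ≤ (n : ℝ) * (‖x - y‖ ^ (n - 1))⁻¹ := by
  have hn' : (3 : ℝ) ≤ n := by exact_mod_cast hn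
  have h0 : 0 < ‖x - y‖ := norm_pos_iff.mpr (sub_ne_zero.mpr (Ne.symm hxy))
  rw [pd_reg _ hε, show -((n : ℝ) - 2) / 2 - 1 = -(n : ℝ) / 2 by ring, abs_mul, abs_mul,
    abs_of_nonneg (reg_nonneg _ x y), show |2 * (-((n : ℝ) - 2) / 2)| = (n : ℝ) - 2 by
      rw [show 2 * (-((n : ℝ) - 2) / 2) = -((n : ℝ) - 2) by ring, abs_neg]
      exact abs_of_nonneg (by linarith)]
  calc ((n : ℝ) - 2) * |y i - x i| * reg (-(n : ℝ) / 2) ε x y
      ≤ (n : ℝ) * ‖x - y‖ * (‖x - y‖ ^ n)⁻¹ :=
        mul_le_mul (mul_le_mul (by linarith) (abs_coord_le x y i) (abs_nonneg _) (by linarith))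
          (reg_le n hε hxy) (reg_nonneg _ x y) (by positivity)
    _ = _ := by
        rw [show ‖x - y‖ ^ n = ‖x - y‖ ^ (n - 1) * ‖x - y‖ by
          rw [← pow_succ]; congr 1; omega]
        field_simp

/-- Second derivatives of the regularised kernel. -/
lemma abs_pd_pd_ker (hn : 3 ≤ n) (hε : 0 < ε) {x y : Euc n} (hxy : y ≠ x) (i j : Fin n) :
    |pd i (pd j (reg (-((n : ℝ) - 2) / 2) ε x)) y| ≤
      (n : ℝ) * ((n : ℝ) + 1) * (‖x - y‖ ^ n)⁻¹ := by
  have hn' : (3 : ℝ) ≤ n := by exact_mod_cast hn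
  have hsq : reg (-((n : ℝ) + 2) / 2) ε x y * ‖x - y‖ ^ 2 ≤ (‖x - y‖ ^ n)⁻¹ := by
    have h := reg_le (n + 2) hε hxy
    push_cast at h
    have h0 : 0 < ‖x - y‖ := norm_pos_iff.mpr (sub_ne_zero.mpr (Ne.symm hxy))
    refine (mul_le_mul_of_nonneg_right h (sq_nonneg _)).trans (le_of_eq ?_)
    rw [pow_add]; field_simp
  rw [pd_pd_reg _ hε, show -((n : ℝ) - 2) / 2 - 1 = -(n : ℝ) / 2 by ring,
    show -(n : ℝ) / 2 - 1 = -((n : ℝ) + 2) / 2 by ring, abs_mul,
    show |2 * (-((n : ℝ) - 2) / 2)| = (n : ℝ) - 2 by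
      rw [show 2 * (-((n : ℝ) - 2) / 2) = -((n : ℝ) - 2) by ring, abs_neg]
      exact abs_of_nonneg (by linarith)]
  calc ((n : ℝ) - 2) * |_ + _|
      ≤ (n : ℝ) * ((‖x - y‖ ^ n)⁻¹ + (n : ℝ) * (‖x - y‖ ^ n)⁻¹) := by
        refine mul_le_mul (by linarith) ((abs_add_le _ _).trans (add_le_add ?_ ?_))
          (abs_nonneg _) (by linarith)
        · rw [abs_mul, abs_of_nonneg (reg_nonneg _ x y)]
          refine (mul_le_of_le_one_left (reg_nonneg _ x y) ?_).trans (reg_le n hε hxy)
          split_ifs <;> simp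
        · rw [abs_mul, abs_mul, abs_mul, abs_of_nonneg (reg_nonneg _ x y),
            show |2 * (-(n : ℝ) / 2)| = (n : ℝ) by
              rw [show 2 * (-(n : ℝ) / 2) = -(n : ℝ) by ring, abs_neg]
              exact abs_of_nonneg (by linarith)]
          calc |y j - x j| * ((n : ℝ) * |y i - x i| * reg (-((n : ℝ) + 2) / 2) ε x y)
              ≤ ‖x - y‖ * ((n : ℝ) * ‖x - y‖ * reg (-((n : ℝ) + 2) / 2) ε x y) := by
                have := reg_nonneg (ε := ε) (-((n : ℝ) + 2) / 2) x y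
                refine mul_le_mul (abs_coord_le x y j) (mul_le_mul_of_nonneg_right
                  (mul_le_mul_of_nonneg_left (abs_coord_le x y i) (by linarith)) this)
                  (by positivity) (norm_nonneg _)
            _ = (n : ℝ) * (reg (-((n : ℝ) + 2) / 2) ε x y * ‖x - y‖ ^ 2) := by ring
            _ ≤ _ := mul_le_mul_of_nonneg_left hsq (by linarith)
    _ = _ := by ring

/-- The Riesz kernels of order below `n` are integrable against continuous functions on compact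
sets. -/
lemma integrableOn_kernel_mul {m : ℕ} (hm : m < n) (x : Euc n) {g : Euc n → ℝ}
    (hg : Continuous g) {K : Set (Euc n)} (hK : IsCompact K) :
    IntegrableOn (fun y => (‖x - y‖ ^ m)⁻¹ * g y) K := by
  have hloc : LocallyIntegrable (fun z : Euc n => (‖z‖ ^ m)⁻¹) := by
    refine locallyIntegrable_of_norm_le_rpow (C := 1) (α := (m : ℝ)) (by simp; omega)
      (by simpa using (Nat.cast_lt (α := ℝ)).mpr hm) ?_
      (by fun_prop : Measurable fun z : Euc n => (‖z‖ ^ m)⁻¹).aestronglyMeasurable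
    refine Eventually.of_forall fun z => ?_
    rw [Real.norm_of_nonneg (by positivity), one_mul, Real.rpow_neg (norm_nonneg _),
      Real.rpow_natCast]
  have hK' : IsCompact ((fun z => x - z) '' K) := hK.image (by fun_prop)
  have h1 : IntegrableOn (fun y => (‖x - y‖ ^ m)⁻¹) K := by
    have h := (((volume : Measure (Euc n)).measurePreserving_sub_left x).integrableOn_comp_preimage
      (Homeomorph.subLeft x).measurableEmbedding).mpr (hloc.integrableOn_isCompact hK')
    exact h.mono_set fun y hy => ⟨y, hy, rfl⟩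
  exact h1.mul_continuousOn hg.continuousOn hK

lemma integral_weight_pos : 0 < ∫ z : Euc n, (1 + ‖z‖ ^ 2) ^ (-((n : ℝ) + 2) / 2) := by
  have hi : Integrable fun z : Euc n => (1 + ‖z‖ ^ 2) ^ (-((n : ℝ) + 2) / 2) :=
    integrable_rpow_neg_one_add_norm_sq (by simp)
  refine (integral_pos_iff_support_of_nonneg (fun z => by positivity) hi).mpr ?_
  rw [eq_univ_of_forall fun z => Function.mem_support.mpr (ne_of_gt (by positivity :
    (0 : ℝ) < (1 + ‖z‖ ^ 2) ^ (-((n : ℝ) + 2) / 2)))]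
  exact isOpen_univ.measure_pos volume univ_nonempty

/-- The Laplacian of the regularised kernel acts as an approximate identity. -/
lemma moll_eq (hε : 0 < ε) (g : Euc n → ℝ) (x : Euc n) :
    ∫ y, g y * ∑ i, pd i (pd i (reg (-((n : ℝ) - 2) / 2) ε x)) y =
      -((n : ℝ) * ((n : ℝ) - 2)) *
        ∫ z : Euc n, (1 + ‖z‖ ^ 2) ^ (-((n : ℝ) + 2) / 2) * g (x + ε • z) := by
  have e : ∀ y, g y * ∑ i, pd i (pd i (reg (-((n : ℝ) - 2) / 2) ε x)) y =
      -((n : ℝ) * ((n : ℝ) - 2)) * (ε ^ 2 * reg (-((n : ℝ) + 2) / 2) ε x y * g y) := fun y => by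
    rw [sum_pd_pd_reg hε]; ring
  simp only [e]
  rw [integral_const_mul]
  congr 1
  set F : Euc n → ℝ := fun y => ε ^ 2 * reg (-((n : ℝ) + 2) / 2) ε x y * g y with hF
  rw [← integral_add_left_eq_self F x]
  have h := Measure.integral_comp_smul (volume : Measure (Euc n)) (fun z => F (x + z)) ε
  have e2 : ∀ z, F (x + ε • z) =
      (ε ^ n)⁻¹ * ((1 + ‖z‖ ^ 2) ^ (-((n : ℝ) + 2) / 2) * g (x + ε • z)) := by
    intro z
    simp only [hF, reg, add_sub_cancel_left, norm_smul, Real.norm_eq_abs, mul_pow, sq_abs]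
    rw [show ε ^ 2 * ‖z‖ ^ 2 + ε ^ 2 = ε ^ 2 * (1 + ‖z‖ ^ 2) by ring,
      Real.mul_rpow (sq_nonneg ε) (by positivity),
      show -((n : ℝ) + 2) / 2 = -(((n + 2 : ℕ) : ℝ) / 2) by push_cast; ring,
      Real.rpow_neg (sq_nonneg ε), sq_rpow_eq _ hε.le, pow_add]
    field_simp
  simp only [e2, integral_const_mul, finrank_euclideanSpace, Fintype.card_fin, smul_eq_mul,
    abs_of_pos (inv_pos.mpr (pow_pos hε n))] at h
  exact (mul_left_cancel₀ (inv_pos.mpr (pow_pos hε n)).ne' h).symm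

/-- A continuous function with compact support is recovered from the Laplacian of the
regularised kernels. -/
lemma abs_le_of_moll (hn : 3 ≤ n) {g : Euc n → ℝ} (hg : Continuous g) (hc : HasCompactSupport g)
    (x : Euc n) {B : ℝ} (hB : ∀ ε : ℝ, 0 < ε →
      |∫ y, g y * ∑ i, pd i (pd i (reg (-((n : ℝ) - 2) / 2) ε x)) y| ≤ B) :
    |g x| ≤ B / ((n : ℝ) * ((n : ℝ) - 2) *
      ∫ z : Euc n, (1 + ‖z‖ ^ 2) ^ (-((n : ℝ) + 2) / 2)) := by
  have hn' : (3 : ℝ) ≤ n := by exact_mod_cast hn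
  have hwi : Integrable fun z : Euc n => (1 + ‖z‖ ^ 2) ^ (-((n : ℝ) + 2) / 2) :=
    integrable_rpow_neg_one_add_norm_sq (by simp)
  have hw0 := integral_weight_pos (n := n)
  have hw1 : ∀ z : Euc n, 0 ≤ (1 + ‖z‖ ^ 2) ^ (-((n : ℝ) + 2) / 2) :=
    fun z => Real.rpow_nonneg (by positivity) _
  obtain ⟨Cg, hCg⟩ := hc.exists_bound_of_continuous hg
  have hlim : Tendsto (fun k : ℕ => ∫ z : Euc n,
      (1 + ‖z‖ ^ 2) ^ (-((n : ℝ) + 2) / 2) * g (x + ((k : ℝ) + 1)⁻¹ • z)) atTop
      (𝓝 ((∫ z : Euc n, (1 + ‖z‖ ^ 2) ^ (-((n : ℝ) + 2) / 2)) * g x)) := by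
    rw [← integral_mul_const]
    refine tendsto_integral_of_dominated_convergence
      (fun z => (1 + ‖z‖ ^ 2) ^ (-((n : ℝ) + 2) / 2) * Cg) (fun k => ?_)
      (hwi.mul_const _) (fun k => Eventually.of_forall fun z => ?_)
      (Eventually.of_forall fun z => ?_)
    · have hgc : Continuous fun z : Euc n => g (x + ((k : ℝ) + 1)⁻¹ • z) := by fun_prop
      exact hwi.aestronglyMeasurable.fun_mul hgc.aestronglyMeasurable
    · rw [norm_mul, Real.norm_of_nonneg (hw1 z)]
      exact mul_le_mul_of_nonneg_left (hCg _) (hw1 z)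
    · refine Tendsto.const_mul _ ((hg.tendsto _).comp ?_)
      have h1 : Tendsto (fun k : ℕ => ((k : ℝ) + 1)⁻¹) atTop (𝓝 0) := by
        simpa [one_div] using tendsto_one_div_add_atTop_nhds_zero_nat (𝕜 := ℝ)
      simpa using (h1.smul_const z).const_add x
  have hN : 0 < (n : ℝ) * ((n : ℝ) - 2) := mul_pos (by linarith) (by linarith)
  rw [le_div_iff₀ (mul_pos hN hw0)]
  have h : |(∫ z : Euc n, (1 + ‖z‖ ^ 2) ^ (-((n : ℝ) + 2) / 2)) * g x| ≤
      B / ((n : ℝ) * ((n : ℝ) - 2)) := by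
    refine le_of_tendsto hlim.abs (Eventually.of_forall fun k => ?_)
    have hk := hB (((k : ℝ) + 1)⁻¹) (by positivity)
    rw [moll_eq (by positivity), abs_mul, abs_neg, abs_of_pos hN] at hk
    rw [le_div_iff₀ hN, mul_comm]
    exact hk
  rw [abs_mul, abs_of_pos hw0, le_div_iff₀ hN] at h
  linarith

variable {f : Euc n → ℝ}

lemma integrable_mul_pd {F G : Euc n → ℝ} (hF : Continuous F) (hc : HasCompactSupport F)
    (hG : Continuous G) : Integrable fun y => F y * G y :=
  (hF.mul hG).integrable_of_hasCompactSupport hc.mul_right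

lemma integral_mul_lap (hf : ContDiff ℝ 2 f) (hc : HasCompactSupport f) {K : Euc n → ℝ}
    (hK : ContDiff ℝ 2 K) :
    ∫ y, f y * ∑ i, pd i (pd i K) y = ∫ y, K y * ∑ i, pd i (pd i f) y := by
  have h1 : ∀ i, ∫ y, f y * pd i (pd i K) y = ∫ y, K y * pd i (pd i f) y := by
    intro i
    rw [integral_pd_mul (hf.of_le one_le_two) hc (contDiff_pd hK i) i]
    have h := integral_pd_mul (contDiff_pd hf i) (hasCompactSupport_pd hc i)
      (hK.of_le one_le_two) i
    rw [h, neg_neg]
    exact integral_congr_ae (Eventually.of_forall fun y => mul_comm _ _)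
  simp only [Finset.mul_sum]
  rw [integral_finsetSum _ fun i _ => integrable_mul_pd hf.continuous hc
      (continuous_pd (contDiff_pd hK i) i),
    integral_finsetSum _ fun i _ => ?_]
  · exact Finset.sum_congr rfl fun i _ => h1 i
  · exact (hK.continuous.mul (continuous_pd (contDiff_pd hf i) i)).integrable_of_hasCompactSupport
      (hasCompactSupport_pd (hasCompactSupport_pd hc i) i).mul_left

lemma integral_pd_mul_lap (hf : ContDiff ℝ 2 f) (hc : HasCompactSupport f) {K : Euc n → ℝ}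
    (hK : ContDiff ℝ 2 K) (e : Fin n) :
    ∫ y, pd e f y * ∑ i, pd i (pd i K) y = -∫ y, pd e K y * ∑ i, pd i (pd i f) y := by
  have h1 : ∀ i, ∫ y, pd e f y * pd i (pd i K) y = -∫ y, pd e K y * pd i (pd i f) y := by
    intro i
    have h2 : ∫ y, pd i (pd e f) y * pd i K y = ∫ y, pd e (pd i f) y * pd i K y :=
      integral_congr_ae (Eventually.of_forall fun y => by
        change pd i (pd e f) y * _ = _; rw [pd_symm hf i e y])
    rw [integral_pd_mul (contDiff_pd hf e) (hasCompactSupport_pd hc e) (contDiff_pd hK i) i, h2,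
      ← integral_pd_mul (contDiff_pd hf i) (hasCompactSupport_pd hc i) (contDiff_pd hK i) e,
      integral_congr_ae (Eventually.of_forall fun y => by
        rw [pd_symm hK e i y]),
      integral_pd_mul (contDiff_pd hf i) (hasCompactSupport_pd hc i) (contDiff_pd hK e) i]
    exact congrArg Neg.neg (integral_congr_ae (Eventually.of_forall fun y => mul_comm _ _))
  simp only [Finset.mul_sum]
  rw [integral_finsetSum _ fun i _ => integrable_mul_pd (continuous_pd (hf.of_le one_le_two) e)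
      (hasCompactSupport_pd hc e) (continuous_pd (contDiff_pd hK i) i),
    integral_finsetSum _ fun i _ => ?_, ← Finset.sum_neg_distrib]
  · exact Finset.sum_congr rfl fun i _ => h1 i
  · exact ((continuous_pd (hK.of_le one_le_two) e).mul
      (continuous_pd (contDiff_pd hf i) i)).integrable_of_hasCompactSupport
      (hasCompactSupport_pd (hasCompactSupport_pd hc i) i).mul_left

variable {u χ : Euc n → ℝ} {x : Euc n} {d M A : ℝ} {k K : Euc n → ℝ}

/-- A smooth kernel against the Laplacian of a cut-off function. -/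
lemma cut_bound (hn : 0 < n) (hu : ContDiff ℝ 2 u) (hχ : ContDiff ℝ 2 χ) (hc : HasCompactSupport χ)
    (hχ01 : ∀ y, 0 ≤ χ y ∧ χ y ≤ 1) (hM : 1 ≤ M)
    (hder : ∀ y, ‖fderiv ℝ χ y‖ ≤ M ∧ |Δ χ y| ≤ M ^ 2) (hone : ∀ y ∈ Metric.ball x d, χ y = 1)
    (hK : ContDiff ℝ 1 K) (hKk : ∀ y, y ≠ x → |K y| ≤ k y)
    (hki : IntegrableOn (fun y => k y * |Δ u y|) (tsupport χ)) (hA : 0 ≤ A)
    (hKA : ∀ y, d ≤ ‖x - y‖ → |K y| ≤ A ∧ ∀ i, |pd i K y| ≤ A) :
    |∫ y, K y * ∑ i, pd i (pd i fun z => χ z * u z) y| ≤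
      (∫ y in tsupport χ, k y * |Δ u y|) +
        (2 * n + 1) * A * M ^ 2 * ∫ y in tsupport χ, |u y| := by
  have hΔ : ∀ {F : Euc n → ℝ}, ContDiff ℝ 2 F → ∀ y, Δ F y = ∑ i, pd i (pd i F) y :=
    fun hF y => laplacian_eq_sum hF.contDiffAt
  have hu1 := hu.of_le (one_le_two : (1 : WithTop ℕ∞) ≤ 2)
  have hχ1 := hχ.of_le (one_le_two : (1 : WithTop ℕ∞) ≤ 2)
  have du : ∀ y, DifferentiableAt ℝ u y := hu1.differentiable one_ne_zero
  have dχ : ∀ y, DifferentiableAt ℝ χ y := hχ1.differentiable one_ne_zero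
  have hexp : ∀ (i : Fin n) y, pd i (pd i fun z => χ z * u z) y =
      pd i (pd i χ) y * u y + 2 * (pd i χ y * pd i u y) + χ y * pd i (pd i u) y := by
    intro i y
    have d1 : DifferentiableAt ℝ (pd i χ) y := (contDiff_pd hχ i).differentiable one_ne_zero y
    have d2 : DifferentiableAt ℝ (pd i u) y := (contDiff_pd hu i).differentiable one_ne_zero y
    rw [show pd i (fun z => χ z * u z) = fun z => pd i χ z * u z + χ z * pd i u z from
      funext fun z => pd_mul' (dχ z) (du z) i,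
      pd_add' (d1.fun_mul (du y)) ((dχ y).fun_mul d2), pd_mul' d1 (du y), pd_mul' (dχ y) d2]
    ring
  have hmove : ∀ i, ∫ y, K y * (pd i χ y * pd i u y) =
      ∫ y, -((pd i K y * pd i χ y + K y * pd i (pd i χ) y) * u y) := by
    intro i
    have h := integral_pd_mul (hK.mul (contDiff_pd hχ i))
      ((hasCompactSupport_pd hc i).mul_left) hu1 i
    have e : pd i (fun y => K y * pd i χ y) =
        fun y => pd i K y * pd i χ y + K y * pd i (pd i χ) y :=
      funext fun y => pd_mul' (hK.differentiable one_ne_zero y)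
        ((contDiff_pd hχ i).differentiable one_ne_zero y) i
    simp only [e] at h
    rw [integral_neg, ← h]
    exact integral_congr_ae (Eventually.of_forall fun y => by ring)
  have c1 : ∀ i, Continuous (pd i K) := continuous_pd hK
  have c2 : ∀ i, Continuous (pd i χ) := continuous_pd hχ1
  have c3 : ∀ i, Continuous (pd i (pd i χ)) := fun i => continuous_pd (contDiff_pd hχ i) i
  have c4 : ∀ i, Continuous (pd i u) := continuous_pd hu1
  have c5 : ∀ i, Continuous (pd i (pd i u)) := fun i => continuous_pd (contDiff_pd hu i) i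
  have s1 : ∀ i, Integrable fun y => K y * (pd i χ y * pd i u y) := fun i =>
    (hK.continuous.mul ((c2 i).mul (c4 i))).integrable_of_hasCompactSupport
      ((hasCompactSupport_pd hc i).mul_right.mul_left)
  have s2 : ∀ i, Integrable fun y => K y * pd i (pd i χ) y * u y := fun i =>
    ((hK.continuous.mul (c3 i)).mul hu.continuous).integrable_of_hasCompactSupport
      ((hasCompactSupport_pd (hasCompactSupport_pd hc i) i).mul_left.mul_right)
  have s3 : ∀ i, Integrable fun y => K y * (χ y * pd i (pd i u) y) := fun i =>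
    (hK.continuous.mul (hχ.continuous.mul (c5 i))).integrable_of_hasCompactSupport
      (hc.mul_right.mul_left)
  have s4 : ∀ i, Integrable fun y => -((pd i K y * pd i χ y + K y * pd i (pd i χ) y) * u y) :=
    fun i => ((((c1 i).mul (c2 i)).add (hK.continuous.mul (c3 i))).mul
      hu.continuous).neg.integrable_of_hasCompactSupport
      (((hasCompactSupport_pd hc i).mul_left.add
        (hasCompactSupport_pd (hasCompactSupport_pd hc i) i).mul_left).mul_right.neg)
  set F : Euc n → ℝ := fun y => K y * (χ y * Δ u y) - K y * Δ χ y * u y -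
    2 * ((∑ i, pd i K y * pd i χ y) * u y) with hF
  have hFeq : ∫ y, K y * ∑ i, pd i (pd i fun z => χ z * u z) y = ∫ y, F y := by
    have e1 : ∀ i, ∫ y, K y * pd i (pd i fun z => χ z * u z) y =
        ∫ y, (K y * pd i (pd i χ) y * u y + K y * (χ y * pd i (pd i u) y) +
          2 * -((pd i K y * pd i χ y + K y * pd i (pd i χ) y) * u y)) := by
      intro i
      rw [integral_congr_ae (Eventually.of_forall fun y => show K y * _ =
          K y * pd i (pd i χ) y * u y + K y * (χ y * pd i (pd i u) y) +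
            2 * (K y * (pd i χ y * pd i u y)) by rw [hexp]; ring),
        integral_add ((s2 i).fun_add (s3 i)) ((s1 i).const_mul 2),
        integral_add ((s2 i).fun_add (s3 i)) ((s4 i).const_mul 2),
        integral_const_mul, integral_const_mul, hmove]
    have hint : ∀ i, Integrable fun y => K y * pd i (pd i fun z => χ z * u z) y := fun i => by
      simp only [hexp]
      refine (((s2 i).fun_add (s3 i)).fun_add ((s1 i).const_mul 2)).congr
        (Eventually.of_forall fun y => ?_)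
      ring
    simp only [Finset.mul_sum]
    rw [integral_finsetSum _ fun i _ => hint i, Finset.sum_congr rfl fun i _ => e1 i,
      ← integral_finsetSum _ fun i _ => ((s2 i).fun_add (s3 i)).fun_add ((s4 i).const_mul 2)]
    refine integral_congr_ae (Eventually.of_forall fun y => ?_)
    simp only [hF, hΔ hu, hΔ hχ, Finset.mul_sum, Finset.sum_mul, ← Finset.sum_sub_distrib]
    exact Finset.sum_congr rfl fun i _ => by ring
  rw [hFeq]
  set S := tsupport χ with hS
  have hSm : MeasurableSet S := (isClosed_tsupport χ).measurableSet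
  have hui : IntegrableOn (fun y => |u y|) S :=
    hu.continuous.abs.continuousOn.integrableOn_compact hc.isCompact
  rw [← integral_const_mul, ← integral_add hki (hui.const_mul _), ← integral_indicator hSm]
  rw [← Real.norm_eq_abs]
  refine norm_integral_le_of_norm_le (g := S.indicator fun a => k a * |Δ u a| +
    (2 * n + 1) * A * M ^ 2 * |u a|) ((hki.add (hui.const_mul _)).integrable_indicator hSm) ?_
  have : Nonempty (Fin n) := ⟨⟨0, hn⟩⟩
  have hne : ∀ᵐ y ∂(volume : Measure (Euc n)), y ≠ x := Measure.ae_ne volume x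
  filter_upwards [hne] with y hy
  by_cases hyS : y ∈ S
  swap
  · have z0 : χ y = 0 := image_eq_zero_of_notMem_tsupport hyS
    have z1 : ∀ i, pd i χ y = 0 := fun i => image_eq_zero_of_notMem_tsupport
      fun h => hyS (tsupport_fderiv_apply_subset ℝ (ev i) h)
    have z2 : Δ χ y = 0 := by
      rw [hΔ hχ]
      exact Finset.sum_eq_zero fun i _ => image_eq_zero_of_notMem_tsupport
        fun h => hyS (tsupport_fderiv_apply_subset ℝ (ev i)
          (tsupport_fderiv_apply_subset ℝ (ev i) h))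
    simp [hF, z0, z1, z2, indicator_of_notMem hyS]
  rw [indicator_of_mem hyS, Real.norm_eq_abs]
  have h1 : |K y * (χ y * Δ u y)| ≤ k y * |Δ u y| := by
    rw [abs_mul, abs_mul, abs_of_nonneg (hχ01 y).1]
    exact mul_le_mul (hKk y hy) (mul_le_of_le_one_left (abs_nonneg _) (hχ01 y).2)
      (mul_nonneg (hχ01 y).1 (abs_nonneg _)) ((abs_nonneg _).trans (hKk y hy))
  have hM2 : M ≤ M ^ 2 := by nlinarith
  by_cases hyd : y ∈ Metric.ball x d
  · have hev : χ =ᶠ[𝓝 y] fun _ => (1 : ℝ) :=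
      eventually_of_mem (Metric.isOpen_ball.mem_nhds hyd) hone
    have z1 : ∀ i, pd i χ =ᶠ[𝓝 y] fun _ => (0 : ℝ) := fun i =>
      (hev.fderiv (𝕜 := ℝ)).mono fun z hz => by simp [pd, hz]
    have z2 : Δ χ y = 0 := by
      rw [hΔ hχ]
      exact Finset.sum_eq_zero fun i _ => by simp [pd, (z1 i).fderiv_eq]
    have e : F y = K y * (χ y * Δ u y) := by
      simp [hF, z2, fun i => (z1 i).eq_of_nhds]
    rw [e]
    exact h1.trans (le_add_of_nonneg_right (by positivity))
  · have hdy : d ≤ ‖x - y‖ := by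
      rw [Metric.mem_ball, not_lt, dist_eq_norm, norm_sub_rev] at hyd
      exact hyd
    obtain ⟨b0, b1⟩ := hKA y hdy
    have h2 : |K y * Δ χ y * u y| ≤ A * M ^ 2 * |u y| := by
      rw [abs_mul, abs_mul]
      exact mul_le_mul_of_nonneg_right (mul_le_mul b0 (hder y).2 (abs_nonneg _) hA) (abs_nonneg _)
    have h3 : |(∑ i, pd i K y * pd i χ y) * u y| ≤ (n : ℝ) * (A * M ^ 2) * |u y| := by
      rw [abs_mul]
      refine mul_le_mul_of_nonneg_right ((Finset.abs_sum_le_sum_abs _ _).trans ?_) (abs_nonneg _)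
      calc ∑ i, |pd i K y * pd i χ y| ≤ ∑ _i : Fin n, A * M ^ 2 := by
            refine Finset.sum_le_sum fun i _ => ?_
            rw [abs_mul]
            refine mul_le_mul (b1 i) ?_ (abs_nonneg _) hA
            refine le_trans ?_ ((hder y).1.trans hM2)
            simpa [pd, norm_ev] using (fderiv ℝ χ y).le_opNorm (ev i)
        _ = _ := by simp
    calc |F y| ≤ |K y * (χ y * Δ u y)| + |K y * Δ χ y * u y| +
          2 * |(∑ i, pd i K y * pd i χ y) * u y| := by
          refine (abs_sub _ _).trans (add_le_add (abs_sub _ _) ?_)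
          rw [abs_mul, abs_of_pos (two_pos (α := ℝ))]
      _ ≤ _ := by linarith

/-- The integrands in `local_potential` are integrable on compact sets. -/
lemma integrableOn_kernel_laplacian {m : ℕ} (hm : m < n) (x : Euc n) {u : Euc n → ℝ}
    (hu : ContDiff ℝ 2 u) {K : Set (Euc n)} (hK : IsCompact K) :
    IntegrableOn (fun y => (‖x - y‖ ^ m)⁻¹ * |Δ u y|) K := by
  refine integrableOn_kernel_mul hm x (Continuous.abs ?_) hK
  rw [show Δ u = fun y => ∑ i, pd i (pd i u) y from
    funext fun y => laplacian_eq_sum hu.contDiffAt]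
  exact continuous_finsetSum _ fun i _ => continuous_pd (contDiff_pd hu i) i

/-- Local potential bound for a `C^2` function and its gradient. -/
theorem local_potential {n : ℕ} (hn : 3 ≤ n) : ∃ C : ℝ, 0 ≤ C ∧ ∀ u χ : Euc n → ℝ,
    ContDiff ℝ 2 u → ContDiff ℝ 2 χ → HasCompactSupport χ → (∀ y, 0 ≤ χ y ∧ χ y ≤ 1) →
    ∀ (x : Euc n) (d M : ℝ), 0 < d → d ≤ 1 → 1 ≤ M →
    (∀ y, ‖fderiv ℝ χ y‖ ≤ M ∧ |Δ χ y| ≤ M ^ 2) → (∀ y ∈ Metric.ball x d, χ y = 1) →
    |u x| ≤ C * (∫ y in tsupport χ, (‖x - y‖ ^ (n - 2))⁻¹ * |Δ u y|) +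
        C * (M ^ 2 / d ^ n) * ∫ y in tsupport χ, |u y| ∧
    ‖fderiv ℝ u x‖ ≤ C * (∫ y in tsupport χ, (‖x - y‖ ^ (n - 1))⁻¹ * |Δ u y|) +
        C * (M ^ 2 / d ^ n) * ∫ y in tsupport χ, |u y| := by
  have hn' : (3 : ℝ) ≤ n := by exact_mod_cast hn
  set N : ℝ := (n : ℝ) * ((n : ℝ) - 2) *
    ∫ z : Euc n, (1 + ‖z‖ ^ 2) ^ (-((n : ℝ) + 2) / 2) with hN
  have hN0 : 0 < N := mul_pos (mul_pos (by linarith) (by linarith)) integral_weight_pos
  set C0 : ℝ := (2 * n + 1) * ((n : ℝ) * ((n : ℝ) + 1)) with hC0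
  refine ⟨(n : ℝ) * (C0 / N), by positivity,
    fun u χ hu hχ hc hχ01 x d M hd hd1 hM hder hone => ?_⟩
  have hxd : x ∈ Metric.ball x d := Metric.mem_ball_self hd
  set f : Euc n → ℝ := fun z => χ z * u z with hf
  have hfd : ContDiff ℝ 2 f := hχ.mul hu
  have hfc : HasCompactSupport f := hc.mul_right
  have hlu : Continuous (Δ u) := by
    rw [show Δ u = fun y => ∑ i, pd i (pd i u) y from
      funext fun y => laplacian_eq_sum hu.contDiffAt]
    exact continuous_finsetSum _ fun i _ => continuous_pd (contDiff_pd hu i) i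
  set A : ℝ := (n : ℝ) * ((n : ℝ) + 1) / d ^ n with hA
  have hpow : ∀ m, m ≤ n → ∀ y : Euc n, d ≤ ‖x - y‖ → (‖x - y‖ ^ m)⁻¹ ≤ 1 / d ^ n := by
    intro m hm y hy
    rw [one_div]
    exact inv_anti₀ (by positivity) ((pow_le_pow_of_le_one hd.le hd1 hm).trans
      (pow_le_pow_left₀ hd.le hy m))
  set I : ℕ → ℝ := fun m => ∫ y in tsupport χ, (‖x - y‖ ^ m)⁻¹ * |Δ u y| with hI
  have hI0 : ∀ m, 0 ≤ I m := fun m => integral_nonneg fun y => by positivity
  set U : ℝ := ∫ y in tsupport χ, |u y| with hU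
  have hU0 : 0 ≤ U := integral_nonneg fun y => abs_nonneg _
  have hne : ∀ y : Euc n, d ≤ ‖x - y‖ → y ≠ x := by
    intro y hy e
    rw [e, sub_self, norm_zero] at hy
    linarith
  have hB : ∀ m, m < n → ∀ K : Euc n → ℝ, ContDiff ℝ 1 K →
      (∀ y, y ≠ x → |K y| ≤ (n : ℝ) * (‖x - y‖ ^ m)⁻¹) →
      (∀ y, y ≠ x → ∀ i, |pd i K y| ≤ (n : ℝ) * ((n : ℝ) + 1) * (‖x - y‖ ^ (m + 1))⁻¹) →
      |∫ y, K y * ∑ i, pd i (pd i f) y| ≤ C0 * (I m + M ^ 2 / d ^ n * U) := by
    intro m hm K hK h0 h1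
    have h := cut_bound (A := A) (k := fun y => (n : ℝ) * (‖x - y‖ ^ m)⁻¹) (by omega) hu hχ hc
      hχ01 hM hder hone hK h0 ?_ (by positivity) fun y hy => ⟨?_, fun i => ?_⟩
    · refine h.trans ?_
      have e0 : ∫ y in tsupport χ, (n : ℝ) * (‖x - y‖ ^ m)⁻¹ * |Δ u y| = (n : ℝ) * I m := by
        simp only [hI, mul_assoc, integral_const_mul]
      rw [e0, ← hU,
        show (2 * (n : ℝ) + 1) * A * M ^ 2 * U = (2 * n + 1) * (A * (M ^ 2 * U)) by ring]
      have e1 : (n : ℝ) ≤ C0 := by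
        rw [hC0]
        exact le_trans (le_mul_of_one_le_right (by linarith) (by linarith))
          (le_mul_of_one_le_left (by positivity) (by linarith))
      have := mul_le_mul_of_nonneg_right e1 (hI0 m)
      rw [show C0 * (I m + M ^ 2 / d ^ n * U) = C0 * I m + (2 * n + 1) * (A * (M ^ 2 * U)) by
        rw [hC0, hA]; ring]
      linarith
    · simpa only [mul_assoc, IntegrableOn] using (integrableOn_kernel_mul hm x hlu.abs
        hc.isCompact).const_mul (n : ℝ)
    · refine (h0 y (hne y hy)).trans ?_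
      rw [hA, ← mul_one_div ((n : ℝ) * ((n : ℝ) + 1))]
      exact mul_le_mul (le_mul_of_one_le_right (by linarith) (by linarith)) (hpow m hm.le y hy)
        (by positivity) (by positivity)
    · refine (h1 y (hne y hy) i).trans ?_
      rw [hA, ← mul_one_div ((n : ℝ) * ((n : ℝ) + 1))]
      exact mul_le_mul_of_nonneg_left (hpow (m + 1) hm y hy) (by positivity)
  have hker := fun (ε : ℝ) (hε : 0 < ε) => contDiff_reg (-((n : ℝ) - 2) / 2) hε x
  constructor
  · have hfx : f x = u x := by simp [hf, hone x hxd]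
    have h := abs_le_of_moll hn hfd.continuous hfc x (B := C0 * (I (n - 2) + M ^ 2 / d ^ n * U))
      fun ε hε => by
        rw [integral_mul_lap hfd hfc (hker ε hε)]
        refine hB (n - 2) (by omega) _ ((hker ε hε).of_le one_le_two) (fun y hy => ?_)
          fun y hy i => ?_
        · rw [abs_of_nonneg (reg_nonneg _ x y)]
          refine le_trans ?_ (le_mul_of_one_le_left (by positivity) (by linarith))
          have h2 := reg_le (n - 2) hε hy
          rwa [Nat.cast_sub (by omega), Nat.cast_ofNat] at h2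
        · rw [show n - 2 + 1 = n - 1 by omega]
          exact (abs_pd_ker hn hε hy i).trans (mul_le_mul_of_nonneg_right
            (le_mul_of_one_le_right (by linarith) (by linarith)) (by positivity))
    rw [hfx, ← hN] at h
    refine h.trans ?_
    have : 0 ≤ C0 / N * (I (n - 2) + M ^ 2 / d ^ n * U) :=
      mul_nonneg (by positivity) (add_nonneg (hI0 _) (by positivity))
    calc C0 * (I (n - 2) + M ^ 2 / d ^ n * U) / N
        = C0 / N * (I (n - 2) + M ^ 2 / d ^ n * U) := by ring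
      _ ≤ (n : ℝ) * (C0 / N * (I (n - 2) + M ^ 2 / d ^ n * U)) :=
          le_mul_of_one_le_left this (by linarith)
      _ = _ := by simp only [hI, hU]; ring
  · have hev : f =ᶠ[𝓝 x] u := (eventually_of_mem (Metric.isOpen_ball.mem_nhds hxd) hone).mono
      fun z hz => by simp [hf, hz]
    have hp : ∀ e, |pd e u x| ≤ C0 * (I (n - 1) + M ^ 2 / d ^ n * U) / N := by
      intro e
      have h := abs_le_of_moll hn (continuous_pd (hfd.of_le one_le_two) e)
        (hasCompactSupport_pd hfc e) x (B := C0 * (I (n - 1) + M ^ 2 / d ^ n * U)) fun ε hε => by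
        rw [integral_pd_mul_lap hfd hfc (hker ε hε) e, abs_neg]
        refine hB (n - 1) (by omega) _ (contDiff_pd (hker ε hε) e)
          (fun y hy => abs_pd_ker hn hε hy e) fun y hy i => ?_
        rw [show n - 1 + 1 = n by omega]
        exact abs_pd_pd_ker hn hε hy i e
      rwa [show pd e f x = pd e u x by simp [pd, hev.fderiv_eq], ← hN] at h
    refine le_trans (ContinuousLinearMap.opNorm_le_bound _
      (Finset.sum_nonneg (s := Finset.univ) fun i _ => abs_nonneg (pd i u x)) fun z => ?_)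
      ((Finset.sum_le_sum fun i _ => hp i).trans (le_of_eq ?_))
    · have hz : z = ∑ i, z i • ev i := by
        simpa [ev] using ((EuclideanSpace.basisFun (Fin n) ℝ).sum_repr z).symm
      conv_lhs => rw [hz, map_sum]
      rw [Finset.sum_mul]
      refine (norm_sum_le _ _).trans (Finset.sum_le_sum fun i _ => ?_)
      rw [map_smul, norm_smul, mul_comm]
      exact mul_le_mul_of_nonneg_left (PiLp.norm_apply_le z i) (norm_nonneg _)
    · simp only [Finset.sum_const, Finset.card_univ, Fintype.card_fin, nsmul_eq_mul, hI, hU]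
      ring

end Vale.Agent.P100C
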