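import Vale.Agent.P100.Calc

/-!
P100 corner lemma: potentials on slices. For the kernel `max |r - t| ‖z - w‖ ^ (-s)` on `ℝ × ℝ^m`,
Young's inequality in `z` and Minkowski's inequality in `t` bound the `L¹_r L^k_z` norm of the
potential by the `L¹_t L^l_w` norm of the density.
-/

open MeasureTheory Set Filter
open scoped ENNReal

noncomputable section

namespace Vale.Agent.P100C

open Vale.Agent.P100 (Euc)

/-- The truncated Riesz kernel on `ℝ × ℝ^m`. -/
def ker {m : ℕ} (s τ : ℝ) (y : Euc m) : ℝ≥0∞ := ENNReal.ofReal (max |τ| ‖y‖ ^ (-s))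

@[fun_prop]
lemma measurable_ker {m : ℕ} {α : Type*} [MeasurableSpace α] (s : ℝ) {f : α → ℝ} {g : α → Euc m}
    (hf : Measurable f) (hg : Measurable g) : Measurable fun a => ker s (f a) (g a) := by
  unfold ker
  fun_prop

/-- Integral of a power of the kernel over a slice. -/
lemma ker_integral {m : ℕ} {σ : ℝ} (hσ : (m : ℝ) < σ) :
    ∃ C : ℝ≥0∞, C ≠ ⊤ ∧ ∀ τ : ℝ, τ ≠ 0 →
      ∫⁻ y : Euc m, ker σ τ y ≤ C * ENNReal.ofReal (|τ| ^ ((m : ℝ) - σ)) := by
  set J : ℝ≥0∞ := ∫⁻ y : Euc m, ENNReal.ofReal ((1 + ‖y‖) ^ (-σ)) with hJ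
  have hJ' : J < ⊤ := finite_integral_one_add_norm (μ := volume) (by simpa using hσ)
  refine ⟨ENNReal.ofReal (2 ^ σ) * J, ENNReal.mul_ne_top ENNReal.ofReal_ne_top hJ'.ne,
    fun τ hτ => ?_⟩
  set a := |τ| with ha
  have ha0 : 0 < a := abs_pos.2 hτ
  have hσ0 : 0 ≤ σ := le_trans (Nat.cast_nonneg m) hσ.le
  have hpt : ∀ y : Euc m, ker σ τ y
      ≤ ENNReal.ofReal (2 ^ σ * a ^ (-σ)) * ENNReal.ofReal ((1 + ‖a⁻¹ • y‖) ^ (-σ)) := by
    intro y
    rw [ker, ← ENNReal.ofReal_mul (by positivity)]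
    refine ENNReal.ofReal_le_ofReal ?_
    have h1 : a / 2 * (1 + ‖a⁻¹ • y‖) ≤ max a ‖y‖ := by
      rw [norm_smul, norm_inv, Real.norm_eq_abs, abs_of_pos ha0]
      have : a / 2 * (1 + a⁻¹ * ‖y‖) = a / 2 + ‖y‖ / 2 := by field_simp
      rw [this]
      linarith [le_max_left a ‖y‖, le_max_right a ‖y‖]
    refine (Real.rpow_le_rpow_of_nonpos (by positivity) h1 (by linarith)).trans (le_of_eq ?_)
    rw [Real.mul_rpow (by positivity) (by positivity), Real.div_rpow ha0.le (by norm_num),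
      Real.rpow_neg zero_le_two, div_inv_eq_mul]
    ring
  calc ∫⁻ y : Euc m, ker σ τ y
      ≤ ∫⁻ y : Euc m, ENNReal.ofReal (2 ^ σ * a ^ (-σ)) *
          ENNReal.ofReal ((1 + ‖a⁻¹ • y‖) ^ (-σ)) := lintegral_mono hpt
    _ = ENNReal.ofReal (2 ^ σ * a ^ (-σ)) *
          ∫⁻ y : Euc m, ENNReal.ofReal ((1 + ‖y‖) ^ (-σ))
            ∂Measure.map (fun x : Euc m => a⁻¹ • x) volume := by
        rw [lintegral_const_mul' _ _ ENNReal.ofReal_ne_top,
          lintegral_map (by fun_prop) (by fun_prop)]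
    _ = ENNReal.ofReal (2 ^ σ) * J * ENNReal.ofReal (a ^ ((m : ℝ) - σ)) := by
        rw [Measure.map_addHaar_smul volume (inv_ne_zero ha0.ne'), lintegral_smul_measure,
          finrank_euclideanSpace_fin, smul_eq_mul, ← hJ, inv_pow, inv_inv,
          abs_of_pos (pow_pos ha0 m), sub_eq_add_neg, Real.rpow_add ha0, Real.rpow_natCast,
          ENNReal.ofReal_mul (by positivity), ENNReal.ofReal_mul (by positivity)]
        ring

/-- Young's inequality for convolutions of nonnegative functions on a slice. -/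
lemma young {m : ℕ} {k l μ : ℝ} (hl : 1 ≤ l) (hlk : l ≤ k) (hμ0 : 0 < μ)
    (hμ : 1 + 1 / k = 1 / l + 1 / μ) {h f : Euc m → ℝ≥0∞} (hh : Measurable h)
    (hf : Measurable f) :
    ∫⁻ z, (∫⁻ w, h (z - w) * f w) ^ k
      ≤ ((∫⁻ y, h y ^ μ) ^ (1 / μ) * (∫⁻ w, f w ^ l) ^ (1 / l)) ^ k := by
  set H := ∫⁻ y, h y ^ μ with hH
  set F := ∫⁻ w, f w ^ l with hF
  have hl0 : 0 < l := by linarith
  have hk0 : 0 < k := by linarith
  set a := 1 / k with ha
  set b := 1 / l - 1 / k with hb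
  set c := 1 - 1 / l with hc
  have ha0 : 0 ≤ a := by positivity
  have hb0 : 0 ≤ b := sub_nonneg.2 (one_div_le_one_div_of_le hl0 hlk)
  have hc0 : 0 ≤ c := sub_nonneg.2 ((div_le_one hl0).2 hl)
  have hac : 1 / μ = a + c := by rw [ha, hc]; linarith
  have hab : 1 / l = a + b := by rw [ha, hb]; ring
  have hpt : ∀ z w, h (z - w) * f w
      = (h (z - w) ^ μ * f w ^ l) ^ a * (f w ^ l) ^ b * (h (z - w) ^ μ) ^ c := by
    intro z w
    have e1 : μ * a + μ * c = 1 := by rw [← mul_add, ← hac]; field_simp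
    have e2 : l * a + l * b = 1 := by rw [← mul_add, ← hab]; field_simp
    have f1 : h (z - w) = (h (z - w) ^ μ) ^ a * (h (z - w) ^ μ) ^ c := by
      rw [← ENNReal.rpow_mul, ← ENNReal.rpow_mul,
        ← ENNReal.rpow_add_of_nonneg _ _ (by positivity) (by positivity), e1, ENNReal.rpow_one]
    have f2 : f w = (f w ^ l) ^ a * (f w ^ l) ^ b := by
      rw [← ENNReal.rpow_mul, ← ENNReal.rpow_mul,
        ← ENNReal.rpow_add_of_nonneg _ _ (by positivity) (by positivity), e2, ENNReal.rpow_one]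
    rw [ENNReal.mul_rpow_of_nonneg _ _ ha0]
    nth_rewrite 1 [f1]
    nth_rewrite 1 [f2]
    ring
  have hP : ∀ z, (∫⁻ w, h (z - w) * f w) ^ k
      ≤ (∫⁻ w, h (z - w) ^ μ * f w ^ l) * (F ^ b * H ^ c) ^ k := by
    intro z
    have hH' : ∫⁻ w, h (z - w) ^ μ = H := lintegral_sub_left_eq_self (fun y => h y ^ μ) z
    have h3 := ENNReal.lintegral_prod_norm_pow_le (μ := (volume : Measure (Euc m)))
      (Finset.univ : Finset (Fin 3))
      (f := ![fun w => h (z - w) ^ μ * f w ^ l, fun w => f w ^ l, fun w => h (z - w) ^ μ])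
      (fun i _ => by fin_cases i <;> (simp; fun_prop)) (p := ![a, b, c])
      (by simp [Fin.sum_univ_three, ha, hb, hc])
      (fun i _ => by fin_cases i <;> simp [ha0, hb0, hc0])
    simp only [Fin.prod_univ_three, Matrix.cons_val_zero, Matrix.cons_val_one,
      Matrix.cons_val] at h3
    rw [← hF, hH'] at h3
    calc (∫⁻ w, h (z - w) * f w) ^ k
        ≤ ((∫⁻ w, h (z - w) ^ μ * f w ^ l) ^ a * F ^ b * H ^ c) ^ k :=
          ENNReal.rpow_le_rpow (le_of_eq_of_le (lintegral_congr (hpt z)) h3) hk0.le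
      _ = _ := by
          rw [mul_assoc, ENNReal.mul_rpow_of_nonneg _ _ hk0.le, ← ENNReal.rpow_mul,
            show a * k = 1 by rw [ha]; field_simp, ENNReal.rpow_one]
  have hsw : ∫⁻ z, ∫⁻ w, h (z - w) ^ μ * f w ^ l = H * F := by
    rw [lintegral_lintegral_swap (by fun_prop)]
    have : ∀ w, ∫⁻ z, h (z - w) ^ μ * f w ^ l = H * f w ^ l := fun w => by
      rw [lintegral_mul_const _ (by fun_prop), lintegral_sub_right_eq_self (fun y => h y ^ μ) w]
    rw [lintegral_congr this, lintegral_const_mul _ (by fun_prop)]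
  calc ∫⁻ z, (∫⁻ w, h (z - w) * f w) ^ k
      ≤ ∫⁻ z, (∫⁻ w, h (z - w) ^ μ * f w ^ l) * (F ^ b * H ^ c) ^ k := lintegral_mono hP
    _ = H * F * (F ^ b * H ^ c) ^ k := by
        rw [lintegral_mul_const _ (Measurable.lintegral_prod_right' (f := fun p : Euc m × Euc m =>
          h (p.1 - p.2) ^ μ * f p.2 ^ l) (by fun_prop)), hsw]
    _ = ((H * F) ^ a * (F ^ b * H ^ c)) ^ k := by
        rw [ENNReal.mul_rpow_of_nonneg ((H * F) ^ a) _ hk0.le, ← ENNReal.rpow_mul,
          show a * k = 1 by rw [ha]; field_simp, ENNReal.rpow_one]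
    _ = _ := by
        rw [hac, hab, ENNReal.rpow_add_of_nonneg _ _ ha0 hc0,
          ENNReal.rpow_add_of_nonneg _ _ ha0 hb0, ENNReal.mul_rpow_of_nonneg _ _ ha0]
        congr 1
        ring

/-- Minkowski's integral inequality, given a bound on the slices. -/
lemma minkowski {α β : Type*} [MeasurableSpace α] [MeasurableSpace β] {ν : Measure α}
    {ρ : Measure β} [SFinite ν] [SFinite ρ] {k : ℝ} (hk : 1 ≤ k) {Φ : α → β → ℝ≥0∞}
    (hΦ : Measurable (Function.uncurry Φ)) {A : α → ℝ≥0∞} (hA : Measurable A)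
    (h : ∀ᵐ t ∂ν, ∫⁻ z, Φ t z ^ k ∂ρ ≤ A t ^ k) :
    (∫⁻ z, (∫⁻ t, Φ t z ∂ν) ^ k ∂ρ) ^ (1 / k) ≤ ∫⁻ t, A t ∂ν := by
  by_cases hI : ∫⁻ t, A t ∂ν = ⊤
  · simp [hI]
  have hk0 : 0 < k := by linarith
  have hk1 : 1 / k ≤ 1 := (div_le_one hk0).2 hk
  set Ψ : α → β → ℝ≥0∞ := fun t z => Φ t z ^ k * A t ^ (1 - k) with hΨ
  have hae : ∀ᵐ t ∂ν, ∀ᵐ z ∂ρ, Φ t z ≤ Ψ t z ^ (1 / k) * A t ^ (1 - 1 / k) := by
    filter_upwards [h, ae_lt_top hA hI] with t ht htop
    by_cases h0 : A t = 0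
    · have h0' : ∫⁻ z, Φ t z ^ k ∂ρ = 0 := by
        rw [h0, ENNReal.zero_rpow_of_pos hk0] at ht
        exact nonpos_iff_eq_zero.1 ht
      rw [lintegral_eq_zero_iff (by fun_prop)] at h0'
      filter_upwards [h0'] with z hz
      have : Φ t z = 0 := by simpa [ENNReal.rpow_eq_zero_iff, hk0, hk0.le, not_lt.2 hk0.le] using hz
      simp [this]
    · refine Eventually.of_forall fun z => le_of_eq ?_
      simp only [hΨ]
      rw [ENNReal.mul_rpow_of_nonneg _ _ (by positivity), ← ENNReal.rpow_mul, ← ENNReal.rpow_mul,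
        mul_assoc, ← ENNReal.rpow_add _ _ h0 htop.ne, mul_one_div_cancel hk0.ne',
        show (1 - k) * (1 / k) + (1 - 1 / k) = 0 by field_simp; ring]
      simp
  replace hae : ∀ᵐ z ∂ρ, ∀ᵐ t ∂ν, Φ t z ≤ Ψ t z ^ (1 / k) * A t ^ (1 - 1 / k) :=
    (Measure.ae_ae_comm (p := fun t z => Φ t z ≤ Ψ t z ^ (1 / k) * A t ^ (1 - 1 / k))
      (measurableSet_le (by fun_prop) (by fun_prop))).1 hae
  have hz : ∀ᵐ z ∂ρ, (∫⁻ t, Φ t z ∂ν) ^ k
      ≤ (∫⁻ t, Ψ t z ∂ν) * (∫⁻ t, A t ∂ν) ^ (k - 1) := by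
    filter_upwards [hae] with z hz
    calc (∫⁻ t, Φ t z ∂ν) ^ k ≤ (∫⁻ t, Ψ t z ^ (1 / k) * A t ^ (1 - 1 / k) ∂ν) ^ k :=
          ENNReal.rpow_le_rpow (lintegral_mono_ae hz) hk0.le
      _ ≤ ((∫⁻ t, Ψ t z ∂ν) ^ (1 / k) * (∫⁻ t, A t ∂ν) ^ (1 - 1 / k)) ^ k :=
          ENNReal.rpow_le_rpow (ENNReal.lintegral_mul_norm_pow_le (by fun_prop) (by fun_prop)
            (by positivity) (by linarith) (by ring)) hk0.le
      _ = _ := by
          rw [ENNReal.mul_rpow_of_nonneg _ _ hk0.le, ← ENNReal.rpow_mul, ← ENNReal.rpow_mul,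
            show 1 / k * k = 1 by field_simp, show (1 - 1 / k) * k = k - 1 by field_simp,
            ENNReal.rpow_one]
  have hΨA : ∀ᵐ t ∂ν, ∫⁻ z, Ψ t z ∂ρ ≤ A t := by
    filter_upwards [h, ae_lt_top hA hI] with t ht htop
    simp only [hΨ]
    rw [lintegral_mul_const _ (by fun_prop)]
    refine (mul_le_mul_left ht _).trans ?_
    by_cases h0 : A t = 0
    · simp [h0, ENNReal.zero_rpow_of_pos hk0]
    · rw [← ENNReal.rpow_add _ _ h0 htop.ne, show k + (1 - k) = 1 by ring, ENNReal.rpow_one]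
  have hfin : ∫⁻ z, (∫⁻ t, Φ t z ∂ν) ^ k ∂ρ ≤ (∫⁻ t, A t ∂ν) ^ k := by
    calc ∫⁻ z, (∫⁻ t, Φ t z ∂ν) ^ k ∂ρ
        ≤ ∫⁻ z, (∫⁻ t, Ψ t z ∂ν) * (∫⁻ t, A t ∂ν) ^ (k - 1) ∂ρ := lintegral_mono_ae hz
      _ = (∫⁻ t, ∫⁻ z, Ψ t z ∂ρ ∂ν) * (∫⁻ t, A t ∂ν) ^ (k - 1) := by
          rw [lintegral_mul_const _ (Measurable.lintegral_prod_left'
            (f := fun p : α × β => Ψ p.1 p.2) (by fun_prop)),
            lintegral_lintegral_swap (f := Ψ) (by fun_prop)]
      _ ≤ (∫⁻ t, A t ∂ν) * (∫⁻ t, A t ∂ν) ^ (k - 1) :=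
          mul_le_mul_left (lintegral_mono_ae hΨA) _
      _ = _ := by
          nth_rewrite 1 [← ENNReal.rpow_one (∫⁻ t, A t ∂ν)]
          rw [← ENNReal.rpow_add_of_nonneg _ _ zero_le_one (by linarith)]
          ring_nf
  refine (ENNReal.rpow_le_rpow hfin (by positivity)).trans (le_of_eq ?_)
  rw [← ENNReal.rpow_mul, show k * (1 / k) = 1 by field_simp, ENNReal.rpow_one]

/-- A power of `|x|` above `-1` is integrable on a bounded interval. -/
lemma lintegral_abs_rpow {e : ℝ} (he : -1 < e) (R : ℝ) :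
    ∫⁻ x in Icc (-R) R, ENNReal.ofReal (|x| ^ e) < ⊤ := by
  rcases lt_or_ge R 0 with hR | hR
  · simp [Icc_eq_empty (show ¬(-R ≤ R) by linarith)]
  have h1 : IntervalIntegrable (fun x : ℝ => |x| ^ e) volume 0 R :=
    (intervalIntegral.intervalIntegrable_rpow' he).congr fun x hx => by
      rw [uIoc_of_le hR] at hx
      simp [abs_of_pos hx.1]
  have h2 : IntervalIntegrable (fun x : ℝ => |x| ^ e) volume (-R) 0 := by
    simpa using ((IntervalIntegrable.iff_comp_neg (by simp)).1 h1).symm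
  have h3 := h2.trans h1
  rw [intervalIntegrable_iff_integrableOn_Icc_of_le (by linarith)] at h3
  exact h3.integrable.lintegral_lt_top

/-- The slice bound when `l ≤ k`. -/
lemma slice_bound_of_le {m : ℕ} {k l s : ℝ} (hl : 1 ≤ l) (hlk : l ≤ k)
    (hs : s < 1 + m * (1 + 1 / k - 1 / l)) (D : ℝ) :
    ∃ C : ℝ≥0∞, C ≠ ⊤ ∧ ∀ g : ℝ → Euc m → ℝ≥0∞, Measurable (Function.uncurry g) →
      (∀ t w, g t w ≠ 0 → |t| ≤ D ∧ ‖w‖ ≤ D) →
      ∫⁻ r in Icc (-D) D, (∫⁻ z in Metric.closedBall (0 : Euc m) D,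
          (∫⁻ t, ∫⁻ w, ker s (r - t) (z - w) * g t w) ^ k) ^ (1 / k)
        ≤ C * ∫⁻ t, (∫⁻ w, g t w ^ l) ^ (1 / l) := by
  have hl0 : 0 < l := by linarith
  have hk : 1 ≤ k := hl.trans hlk
  have hk0 : 0 < k := by linarith
  set ι := 1 + 1 / k - 1 / l with hι
  have hι0 : 0 < ι := by
    have h1 : 1 / l ≤ 1 := (div_le_one hl0).2 hl
    have h2 : 0 < 1 / k := by positivity
    linarith
  set μ := 1 / ι with hμ
  have hμ0 : 0 < μ := by positivity
  set s' := max s (m * ι + 1 / 2) with hs'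
  have hσ : (m : ℝ) < s' * μ := by
    rw [hμ, mul_one_div, lt_div_iff₀ hι0]
    linarith [le_max_right s (m * ι + 1 / 2)]
  obtain ⟨C₁, hC₁, hker⟩ := ker_integral hσ
  set e := ((m : ℝ) - s' * μ) * (1 / μ) with he
  have he1 : -1 < e := by
    have : e = m * ι - s' := by rw [he, hμ]; field_simp
    rw [this]
    have : s' < 1 + m * ι := max_lt hs (by linarith)
    linarith
  set R := 2 * |D| + 1 with hR
  have hR0 : 0 ≤ R := by positivity
  set Rc := ENNReal.ofReal (R ^ (s' - s)) with hRc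
  set E := ∫⁻ x in Icc (-R) R, ENNReal.ofReal (|x| ^ e) with hE
  have hC₁' : C₁ ^ (1 / μ) ≠ ⊤ := ENNReal.rpow_ne_top_of_nonneg (by positivity) hC₁
  have hK : Rc * C₁ ^ (1 / μ) ≠ ⊤ := ENNReal.mul_ne_top ENNReal.ofReal_ne_top hC₁'
  refine ⟨Rc * C₁ ^ (1 / μ) * E, ENNReal.mul_ne_top hK (lintegral_abs_rpow he1 R).ne,
    fun g hg hsupp => ?_⟩
  have hgw : ∀ t, Measurable (g t) := fun t => hg.of_uncurry_left
  set G : ℝ → ℝ≥0∞ := fun t => (∫⁻ w, g t w ^ l) ^ (1 / l) with hG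
  have hGm : Measurable G :=
    (Measurable.lintegral_prod_right' (f := fun p : ℝ × Euc m => g p.1 p.2 ^ l)
      (hg.pow_const l)).pow_const _
  have hG0 : ∀ t, G t ≠ 0 → |t| ≤ D := by
    intro t ht
    by_contra hn
    refine ht ?_
    have : ∀ w, g t w = 0 := fun w => by
      by_contra h
      exact hn (hsupp t w h).1
    simp [hG, this, ENNReal.zero_rpow_of_pos hl0, ENNReal.zero_rpow_of_pos (inv_pos.2 hl0)]
  have slice : ∀ r ∈ Icc (-D) D,
      (∫⁻ z in Metric.closedBall (0 : Euc m) D,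
        (∫⁻ t, ∫⁻ w, ker s (r - t) (z - w) * g t w) ^ k) ^ (1 / k)
        ≤ ∫⁻ t, Rc * C₁ ^ (1 / μ) * (ENNReal.ofReal (|r - t| ^ e) * G t) := by
    intro r hr
    have hmk : Measurable fun p : (ℝ × Euc m) × Euc m =>
        ker s (r - p.1.1) (p.1.2 - p.2) * g p.1.1 p.2 :=
      (measurable_ker s (by fun_prop) (by fun_prop)).mul
        (hg.comp ((measurable_fst.comp measurable_fst).prodMk measurable_snd))
    refine minkowski hk (Φ := fun t z => ∫⁻ w, ker s (r - t) (z - w) * g t w)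
      hmk.lintegral_prod_right' (by fun_prop) ?_
    filter_upwards [Measure.ae_ne volume r] with t ht
    have hrt : 0 < |r - t| := abs_pos.2 (sub_ne_zero.2 (Ne.symm ht))
    calc ∫⁻ z in Metric.closedBall (0 : Euc m) D, (∫⁻ w, ker s (r - t) (z - w) * g t w) ^ k
        ≤ ∫⁻ z in Metric.closedBall (0 : Euc m) D,
            Rc ^ k * (∫⁻ w, ker s' (r - t) (z - w) * g t w) ^ k := by
          refine setLIntegral_mono' measurableSet_closedBall fun z hz => ?_
          rw [← ENNReal.mul_rpow_of_nonneg _ _ hk0.le,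
            ← lintegral_const_mul' _ _ ENNReal.ofReal_ne_top]
          refine ENNReal.rpow_le_rpow (lintegral_mono fun w => ?_) hk0.le
          by_cases hw : g t w = 0
          · simp [hw]
          obtain ⟨htD, hwD⟩ := hsupp t w hw
          rw [← mul_assoc, ker, ker, ← ENNReal.ofReal_mul (by positivity)]
          refine mul_le_mul_left (ENNReal.ofReal_le_ofReal ?_) _
          have hX : max |r - t| ‖z - w‖ ≤ R := by
            rw [mem_closedBall_zero_iff] at hz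
            have hrD : |r| ≤ D := abs_le.2 hr
            refine max_le ?_ ?_
            · linarith [abs_sub r t, le_abs_self D]
            · linarith [norm_sub_le z w, le_abs_self D]
          have hX0 : 0 < max |r - t| ‖z - w‖ := lt_max_of_lt_left hrt
          calc max |r - t| ‖z - w‖ ^ (-s)
              = max |r - t| ‖z - w‖ ^ (s' - s) * max |r - t| ‖z - w‖ ^ (-s') := by
                rw [← Real.rpow_add hX0]; ring_nf
            _ ≤ R ^ (s' - s) * max |r - t| ‖z - w‖ ^ (-s') :=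
                mul_le_mul_of_nonneg_right
                  (Real.rpow_le_rpow hX0.le hX (sub_nonneg.2 (le_max_left _ _))) (by positivity)
      _ ≤ ∫⁻ z, Rc ^ k * (∫⁻ w, ker s' (r - t) (z - w) * g t w) ^ k :=
          setLIntegral_le_lintegral _ _
      _ ≤ Rc ^ k * ((∫⁻ y, ker s' (r - t) y ^ μ) ^ (1 / μ) * G t) ^ k := by
          rw [lintegral_const_mul' _ _ (ENNReal.rpow_ne_top_of_nonneg hk0.le ENNReal.ofReal_ne_top)]
          exact mul_le_mul_right (young hl hlk hμ0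
            (by rw [hμ, one_div_one_div, hι]; ring) (h := fun y => ker s' (r - t) y)
            (measurable_ker _ measurable_const measurable_id) (hgw t)) _
      _ ≤ Rc ^ k * (C₁ ^ (1 / μ) * ENNReal.ofReal (|r - t| ^ e) * G t) ^ k := by
          refine mul_le_mul_right (ENNReal.rpow_le_rpow (mul_le_mul_left ?_ _) hk0.le) _
          have : ∀ y : Euc m, ker s' (r - t) y ^ μ = ker (s' * μ) (r - t) y := fun y => by
            rw [ker, ker, ENNReal.ofReal_rpow_of_nonneg (by positivity) hμ0.le,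
              ← Real.rpow_mul (le_max_of_le_left (abs_nonneg _)), neg_mul]
          rw [lintegral_congr this]
          refine (ENNReal.rpow_le_rpow (hker _ (sub_ne_zero.2 (Ne.symm ht)))
            (by positivity)).trans (le_of_eq ?_)
          rw [ENNReal.mul_rpow_of_nonneg _ _ (by positivity),
            ENNReal.ofReal_rpow_of_nonneg (by positivity) (by positivity),
            ← Real.rpow_mul hrt.le]
      _ = _ := by
          rw [← ENNReal.mul_rpow_of_nonneg _ _ hk0.le]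
          ring_nf
  calc ∫⁻ r in Icc (-D) D, (∫⁻ z in Metric.closedBall (0 : Euc m) D,
        (∫⁻ t, ∫⁻ w, ker s (r - t) (z - w) * g t w) ^ k) ^ (1 / k)
      ≤ ∫⁻ r in Icc (-D) D, ∫⁻ t, Rc * C₁ ^ (1 / μ) * (ENNReal.ofReal (|r - t| ^ e) * G t) :=
        setLIntegral_mono' measurableSet_Icc slice
    _ = ∫⁻ t, Rc * C₁ ^ (1 / μ) * (G t * ∫⁻ r in Icc (-D) D, ENNReal.ofReal (|r - t| ^ e)) := by
        rw [lintegral_lintegral_swap (by fun_prop)]
        refine lintegral_congr fun t => ?_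
        rw [lintegral_const_mul' _ _ hK, lintegral_mul_const _ (by fun_prop), mul_comm (G t)]
    _ ≤ ∫⁻ t, Rc * C₁ ^ (1 / μ) * (G t * E) := by
        refine lintegral_mono fun t => mul_le_mul_right ?_ _
        by_cases ht : G t = 0
        · simp [ht]
        refine mul_le_mul_right ?_ _
        calc ∫⁻ r in Icc (-D) D, ENNReal.ofReal (|r - t| ^ e)
            = ∫⁻ r, (Icc (-D) D).indicator (fun r => ENNReal.ofReal (|r - t| ^ e)) r :=
              (lintegral_indicator measurableSet_Icc _).symm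
          _ ≤ ∫⁻ r, (Icc (-R) R).indicator (fun x => ENNReal.ofReal (|x| ^ e)) (r - t) := by
              refine lintegral_mono fun r => ?_
              by_cases hr : r ∈ Icc (-D) D
              · have hrR : r - t ∈ Icc (-R) R := by
                  refine abs_le.1 ?_
                  linarith [abs_sub r t, hG0 t ht, abs_le.2 hr, le_abs_self D]
                rw [indicator_of_mem hr, indicator_of_mem hrR]
              · rw [indicator_of_notMem hr]; exact zero_le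
          _ = E := by
              rw [lintegral_sub_right_eq_self
                (fun x => (Icc (-R) R).indicator (fun x => ENNReal.ofReal (|x| ^ e)) x) t,
                lintegral_indicator measurableSet_Icc]
    _ = Rc * C₁ ^ (1 / μ) * E * ∫⁻ t, G t := by
        rw [lintegral_const_mul' _ _ hK, lintegral_mul_const _ hGm]
        ring

/-- The slice bound: `L¹_r L^k_z` norm of a potential against the `L¹_t L^l_w` norm. -/
theorem slice_bound {m : ℕ} (_hm : 2 ≤ m) {k l s : ℝ} (hk : 1 ≤ k) (hl : 1 ≤ l) (_hs0 : 0 ≤ s)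
    (hs : s < 1 + m * (1 + 1 / k - 1 / l)) (hs1 : s < 1 + m) (D : ℝ) :
    ∃ C : ℝ≥0∞, C ≠ ⊤ ∧ ∀ g : ℝ → Euc m → ℝ≥0∞, Measurable (Function.uncurry g) →
      (∀ t w, g t w ≠ 0 → |t| ≤ D ∧ ‖w‖ ≤ D) →
      ∫⁻ r in Set.Icc (-D) D, (∫⁻ z in Metric.closedBall (0 : Euc m) D,
          (∫⁻ t, ∫⁻ w, ENNReal.ofReal (max |r - t| ‖z - w‖ ^ (-s)) * g t w) ^ k) ^ (1 / k)
        ≤ C * ∫⁻ t, (∫⁻ w, g t w ^ l) ^ (1 / l) := by
  rcases le_or_gt l k with hlk | hkl
  · exact slice_bound_of_le hl hlk hs D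
  obtain ⟨C, hC, hb⟩ := slice_bound_of_le (k := l) (m := m) (s := s) hl le_rfl
    (by simpa using hs1) D
  set V := volume (Metric.closedBall (0 : Euc m) D) with hV
  have hk0 : 0 < k := by linarith
  have hl0 : 0 < l := by linarith
  have hd : 0 ≤ 1 / k - 1 / l := sub_nonneg.2 (one_div_le_one_div_of_le hk0 hkl.le)
  have hVd : V ^ (1 / k - 1 / l) ≠ ⊤ :=
    ENNReal.rpow_ne_top_of_nonneg hd measure_closedBall_lt_top.ne
  refine ⟨V ^ (1 / k - 1 / l) * C, ENNReal.mul_ne_top hVd hC, fun g hg hsupp => ?_⟩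
  refine le_trans ?_ (le_of_le_of_eq (mul_le_mul_right (hb g hg hsupp) (V ^ (1 / k - 1 / l)))
    (mul_assoc _ _ _).symm)
  rw [← lintegral_const_mul' _ _ hVd]
  refine lintegral_mono fun r => ?_
  set ρ := volume.restrict (Metric.closedBall (0 : Euc m) D) with hρ
  set U : Euc m → ℝ≥0∞ := fun z => ∫⁻ t, ∫⁻ w, ker s (r - t) (z - w) * g t w with hU
  have hm3 : Measurable fun p : (Euc m × ℝ) × Euc m =>
      ker s (r - p.1.2) (p.1.1 - p.2) * g p.1.2 p.2 :=
    (measurable_ker s (by fun_prop) (by fun_prop)).mul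
      (hg.comp ((measurable_snd.comp measurable_fst).prodMk measurable_snd))
  have hUm : Measurable U := hm3.lintegral_prod_right'.lintegral_prod_right'
  have hkl' : k / l ≤ 1 := (div_le_one hl0).2 hkl.le
  change (∫⁻ z, U z ^ k ∂ρ) ^ (1 / k) ≤ V ^ (1 / k - 1 / l) * (∫⁻ z, U z ^ l ∂ρ) ^ (1 / l)
  calc (∫⁻ z, U z ^ k ∂ρ) ^ (1 / k)
      = (∫⁻ z, (U z ^ l) ^ (k / l) * (1 : ℝ≥0∞) ^ (1 - k / l) ∂ρ) ^ (1 / k) := by
        simp only [← ENNReal.rpow_mul, ENNReal.one_rpow, mul_one, mul_div_cancel₀ k hl0.ne']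
    _ ≤ ((∫⁻ z, U z ^ l ∂ρ) ^ (k / l) * (∫⁻ _, (1 : ℝ≥0∞) ∂ρ) ^ (1 - k / l)) ^ (1 / k) :=
        ENNReal.rpow_le_rpow (ENNReal.lintegral_mul_norm_pow_le (by fun_prop) (by fun_prop)
          (by positivity) (by linarith) (by ring)) (by positivity)
    _ = V ^ (1 / k - 1 / l) * (∫⁻ z, U z ^ l ∂ρ) ^ (1 / l) := by
        rw [hρ, setLIntegral_one, ← hV, ENNReal.mul_rpow_of_nonneg _ _ (by positivity),
          ← ENNReal.rpow_mul, ← ENNReal.rpow_mul, mul_comm,
          show k / l * (1 / k) = 1 / l by field_simp,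
          show (1 - k / l) * (1 / k) = 1 / k - 1 / l by field_simp]

/-- Hölder in the slice variable, for densities supported in a bounded slab. -/
theorem slice_holder {m : ℕ} {l : ℝ} (hl : 1 ≤ l) (D : ℝ) :
    ∃ C : ℝ≥0∞, C ≠ ⊤ ∧ ∀ g : ℝ → Euc m → ℝ≥0∞, Measurable (Function.uncurry g) →
      (∀ t w, g t w ≠ 0 → |t| ≤ D) →
      ∫⁻ t, (∫⁻ w, g t w ^ l) ^ (1 / l) ≤ C * (∫⁻ t, ∫⁻ w, g t w ^ l) ^ (1 / l) := by
  have hl0 : 0 < l := by linarith
  have hc : 0 ≤ 1 - 1 / l := sub_nonneg.2 ((div_le_one hl0).2 hl)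
  refine ⟨volume (Icc (-D) D) ^ (1 - 1 / l),
    ENNReal.rpow_ne_top_of_nonneg hc measure_Icc_lt_top.ne, fun g hg hsupp => ?_⟩
  set F : ℝ → ℝ≥0∞ := fun t => ∫⁻ w, g t w ^ l with hF
  have hFm : Measurable F := Measurable.lintegral_prod_right'
    (f := fun p : ℝ × Euc m => g p.1 p.2 ^ l) (hg.pow_const l)
  calc ∫⁻ t, F t ^ (1 / l)
      = ∫⁻ t in Icc (-D) D, F t ^ (1 / l) * (1 : ℝ≥0∞) ^ (1 - 1 / l) := by
        simp only [ENNReal.one_rpow, mul_one]
        refine (setLIntegral_eq_of_support_subset ?_).symm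
        intro t ht
        by_contra hn
        refine ht ?_
        have : ∀ w, g t w = 0 := fun w => by
          by_contra h
          exact hn (abs_le.1 (hsupp t w h))
        simp [hF, this, ENNReal.zero_rpow_of_pos hl0, ENNReal.zero_rpow_of_pos (inv_pos.2 hl0)]
    _ ≤ (∫⁻ t in Icc (-D) D, F t) ^ (1 / l) * (∫⁻ _ in Icc (-D) D, (1 : ℝ≥0∞)) ^ (1 - 1 / l) :=
        ENNReal.lintegral_mul_norm_pow_le hFm.aemeasurable (by fun_prop) (by positivity) hc
          (by ring)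
    _ ≤ (∫⁻ t, F t) ^ (1 / l) * volume (Icc (-D) D) ^ (1 - 1 / l) := by
        rw [setLIntegral_one]
        exact mul_le_mul_left (ENNReal.rpow_le_rpow (setLIntegral_le_lintegral _ _)
          (by positivity)) _
    _ = _ := mul_comm _ _

end Vale.Agent.P100C
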